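import Mathlib

/-!
# One-variable Artin approximation (kernel form), helper822

`k` a field of characteristic zero, `O = k⟦X⟧`.  Every `k[X]`-algebra homomorphism from a
polynomial ring in finitely many unknowns to `O` can be approximated `X`-adically by
homomorphisms with algebraic values and a LARGER kernel: all polynomial identities survive.
-/

namespace Claimed.Agent.R246.AAOne

open Polynomial

section Hensel

variable {R : Type*} [CommRing R]

/-- Newton iteration in an adically complete ring (Mathlib's proof of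
`IsAdicComplete.henselianRing`, which never uses that the polynomial is monic). -/
theorem hensel_simple (I : Ideal R) [IsAdicComplete I R] (f : R[X]) (a₀ : R)
    (h₁ : f.eval a₀ ∈ I) (h₂ : IsUnit (Ideal.Quotient.mk I (f.derivative.eval a₀))) :
    ∃ a : R, f.IsRoot a ∧ a - a₀ ∈ I := by
  classical
  let f' := derivative f
  let c : ℕ → R := fun n => Nat.recOn n a₀ fun _ b => b - f.eval b * Ring.inverse (f'.eval b)
  have hc : ∀ n, c (n + 1) = c n - f.eval (c n) * Ring.inverse (f'.eval (c n)) := by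
    intro n
    simp only [c]
  have hc_mod : ∀ n, c n ≡ a₀ [SMOD I] := by
    intro n
    induction n with
    | zero => rfl
    | succ n ih => ?_
    rw [hc, sub_eq_add_neg, ← add_zero a₀]
    refine ih.add ?_
    rw [SModEq.zero, Ideal.neg_mem_iff]
    refine I.mul_mem_right _ ?_
    rw [← SModEq.zero] at h₁ ⊢
    exact (ih.eval f).trans h₁
  have hf'c : ∀ n, IsUnit (f'.eval (c n)) := by
    intro n
    have := isLocalHom_of_le_jacobson_bot I (IsAdicComplete.le_jacobson_bot I)
    apply IsUnit.of_map (Ideal.Quotient.mk I)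
    convert h₂ using 1
    exact SModEq.def.mp ((hc_mod n).eval _)
  have hfcI : ∀ n, f.eval (c n) ∈ I ^ (n + 1) := by
    intro n
    induction n with
    | zero =>
      have h0 : c 0 = a₀ := rfl
      rw [h0, zero_add, pow_one]
      exact h₁
    | succ n ih => ?_
    rw [← taylor_eval_sub (c n), hc, sub_eq_add_neg, sub_eq_add_neg,
      add_neg_cancel_comm]
    rw [eval_eq_sum, sum_over_range' _ _ _ (lt_add_of_pos_right _ zero_lt_two), ←
      Finset.sum_range_add_sum_Ico _ (Nat.le_add_left _ _)]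
    swap
    · intro i
      rw [zero_mul]
    refine Ideal.add_mem _ ?_ ?_
    · rw [← one_add_one_eq_two, Finset.sum_range_succ, Finset.range_one, Finset.sum_singleton,
        taylor_coeff_zero, taylor_coeff_one, pow_zero, pow_one, mul_one, mul_neg,
        mul_left_comm, Ring.mul_inverse_cancel _ (hf'c n), mul_one, add_neg_cancel]
      exact Ideal.zero_mem _
    · refine Submodule.sum_mem _ ?_
      simp only [Finset.mem_Ico]
      rintro i ⟨h2i, _⟩
      have aux : n + 2 ≤ i * (n + 1) := by trans 2 * (n + 1) <;> nlinarith only [h2i]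
      refine Ideal.mul_mem_left _ _ (Ideal.pow_le_pow_right aux ?_)
      rw [pow_mul']
      exact Ideal.pow_mem_pow ((Ideal.neg_mem_iff _).2 <| Ideal.mul_mem_right _ _ ih) _
  have aux : ∀ m n, m ≤ n → c m ≡ c n [SMOD (I ^ m • ⊤ : Ideal R)] := by
    intro m n hmn
    rw [← Ideal.one_eq_top, Ideal.smul_eq_mul, mul_one]
    obtain ⟨k, rfl⟩ := Nat.exists_eq_add_of_le hmn
    clear hmn
    induction k with
    | zero => rw [add_zero]
    | succ k ih => ?_
    rw [← add_assoc, hc, ← add_zero (c m), sub_eq_add_neg]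
    refine ih.add ?_
    symm
    rw [SModEq.zero, Ideal.neg_mem_iff]
    refine Ideal.mul_mem_right _ _ (Ideal.pow_le_pow_right ?_ (hfcI _))
    rw [add_assoc]
    exact le_self_add
  obtain ⟨a, ha⟩ := IsPrecomplete.prec' c (aux _ _)
  refine ⟨a, ?_, ?_⟩
  · show f.IsRoot a
    suffices ∀ n, f.eval a ≡ 0 [SMOD (I ^ n • ⊤ : Ideal R)] by exact IsHausdorff.haus' _ this
    intro n
    specialize ha n
    rw [← Ideal.one_eq_top, Ideal.smul_eq_mul, mul_one] at ha ⊢
    refine (ha.symm.eval f).trans ?_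
    rw [SModEq.zero]
    exact Ideal.pow_le_pow_right le_self_add (hfcI _)
  · show a - a₀ ∈ I
    specialize ha (0 + 1)
    rw [hc, pow_one, ← Ideal.one_eq_top, Ideal.smul_eq_mul, mul_one, sub_eq_add_neg] at ha
    rw [← SModEq.sub_mem, ← add_zero a₀]
    refine ha.symm.trans (SModEq.rfl.add ?_)
    rw [SModEq.zero, Ideal.neg_mem_iff]
    exact Ideal.mul_mem_right _ _ h₁

/-- Strong (Tougeron) form of Hensel's lemma in one unknown. -/
theorem hensel_strong (I : Ideal R) [IsAdicComplete I R] (f : R[X]) (a w : R) (hw : w ∈ I)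
    (hf : f.eval a = (f.derivative.eval a) ^ 2 * w) :
    ∃ z κ : R, z ∈ I ∧ f.eval (a + f.derivative.eval a * z) = 0 ∧ z * (1 + z * κ) = -w := by
  set u := f.derivative.eval a with hu
  obtain ⟨K, hK⟩ := Polynomial.binomExpansion (f.map C) (C a) (C u * X)
  have e1 : (f.map C).eval (C a) = C (f.eval a) := by
    rw [eval_map, eval₂_at_apply]
  have e2 : (f.map C).derivative.eval (C a) = C u := by
    rw [derivative_map, eval_map, eval₂_at_apply]
  rw [e1, e2] at hK
  let q : R[X] := C w + X + K * X ^ 2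
  have hq0 : q.eval 0 = w := by simp [q]
  have hq1 : q.derivative.eval 0 = 1 := by simp [q]
  obtain ⟨z, hz, hzI⟩ := hensel_simple I q 0 (by rw [hq0]; exact hw)
    (by rw [hq1, map_one]; exact isUnit_one)
  rw [sub_zero] at hzI
  have hz' : w + z + K.eval z * z ^ 2 = 0 := by
    have := hz
    simpa [q, IsRoot.def] using this
  refine ⟨z, K.eval z, hzI, ?_, ?_⟩
  · have e3 : f.eval (a + u * z) = ((f.map C).eval (C a + C u * X)).eval z := by
      rw [eval_map, ← comp, eval_comp]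
      simp
    rw [e3, hK]
    simp only [eval_add, eval_mul, eval_C, eval_X, eval_pow]
    rw [hf]
    linear_combination u ^ 2 * hz'
  · linear_combination hz'

end Hensel

section Complete

variable {k : Type*} [CommRing k]

theorem smodEq_X_pow_iff (n : ℕ) (a b : PowerSeries k) :
    a ≡ b [SMOD ((Ideal.span {(PowerSeries.X : PowerSeries k)}) ^ n • ⊤ : Ideal (PowerSeries k))] ↔
      ∀ m < n, PowerSeries.coeff m a = PowerSeries.coeff m b := by
  rw [← Ideal.one_eq_top, Ideal.smul_eq_mul, mul_one, SModEq.sub_mem, Ideal.span_singleton_pow,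
    Ideal.mem_span_singleton, PowerSeries.X_pow_dvd_iff]
  simp only [map_sub, sub_eq_zero]

theorem isAdicComplete_X :
    IsAdicComplete (Ideal.span {(PowerSeries.X : PowerSeries k)}) (PowerSeries k) where
  haus' x hx := by
    ext n
    have := (smodEq_X_pow_iff (n + 1) x 0).1 (hx (n + 1)) n (Nat.lt_succ_self n)
    simpa using this
  prec' f hf := by
    refine ⟨PowerSeries.mk fun n => PowerSeries.coeff n (f (n + 1)), fun n => ?_⟩
    rw [smodEq_X_pow_iff]
    intro m hm
    rw [PowerSeries.coeff_mk]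
    exact ((smodEq_X_pow_iff (m + 1) _ _).1 (hf (Nat.succ_le_of_lt hm)) m (Nat.lt_succ_self m)).symm

end Complete

section PS

variable {k : Type*} [Field k]

local notation "𝒪" => PowerSeries k
local notation "T" => (PowerSeries.X : PowerSeries k)

theorem dvd_X_pow_of_not_dvd (u : 𝒪) (e : ℕ) (h : ¬ T ^ (e + 1) ∣ u) : u ∣ T ^ e := by
  have hu : u ≠ 0 := by
    rintro rfl
    exact h (dvd_zero _)
  have h1 : T ^ u.order.toNat * PowerSeries.divXPowOrder u = u :=
    PowerSeries.X_pow_order_mul_divXPowOrder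
  obtain ⟨v, hv⟩ := PowerSeries.isUnit_divided_by_X_pow_order hu
  have hn : u.order.toNat ≤ e := by
    by_contra hcon
    rw [not_le] at hcon
    exact h ((pow_dvd_pow _ hcon).trans PowerSeries.X_pow_order_dvd)
  obtain ⟨n, hn'⟩ : ∃ n, n = u.order.toNat := ⟨_, rfl⟩
  rw [← hn'] at h1 hn
  refine ⟨(↑v⁻¹ : 𝒪) * T ^ (e - n), ?_⟩
  calc T ^ e = T ^ (n + (e - n)) := by rw [Nat.add_sub_cancel' hn]
    _ = T ^ n * T ^ (e - n) * ((v : 𝒪) * (↑v⁻¹ : 𝒪)) := by
        rw [Units.mul_inv, mul_one, pow_add]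
    _ = (T ^ n * (v : 𝒪)) * ((↑v⁻¹ : 𝒪) * T ^ (e - n)) := by ring
    _ = _ := by rw [hv, h1]

theorem exists_not_X_pow_dvd (u : 𝒪) (hu : u ≠ 0) : ∃ e : ℕ, ¬ T ^ (e + 1) ∣ u := by
  by_contra hcon
  simp only [not_exists, not_not] at hcon
  apply hu
  ext n
  have := (PowerSeries.X_pow_dvd_iff.1 (hcon n)) n (Nat.lt_succ_self n)
  simpa using this

/-- Hensel's lemma for power series over a field, with explicit precision. -/
theorem hensel_ps (f : 𝒪[X]) (a : 𝒪) (e N : ℕ) (hu : ¬ T ^ (e + 1) ∣ f.derivative.eval a)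
    (hf : T ^ (2 * e + N + 1) ∣ f.eval a) :
    ∃ b : 𝒪, f.eval b = 0 ∧ T ^ (N + 1) ∣ b - a := by
  obtain ⟨t, ht⟩ := dvd_X_pow_of_not_dvd _ e hu
  obtain ⟨r, hr⟩ := hf
  set u := f.derivative.eval a with hudef
  have := isAdicComplete_X (k := k)
  have hw : t ^ 2 * T ^ (N + 1) * r ∈ Ideal.span {T} := by
    rw [Ideal.mem_span_singleton]
    exact Dvd.dvd.mul_right (Dvd.dvd.mul_left (dvd_pow_self _ (Nat.succ_ne_zero N)) _) _
  obtain ⟨z, κ, hz, hroot, hzw⟩ := hensel_strong (Ideal.span {T}) f a (t ^ 2 * T ^ (N + 1) * r) hw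
    (by
      rw [hr, ← hudef]
      calc T ^ (2 * e + N + 1) * r = (T ^ e) ^ 2 * T ^ (N + 1) * r := by ring
        _ = _ := by rw [ht]; ring)
  refine ⟨a + u * z, hroot, ?_⟩
  have hunit : IsUnit (1 + z * κ) := by
    rw [PowerSeries.isUnit_iff_constantCoeff]
    rw [Ideal.mem_span_singleton, PowerSeries.X_dvd_iff] at hz
    simp [hz]
  obtain ⟨v, hv⟩ := hunit
  have hz2 : z = -(t ^ 2 * T ^ (N + 1) * r) * (↑v⁻¹ : 𝒪) := by
    rw [← hzw, ← hv, mul_assoc, Units.mul_inv, mul_one]
  rw [add_sub_cancel_left, hz2]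
  exact ⟨-(u * t ^ 2 * r * (↑v⁻¹ : 𝒪)), by ring⟩

end PS

section Step

variable {k : Type*} [Field k] {A : Type*} [CommRing A]

local notation "𝒪" => PowerSeries k
local notation "T" => (PowerSeries.X : PowerSeries k)

theorem eval₂_congr_mod (φ ψ : A →+* 𝒪) (a b : 𝒪) (M : ℕ) (h : ∀ c, T ^ M ∣ ψ c - φ c)
    (hab : T ^ M ∣ b - a) (p : A[X]) : T ^ M ∣ p.eval₂ ψ b - p.eval₂ φ a := by
  rw [← Ideal.mem_span_singleton, ← Ideal.Quotient.eq, hom_eval₂, hom_eval₂]
  have h1 : (Ideal.Quotient.mk (Ideal.span {T ^ M})).comp ψ =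
      (Ideal.Quotient.mk (Ideal.span {T ^ M})).comp φ := by
    ext c
    simp only [RingHom.comp_apply]
    rw [Ideal.Quotient.eq, Ideal.mem_span_singleton]
    exact h c
  have h2 : Ideal.Quotient.mk (Ideal.span {T ^ M}) b = Ideal.Quotient.mk (Ideal.span {T ^ M}) a := by
    rw [Ideal.Quotient.eq, Ideal.mem_span_singleton]
    exact hab
  rw [h1, h2]

theorem eval₂_eq_zero_of_map_eq_zero (φ ψ : A →+* 𝒪) (hker : ∀ c, φ c = 0 → ψ c = 0) (b : 𝒪)
    (p : A[X]) (hp : p.map φ = 0) : p.eval₂ ψ b = 0 := by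
  have h1 : p.map ψ = 0 := by
    refine Polynomial.ext fun i => ?_
    have := congrArg (fun q => q.coeff i) hp
    simp only [coeff_map, coeff_zero] at this ⊢
    exact hker _ this
  rw [← eval_map, h1, eval_zero]

theorem isAlgebraic_of_root (ψ : A →+* 𝒪) (hψ : ∀ c, IsAlgebraic k[X] (ψ c)) (G : A[X]) (b : 𝒪)
    (hG : G.map ψ ≠ 0) (hb : G.eval₂ ψ b = 0) : IsAlgebraic k[X] b := by
  let Λ := Subalgebra.algebraicClosure k[X] 𝒪
  let ψΛ : A →+* Λ := RingHom.codRestrict ψ Λ hψ
  have hcomp : (algebraMap Λ 𝒪).comp ψΛ = ψ := by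
    ext c
    rfl
  have h1 : IsAlgebraic Λ b := by
    refine ⟨G.map ψΛ, ?_, ?_⟩
    · intro h0
      apply hG
      rw [← hcomp, ← Polynomial.map_map, h0, Polynomial.map_zero]
    · rw [aeval_def, eval₂_map, hcomp, hb]
  exact h1.restrictScalars k[X]

theorem kernel_step (φ ψ : A →+* 𝒪) (hker : ∀ c, φ c = 0 → ψ c = 0) (a b : 𝒪) (G : A[X])
    (hd : 0 < G.natDegree) (hGa : G.eval₂ φ a = 0) (hGb : G.eval₂ ψ b = 0)
    (hlc : ψ G.leadingCoeff ≠ 0)
    (hmin : ∀ H : A[X], H.eval₂ φ a = 0 → H.map φ ≠ 0 → G.natDegree ≤ H.natDegree) :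
    ∀ (n : ℕ) (p : A[X]), p.natDegree ≤ n → p.eval₂ φ a = 0 → p.eval₂ ψ b = 0 := by
  intro n
  induction n with
  | zero =>
    intro p hpn hpa
    by_cases hp0 : p.map φ = 0
    · exact eval₂_eq_zero_of_map_eq_zero φ ψ hker b p hp0
    · have := hmin p hpa hp0
      omega
  | succ n ih =>
    intro p hpn hpa
    by_cases hp0 : p.map φ = 0
    · exact eval₂_eq_zero_of_map_eq_zero φ ψ hker b p hp0
    · have hdm := hmin p hpa hp0
      set d := G.natDegree with hddef
      set m := p.natDegree with hmdef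
      let p₁ : A[X] := C G.leadingCoeff * p - C p.leadingCoeff * (X ^ (m - d) * G)
      have hdeg : p₁.natDegree ≤ n := by
        rw [natDegree_le_iff_coeff_eq_zero]
        intro i hi
        have him : m ≤ i ∨ i < m := le_or_gt m i
        have hmi : m ≤ i := by omega
        simp only [p₁, coeff_sub, coeff_C_mul, coeff_X_pow_mul']
        rw [if_pos (by omega)]
        rcases Nat.eq_or_lt_of_le hmi with h | h
        · have e1 : i - (m - d) = d := by omega
          rw [e1, ← h]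
          simp only [hmdef, hddef, coeff_natDegree]
          ring
        · rw [coeff_eq_zero_of_natDegree_lt (p := p) (by omega),
            coeff_eq_zero_of_natDegree_lt (p := G) (by omega)]
          ring
      have h1 : p₁.eval₂ φ a = 0 := by
        simp only [p₁, eval₂_sub, eval₂_mul, eval₂_C, eval₂_pow, eval₂_X, hpa, hGa]
        ring
      have h2 := ih p₁ hdeg h1
      simp only [p₁, eval₂_sub, eval₂_mul, eval₂_C, eval₂_pow, eval₂_X, hGb] at h2
      have h3 : ψ G.leadingCoeff * p.eval₂ ψ b = 0 := by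
        linear_combination h2
      exact (mul_eq_zero.1 h3).resolve_left hlc

end Step

section Main

variable {k : Type*} [Field k] [CharZero k]

local notation "𝒪" => PowerSeries k
local notation "T" => (PowerSeries.X : PowerSeries k)

/-- `ψh` can be approximated by homomorphisms with algebraic values and larger kernel. -/
def Approx {A : Type*} [CommRing A] [Algebra k[X] A] (ψh : A →ₐ[k[X]] 𝒪) : Prop :=
  ∀ N : ℕ, ∃ ψ : A →ₐ[k[X]] 𝒪, (∀ c, IsAlgebraic k[X] (ψ c)) ∧ (∀ c, T ^ N ∣ ψ c - ψh c) ∧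
    ∀ c, ψh c = 0 → ψ c = 0

variable {A : Type*} [CommRing A] [Algebra k[X] A]

omit [CharZero k] in
theorem trunc_congr (a : 𝒪) (N : ℕ) : T ^ N ∣ ((PowerSeries.trunc N a : k[X]) : 𝒪) - a := by
  rw [PowerSeries.X_pow_dvd_iff]
  intro m hm
  rw [map_sub, Polynomial.coeff_coe, PowerSeries.coeff_trunc, if_pos hm, sub_self]

theorem step (ψh : A →ₐ[k[X]] 𝒪) (h : Approx ψh) (a : 𝒪) (N : ℕ) :
    ∃ (ψ : A →ₐ[k[X]] 𝒪) (b : 𝒪), (∀ c, IsAlgebraic k[X] (ψ c)) ∧ (∀ c, T ^ N ∣ ψ c - ψh c) ∧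
      (∀ c, ψh c = 0 → ψ c = 0) ∧ IsAlgebraic k[X] b ∧ T ^ N ∣ b - a ∧
      ∀ p : A[X], p.eval₂ (ψh : A →+* 𝒪) a = 0 → p.eval₂ (ψ : A →+* 𝒪) b = 0 := by
  classical
  by_cases hcase : ∃ d : ℕ, ∃ G : A[X], G.natDegree = d ∧ G.eval₂ (ψh : A →+* 𝒪) a = 0 ∧
      G.map (ψh : A →+* 𝒪) ≠ 0
  · -- algebraic case
    obtain ⟨G, hGd, hGa, hG0⟩ := Nat.find_spec hcase
    have hmin : ∀ H : A[X], H.eval₂ (ψh : A →+* 𝒪) a = 0 → H.map (ψh : A →+* 𝒪) ≠ 0 →
        G.natDegree ≤ H.natDegree := by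
      intro H h1 h2
      rw [hGd]
      exact Nat.find_min' hcase ⟨H, rfl, h1, h2⟩
    -- the leading coefficient survives
    have hlc : (ψh : A →+* 𝒪) G.leadingCoeff ≠ 0 := by
      intro h0
      have hG : G = G.eraseLead + C G.leadingCoeff * X ^ G.natDegree :=
        (eraseLead_add_C_mul_X_pow G).symm
      have h1 : G.eraseLead.map (ψh : A →+* 𝒪) = G.map (ψh : A →+* 𝒪) := by
        have := congrArg (Polynomial.map (ψh : A →+* 𝒪)) hG
        rw [Polynomial.map_add, Polynomial.map_mul, map_C, h0, C_0, zero_mul, add_zero] at this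
        exact this.symm
      have h2 : G.eraseLead.eval₂ (ψh : A →+* 𝒪) a = 0 := by
        have := congrArg (eval₂ (ψh : A →+* 𝒪) a) hG
        rw [eval₂_add, eval₂_mul, eval₂_C, h0, zero_mul, add_zero] at this
        rw [← this]
        exact hGa
      have h3 := hmin G.eraseLead h2 (by rw [h1]; exact hG0)
      rcases eraseLead_natDegree_lt_or_eraseLead_eq_zero G with h4 | h4
      · omega
      · rw [h4, Polynomial.map_zero] at h1
        exact hG0 h1.symm
    have hd : 0 < G.natDegree := by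
      rcases Nat.eq_zero_or_pos G.natDegree with h0 | h0
      · exfalso
        rw [eq_C_of_natDegree_eq_zero h0] at hGa hG0
        rw [eval₂_C] at hGa
        rw [map_C, hGa, C_0] at hG0
        exact hG0 rfl
      · exact h0
    have hu : (derivative G).eval₂ (ψh : A →+* 𝒪) a ≠ 0 := by
      intro h0
      have h1 : (derivative G).map (ψh : A →+* 𝒪) ≠ 0 := by
        rw [← derivative_map]
        intro h2
        have : CharZero 𝒪 := charZero_of_injective_algebraMap (R := k) (A := 𝒪)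
          (FaithfulSMul.algebraMap_injective k 𝒪)
        have h3 := Polynomial.derivative_eq_zero.1 h2
        rw [natDegree_map_of_leadingCoeff_ne_zero _ hlc] at h3
        omega
      have h2 := hmin _ h0 h1
      have h3 := natDegree_derivative_lt (p := G) (by omega)
      omega
    obtain ⟨e, he⟩ := exists_not_X_pow_dvd _ hu
    obtain ⟨e', he'⟩ := exists_not_X_pow_dvd _ hlc
    obtain ⟨ψ, hψalg, hψc, hψk⟩ := h (2 * e + N + 1 + e' + 1)
    have hc : ∀ (M : ℕ), M ≤ 2 * e + N + 1 + e' + 1 → ∀ c, T ^ M ∣ (ψ : A →+* 𝒪) c - (ψh : A →+* 𝒪) c :=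
      fun M hM c => (pow_dvd_pow _ hM).trans (hψc c)
    have hlc' : (ψ : A →+* 𝒪) G.leadingCoeff ≠ 0 := by
      intro h0
      have := hc (e' + 1) (by omega) G.leadingCoeff
      rw [h0, zero_sub, dvd_neg] at this
      exact he' this
    have h1 : T ^ (2 * e + N + 1) ∣ (G.map (ψ : A →+* 𝒪)).eval a := by
      have := eval₂_congr_mod (ψh : A →+* 𝒪) (ψ : A →+* 𝒪) a a _ (hc (2 * e + N + 1) (by omega))
        (by simp) G
      rwa [hGa, sub_zero, ← eval_map] at this
    have h2 : ¬ T ^ (e + 1) ∣ (G.map (ψ : A →+* 𝒪)).derivative.eval a := by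
      intro h3
      have := eval₂_congr_mod (ψh : A →+* 𝒪) (ψ : A →+* 𝒪) a a _ (hc (e + 1) (by omega))
        (by simp) (derivative G)
      rw [derivative_map, eval_map] at h3
      exact he ((dvd_sub_right h3).1 this)
    obtain ⟨b, hb, hba⟩ := hensel_ps _ a e N h2 h1
    rw [eval_map] at hb
    refine ⟨ψ, b, hψalg, fun c => hc N (by omega) c, hψk, ?_, (pow_dvd_pow _ (Nat.le_succ N)).trans hba,
      ?_⟩
    · refine isAlgebraic_of_root (ψ : A →+* 𝒪) hψalg G b ?_ hb
      intro h0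
      have := congrArg (fun q => q.coeff G.natDegree) h0
      simp only [coeff_map, coeff_natDegree, coeff_zero] at this
      exact hlc' this
    · intro p hp
      exact kernel_step (ψh : A →+* 𝒪) (ψ : A →+* 𝒪) hψk a b G hd hGa hb hlc' hmin p.natDegree p
        le_rfl hp
  · -- transcendental case
    obtain ⟨ψ, hψalg, hψc, hψk⟩ := h N
    refine ⟨ψ, ((PowerSeries.trunc N a : k[X]) : 𝒪), hψalg, hψc, hψk, ?_, trunc_congr a N, ?_⟩
    · exact isAlgebraic_algebraMap (PowerSeries.trunc N a : k[X])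
    · intro p hp
      refine eval₂_eq_zero_of_map_eq_zero (ψh : A →+* 𝒪) (ψ : A →+* 𝒪) hψk _ p ?_
      by_contra h0
      exact hcase ⟨_, p, rfl, hp, h0⟩

omit [CharZero k] in
theorem aevalTower_eq_eval₂ (ψ : A →ₐ[k[X]] 𝒪) (b : 𝒪) (p : A[X]) :
    aevalTower ψ b p = p.eval₂ (ψ : A →+* 𝒪) b := rfl

/-- Adjoining one more unknown. -/
theorem approx_aevalTower (ψh : A →ₐ[k[X]] 𝒪) (h : Approx ψh) (a : 𝒪) :
    Approx (aevalTower ψh a) := by
  intro N
  obtain ⟨ψ, b, hψalg, hψc, hψk, hb, hba, hker⟩ := step ψh h a N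
  refine ⟨aevalTower ψ b, ?_, ?_, ?_⟩
  · intro p
    rw [aevalTower_eq_eval₂, eval₂_eq_sum_range]
    exact Subalgebra.sum_mem (Subalgebra.algebraicClosure k[X] 𝒪) fun i _ =>
      Subalgebra.mul_mem _ (hψalg _) (Subalgebra.pow_mem _ hb _)
  · intro p
    rw [aevalTower_eq_eval₂, aevalTower_eq_eval₂]
    exact eval₂_congr_mod _ _ a b N hψc hba p
  · intro p hp
    rw [aevalTower_eq_eval₂] at hp ⊢
    exact hker p hp

omit [CharZero k] in
theorem approx_of_surjective_algebraMap (hs : Function.Surjective (algebraMap k[X] A))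
    (ψh : A →ₐ[k[X]] 𝒪) : Approx ψh := by
  intro N
  refine ⟨ψh, ?_, fun c => by simp, fun c hc => hc⟩
  intro c
  obtain ⟨r, rfl⟩ := hs c
  rw [AlgHom.commutes]
  exact isAlgebraic_algebraMap r

omit [CharZero k] in
theorem approx_of_equiv {B : Type*} [CommRing B] [Algebra k[X] B] (e : A ≃ₐ[k[X]] B)
    (ψh : A →ₐ[k[X]] 𝒪) (h : Approx (ψh.comp e.symm.toAlgHom)) : Approx ψh := by
  intro N
  obtain ⟨ψ, h1, h2, h3⟩ := h N
  refine ⟨ψ.comp e.toAlgHom, fun c => h1 _, fun c => ?_, fun c hc => ?_⟩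
  · have := h2 (e c)
    simpa using this
  · refine h3 (e c) ?_
    simpa using hc

theorem approx_mv (m : ℕ) (ψh : MvPolynomial (Fin m) k[X] →ₐ[k[X]] 𝒪) : Approx ψh := by
  induction m with
  | zero =>
    refine approx_of_surjective_algebraMap ?_ ψh
    rw [MvPolynomial.algebraMap_eq]
    exact MvPolynomial.C_surjective (Fin 0)
  | succ m ih =>
    refine approx_of_equiv (B := (MvPolynomial (Fin m) k[X])[X]) (MvPolynomial.finSuccEquiv k[X] m) ψh ?_
    set Ψ := ψh.comp (MvPolynomial.finSuccEquiv k[X] m).symm.toAlgHom with hΨ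
    have h1 : Ψ = aevalTower (Ψ.comp CAlgHom) (Ψ X) := by
      apply Polynomial.algHom_ext'
      · refine AlgHom.ext fun c => ?_
        simp [CAlgHom]
      · simp
    rw [h1]
    exact approx_aevalTower _ (ih _) _

/-- **One-variable Artin approximation, kernel form.** -/
theorem artin_one (m : ℕ) (yh : Fin m → 𝒪) (N : ℕ) :
    ∃ y : Fin m → 𝒪, (∀ i, IsAlgebraic k[X] (y i)) ∧ (∀ i, T ^ N ∣ y i - yh i) ∧
      ∀ p : MvPolynomial (Fin m) k[X], MvPolynomial.aeval yh p = 0 → MvPolynomial.aeval y p = 0 := by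
  obtain ⟨ψ, h1, h2, h3⟩ := approx_mv m (MvPolynomial.aeval yh) N
  have hψ : ψ = MvPolynomial.aeval fun i => ψ (MvPolynomial.X i) := by
    apply MvPolynomial.algHom_ext
    intro i
    simp
  refine ⟨fun i => ψ (MvPolynomial.X i), fun i => h1 _, fun i => ?_, fun p hp => ?_⟩
  · have := h2 (MvPolynomial.X i)
    simpa using this
  · rw [← hψ]
    exact h3 p hp

/-- **One-variable Artin approximation, homomorphism form**: every homomorphism from a finitely
generated `k[X]`-algebra to `k⟦X⟧` is a limit of homomorphisms with algebraic values. -/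
theorem approx_of_finiteType [Algebra.FiniteType k[X] A] (ψh : A →ₐ[k[X]] 𝒪) : Approx ψh := by
  obtain ⟨m, f, hf⟩ := Algebra.FiniteType.iff_quotient_mvPolynomial''.1
    (inferInstance : Algebra.FiniteType k[X] A)
  intro N
  obtain ⟨ψ, h1, h2, h3⟩ := approx_mv m (ψh.comp f) N
  have H : RingHom.ker f.toRingHom ≤ RingHom.ker ψ.toRingHom := by
    intro c hc
    rw [RingHom.mem_ker] at hc ⊢
    refine h3 c ?_
    have hc' : f c = 0 := hc
    simp [hc']
  refine ⟨AlgHom.liftOfSurjective f hf ψ H, fun c => ?_, fun c => ?_, fun c hc => ?_⟩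
  · obtain ⟨c, rfl⟩ := hf c
    rw [AlgHom.liftOfSurjective_apply]
    exact h1 c
  · obtain ⟨c, rfl⟩ := hf c
    rw [AlgHom.liftOfSurjective_apply]
    exact h2 c
  · obtain ⟨c, rfl⟩ := hf c
    rw [AlgHom.liftOfSurjective_apply]
    exact h3 c hc

/-- **AR** of helper350's blueprint `R246_T.md`: `S ⊆ k⟦X⟧` a finitely generated `k[X]`-subalgebra.
There is a `k[X]`-algebra homomorphism from `S` to the algebraic power series which is the
identity modulo `X ^ N`. -/
theorem AR (S : Subalgebra k[X] 𝒪) (hS : S.FG) (N : ℕ) :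
    ∃ ψ : S →ₐ[k[X]] Subalgebra.algebraicClosure k[X] 𝒪, ∀ x : S, T ^ N ∣ ((ψ x : 𝒪) - (x : 𝒪)) := by
  have : Algebra.FiniteType k[X] S := (Subalgebra.fg_iff_finiteType S).1 hS
  obtain ⟨ψ, h1, h2, -⟩ := approx_of_finiteType S.val N
  exact ⟨ψ.codRestrict _ h1, fun x => h2 x⟩

/-- `AR` for the subalgebra generated by a finite set. -/
theorem AR_adjoin (s : Finset 𝒪) (N : ℕ) :
    ∃ ψ : Algebra.adjoin k[X] (s : Set 𝒪) →ₐ[k[X]] Subalgebra.algebraicClosure k[X] 𝒪,
      ∀ x : Algebra.adjoin k[X] (s : Set 𝒪), T ^ N ∣ ((ψ x : 𝒪) - (x : 𝒪)) :=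
  AR _ ⟨s, rfl⟩ N

omit [CharZero k] in
/-- congruent series: non-vanishing survives. -/
theorem ne_zero_of_congr {x y : 𝒪} {N : ℕ} (h : T ^ N ∣ y - x) (hx : ¬ T ^ N ∣ x) : y ≠ 0 := by
  rintro rfl
  rw [zero_sub, dvd_neg] at h
  exact hx h

omit [CharZero k] in
/-- congruent series have the same coefficients below the precision. -/
theorem coeff_eq_of_congr {x y : 𝒪} {N : ℕ} (h : T ^ N ∣ y - x) {n : ℕ} (hn : n < N) :
    PowerSeries.coeff n y = PowerSeries.coeff n x := by
  have := PowerSeries.X_pow_dvd_iff.1 h n hn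
  rwa [map_sub, sub_eq_zero] at this

omit [CharZero k] in
theorem constantCoeff_eq_of_congr {x y : 𝒪} {N : ℕ} (h : T ^ (N + 1) ∣ y - x) :
    PowerSeries.constantCoeff y = PowerSeries.constantCoeff x := by
  rw [← PowerSeries.coeff_zero_eq_constantCoeff_apply, ← PowerSeries.coeff_zero_eq_constantCoeff_apply]
  exact coeff_eq_of_congr h (Nat.succ_pos N)

end Main

end Claimed.Agent.R246.AAOne
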