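import Mathlib

/-!
# Row 246: ideals stable under derivations (characteristic zero)

* `dsRadical_stable` : the radical of a `D`-stable ideal is `D`-stable (`ℚ`-algebra).
* `dsMinimalPrimes_stable` : minimal primes over a `D`-stable ideal are `D`-stable
  (noetherian `ℚ`-algebra).
-/

set_option autoImplicit false

namespace Claimed.Agent.R246

variable {k A : Type*} [CommRing k] [CommRing A] [Algebra k A]

/-- one step of the radical argument -/
theorem dsStep [Algebra ℚ A] (D : Derivation k A A) (I : Ideal A) (hI : ∀ a ∈ I, D a ∈ I)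
    (a : A) (m j : ℕ) (h : a ^ (m + 1) * (D a) ^ j ∈ I) : a ^ m * (D a) ^ (j + 2) ∈ I := by
  have h1 : D (a ^ (m + 1) * (D a) ^ j) ∈ I := hI _ h
  have h2 : D a * D (a ^ (m + 1) * (D a) ^ j)
      = ((m + 1 : ℕ) : A) * (a ^ m * (D a) ^ (j + 2))
        + (j : A) * D (D a) * (a ^ (m + 1) * (D a) ^ j) := by
    rw [Derivation.leibniz, Derivation.leibniz_pow, Derivation.leibniz_pow]
    simp only [smul_eq_mul, nsmul_eq_mul, Nat.add_sub_cancel]
    rcases j with _ | j
    · simp; ring
    · simp only [Nat.add_sub_cancel]; push_cast; ring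
  have h3 : ((m + 1 : ℕ) : A) * (a ^ m * (D a) ^ (j + 2)) ∈ I := by
    have h4 : ((m + 1 : ℕ) : A) * (a ^ m * (D a) ^ (j + 2))
        = D a * D (a ^ (m + 1) * (D a) ^ j)
          - (j : A) * D (D a) * (a ^ (m + 1) * (D a) ^ j) := by rw [h2]; ring
    rw [h4]
    exact I.sub_mem (I.mul_mem_left _ h1) (I.mul_mem_left _ h)
  have h5 : algebraMap ℚ A ((m + 1 : ℕ) : ℚ)⁻¹ * (((m + 1 : ℕ) : A) * (a ^ m * (D a) ^ (j + 2)))
      = a ^ m * (D a) ^ (j + 2) := by
    have h6 : algebraMap ℚ A ((m + 1 : ℕ) : ℚ)⁻¹ * ((m + 1 : ℕ) : A) = 1 := by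
      rw [← map_natCast (algebraMap ℚ A), ← map_mul, inv_mul_cancel₀, map_one]
      exact_mod_cast Nat.succ_ne_zero m
    rw [← mul_assoc, h6, one_mul]
  rw [← h5]
  exact I.mul_mem_left _ h3

theorem dsPow [Algebra ℚ A] (D : Derivation k A A) (I : Ideal A) (hI : ∀ a ∈ I, D a ∈ I)
    (a : A) (m : ℕ) : ∀ j : ℕ, a ^ m * (D a) ^ j ∈ I → (D a) ^ (j + 2 * m) ∈ I := by
  induction m with
  | zero => intro j h; simpa using h
  | succ m ih =>
    intro j h
    have := ih (j + 2) (dsStep D I hI a m j h)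
    have e : j + 2 + 2 * m = j + 2 * (m + 1) := by ring
    rwa [e] at this

/-- The radical of a `D`-stable ideal is `D`-stable. -/
theorem dsRadical_stable [Algebra ℚ A] (D : Derivation k A A) (I : Ideal A)
    (hI : ∀ a ∈ I, D a ∈ I) : ∀ a ∈ I.radical, D a ∈ I.radical := by
  intro a ha
  obtain ⟨n, hn⟩ := ha
  refine ⟨0 + 2 * n, dsPow D I hI a n 0 ?_⟩
  simpa using hn

/-- colon ideals of radical stable ideals are stable -/
theorem dsColon_stable (D : Derivation k A A) (I : Ideal A) (hrad : I.IsRadical)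
    (hI : ∀ a ∈ I, D a ∈ I) (s a : A) (h : a * s ∈ I) : D a * s ∈ I := by
  have h1 : D (a * s) ∈ I := hI _ h
  rw [Derivation.leibniz] at h1
  simp only [smul_eq_mul] at h1
  apply hrad
  refine ⟨2, ?_⟩
  have : (D a * s) ^ 2 = D a * (s * (a * D s + s * D a)) - D a * D s * (a * s) := by ring
  rw [this]
  exact I.sub_mem (I.mul_mem_left _ (I.mul_mem_left _ h1)) (I.mul_mem_left _ h)

/-- Minimal primes over a `D`-stable ideal are `D`-stable. -/
theorem dsMinimalPrimes_stable [Algebra ℚ A] [IsNoetherianRing A] (D : Derivation k A A)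
    (I : Ideal A) (hI : ∀ a ∈ I, D a ∈ I) (p : Ideal A) (hp : p ∈ I.minimalPrimes) :
    ∀ a ∈ p, D a ∈ p := by
  classical
  have hfin : (I.minimalPrimes).Finite := Ideal.finite_minimalPrimes_of_isNoetherianRing A I
  have hpp : p.IsPrime := hp.1.1
  -- choose `s`
  have hch : ∀ q ∈ I.minimalPrimes, q ≠ p → ∃ s ∈ q, s ∉ p := by
    intro q hq hqp
    by_contra hcon
    push Not at hcon
    have hle : q ≤ p := fun x hx => hcon x hx
    exact hqp (le_antisymm hle (hp.2 hq.1 hle))
  choose! f hf1 hf2 using hch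
  set S : Finset (Ideal A) := hfin.toFinset.erase p with hS
  set s : A := ∏ q ∈ S, f q with hs
  have hsp : s ∉ p := by
    intro h
    rw [hs, hpp.prod_mem_iff] at h
    obtain ⟨q, hq, hqf⟩ := h
    rw [hS, Finset.mem_erase, Set.Finite.mem_toFinset] at hq
    exact hf2 q hq.2 hq.1 hqf
  have hrad : I.radical = sInf I.minimalPrimes := (Ideal.sInf_minimalPrimes).symm
  have hmem : ∀ a ∈ p, a * s ∈ I.radical := by
    intro a ha
    rw [hrad, Ideal.mem_sInf]
    intro q hq
    by_cases hqp : q = p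
    · rw [hqp]; exact p.mul_mem_right _ ha
    · apply q.mul_mem_left
      have hqS : q ∈ S := by
        rw [hS, Finset.mem_erase, Set.Finite.mem_toFinset]; exact ⟨hqp, hq⟩
      rw [hs, ← Finset.mul_prod_erase S f hqS]
      exact q.mul_mem_right _ (hf1 q hq hqp)
  intro a ha
  have h1 : D a * s ∈ I.radical :=
    dsColon_stable D I.radical (Ideal.radical_isRadical I) (dsRadical_stable D I hI) s a (hmem a ha)
  have h2 : D a * s ∈ p := by
    have : I.radical ≤ p := hpp.radical_le_iff.mpr hp.1.2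
    exact this h1
  exact (hpp.mem_or_mem h2).resolve_right hsp

end Claimed.Agent.R246
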