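import Mathlib

/-!
# Row 246: a derivation killing the base kills every integral element (domain, char. 0)
-/

set_option autoImplicit false

namespace Claimed.Agent.R246

open Polynomial

/-- `R`-linear derivations of a char. 0 domain vanish at integral elements. -/
theorem dsDer_integral_eq_zero {R B : Type*} [CommRing R] [CommRing B] [IsDomain B] [CharZero B]
    [Algebra R B] (δ : Derivation R B B) (b : B) (hb : IsIntegral R b) : δ b = 0 := by
  classical
  -- the set of degrees of polynomials killing `b`, nonzero in `B[T]`
  let S : Set ℕ := {n | ∃ g : R[X], aeval b g = 0 ∧ g.map (algebraMap R B) ≠ 0 ∧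
    (g.map (algebraMap R B)).natDegree = n}
  have hS : S.Nonempty := by
    obtain ⟨g, hg, hgb⟩ := hb
    refine ⟨_, g, ?_, ?_, rfl⟩
    · rw [aeval_def]; exact hgb
    · exact (hg.map _).ne_zero
  obtain ⟨g, hg0, hg1, hg2⟩ := Nat.sInf_mem hS
  have hmin : ∀ n ∈ S, sInf S ≤ n := fun n hn => Nat.sInf_le hn
  set G := g.map (algebraMap R B) with hG
  have hGb : G.eval b = 0 := by
    rw [hG, eval_map_algebraMap]; exact hg0
  have hdeg : G.natDegree ≠ 0 := by
    intro h0
    rw [natDegree_eq_zero] at h0
    obtain ⟨c, hc⟩ := h0
    rw [← hc, eval_C] at hGb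
    rw [hGb, map_zero] at hc
    exact hg1 hc.symm
  have hder : aeval b (derivative g) ≠ 0 := by
    intro h0
    have hmap : (derivative g).map (algebraMap R B) = derivative G := by
      rw [hG, derivative_map]
    have hnd : (derivative G).natDegree < G.natDegree := natDegree_derivative_lt hdeg
    have hne : derivative G ≠ 0 := by
      intro hz
      exact hdeg (Polynomial.derivative_eq_zero.mp hz)
    have hmem : (derivative G).natDegree ∈ S := ⟨derivative g, h0, by rw [hmap]; exact hne, by rw [hmap]⟩
    have := hmin _ hmem
    rw [← hg2] at this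
    omega
  have h := Derivation.map_aeval δ g b
  rw [hg0, map_zero] at h
  have h' : aeval b (derivative g) * δ b = 0 := by
    simpa [smul_eq_mul] using h.symm
  exact (mul_eq_zero.mp h').resolve_left hder

/-- Turn a derivation that kills the image of `R` into an `R`-linear derivation. -/
noncomputable def dsLinearize {k R B : Type*} [CommRing k] [CommRing R] [CommRing B] [Algebra k B]
    [Algebra R B] (δ : Derivation k B B) (h : ∀ r : R, δ (algebraMap R B r) = 0) :
    Derivation R B B where
  toFun := δ
  map_add' := δ.map_add
  map_smul' := by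
    intro r b
    rw [RingHom.id_apply, Algebra.smul_def, Derivation.leibniz, h, smul_zero, add_zero,
      smul_eq_mul, Algebra.smul_def]
  map_one_eq_zero' := δ.map_one_eq_zero
  leibniz' := δ.leibniz

theorem dsDer_eq_zero_of_kills {k R B : Type*} [CommRing k] [CommRing R] [CommRing B] [IsDomain B]
    [CharZero B] [Algebra k B] [Algebra R B] [Algebra.IsIntegral R B] (δ : Derivation k B B)
    (h : ∀ r : R, δ (algebraMap R B r) = 0) : δ = 0 := by
  ext b
  exact dsDer_integral_eq_zero (dsLinearize δ h) b (Algebra.IsIntegral.isIntegral b)

end Claimed.Agent.R246
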