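import Mathlib

/-!
# Row 246: derivations of a "power series like" base ring are determined on the variables

`DSBase k P` is the abstract interface of `k[[s,t]]`: two elements `x 0, x 1`, two partial
derivatives, polynomial approximation modulo powers of `(x 0, x 1)`, differential simplicity, and
`(x 0, x 1)` inside the Jacobson radical.
-/

set_option autoImplicit false

namespace Claimed.Agent.R246

/-- abstract interface of the ring `k[[s,t]]` -/
structure DSBase (k P : Type*) [CommRing k] [CommRing P] [Algebra k P] where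
  /-- the two variables -/
  x : Fin 2 → P
  /-- the two partial derivatives -/
  d : Fin 2 → Derivation k P P
  d_x : ∀ i j, d i (x j) = if i = j then 1 else 0
  approx : ∀ (g : P) (n : ℕ), ∃ p : MvPolynomial (Fin 2) k,
    g - MvPolynomial.aeval x p ∈ (Ideal.span (Set.range x)) ^ n
  simple : ∀ b : Ideal P, b ≠ ⊥ → (∀ i, ∀ f ∈ b, d i f ∈ b) → b = ⊤
  jac : Ideal.span (Set.range x) ≤ (⊥ : Ideal P).jacobson

variable {k P B : Type*} [CommRing k] [CommRing P] [Algebra k P] [CommRing B] [Algebra k B]
  [Algebra P B] [IsScalarTower k P B]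

omit [IsScalarTower k P B] in
theorem dsDer_aeval_eq_zero (x : Fin 2 → P) (E : Derivation k P B) (hE : ∀ i, E (x i) = 0)
    (p : MvPolynomial (Fin 2) k) : E (MvPolynomial.aeval x p) = 0 := by
  induction p using MvPolynomial.induction_on with
  | C a => simp
  | add p q hp hq => rw [map_add, map_add, hp, hq, add_zero]
  | mul_X p i hp => rw [map_mul, Derivation.leibniz, MvPolynomial.aeval_X, hE, hp]; simp

theorem dsDer_mem_pow (M : Ideal P) (E : Derivation k P B) (n : ℕ) :
    ∀ g ∈ M ^ (n + 1), E g ∈ (M.map (algebraMap P B)) ^ n := by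
  induction n with
  | zero => intro g _; simp
  | succ n ih =>
    intro g hg
    rw [pow_succ] at hg
    refine Submodule.mul_induction_on hg ?_ ?_
    · intro a ha b hb
      rw [Derivation.leibniz]
      apply Ideal.add_mem
      · rw [Algebra.smul_def]
        apply Ideal.mul_mem_right
        rw [← Ideal.map_pow]
        exact Ideal.mem_map_of_mem _ ha
      · rw [Algebra.smul_def, pow_succ, mul_comm]
        exact Ideal.mul_mem_mul (Ideal.mem_map_of_mem _ hb) (ih a ha)
    · intro a b ha hb
      rw [map_add]
      exact Ideal.add_mem _ ha hb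

/-- A derivation of the base into a noetherian domain which kills the variables is zero. -/
theorem dsDer_eq_zero_of_vars [IsNoetherianRing B] [IsDomain B] (x : Fin 2 → P)
    (approx : ∀ (g : P) (n : ℕ), ∃ p : MvPolynomial (Fin 2) k,
      g - MvPolynomial.aeval x p ∈ (Ideal.span (Set.range x)) ^ n)
    (hproper : (Ideal.span (Set.range x)).map (algebraMap P B) ≠ ⊤)
    (E : Derivation k P B) (hE : ∀ i, E (x i) = 0) (g : P) : E g = 0 := by
  have hbot := Ideal.iInf_pow_eq_bot_of_isDomain _ hproper
  have hmem : E g ∈ ⨅ i : ℕ, ((Ideal.span (Set.range x)).map (algebraMap P B)) ^ i := by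
    rw [Ideal.mem_iInf]
    intro n
    obtain ⟨p, hp⟩ := approx g (n + 1)
    have h1 := dsDer_mem_pow (B := B) _ E n _ hp
    rwa [map_sub, dsDer_aeval_eq_zero x E hE, sub_zero] at h1
  rw [hbot] at hmem
  simpa using hmem

/-- properness of `(x)B` for a nontrivial finite `P`-algebra -/
theorem dsProper [Nontrivial B] [Module.Finite P B] (M : Ideal P)
    (hjac : M ≤ (⊥ : Ideal P).jacobson) : M.map (algebraMap P B) ≠ ⊤ := by
  intro htop
  have h1 : (⊤ : Submodule P B) ≤ M • (⊤ : Submodule P B) := by
    rw [Ideal.smul_top_eq_map, htop]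
    intro b _
    simp
  have h2 := Submodule.eq_bot_of_le_smul_of_le_jacobson_bot M (⊤ : Submodule P B)
    Module.Finite.fg_top h1 hjac
  have : (1 : B) ∈ (⊥ : Submodule P B) := by rw [← h2]; trivial
  rw [Submodule.mem_bot] at this
  exact one_ne_zero this

end Claimed.Agent.R246
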