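import Claimed.Agent.R246.DS1
import Claimed.Agent.R246.DS2
import Claimed.Agent.R246.DS3

/-!
# Row 246: theorem DS

`A` a domain, finite over `P = k[[s,t]]` (abstract interface `DSBase`), `D 0, D 1` two
`k`-derivations of `A`.  Every nonzero ideal of `A` stable under `D 0, D 1` contains, up to radical,
all the minors `D 0 g * D 1 h - D 0 h * D 1 g`.
-/

set_option autoImplicit false

namespace Claimed.Agent.R246

section quotient

variable {k P B : Type*} [Field k] [CharZero k] [CommRing P] [Algebra k P]
  [CommRing B] [IsDomain B] [Algebra k B] [Algebra P B] [IsScalarTower k P B] [Module.Finite P B]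
  [IsNoetherianRing B]

/-- chain rule on the image of the base -/
theorem dsChain (base : DSBase k P) (δ : Derivation k B B) (g : P) :
    δ (algebraMap P B g) = δ (algebraMap P B (base.x 0)) * algebraMap P B (base.d 0 g)
      + δ (algebraMap P B (base.x 1)) * algebraMap P B (base.d 1 g) := by
  let E : Derivation k P B := δ.compAlgebraMap P
    - (δ (algebraMap P B (base.x 0)) • (Algebra.linearMap P B).compDer (base.d 0)
      + δ (algebraMap P B (base.x 1)) • (Algebra.linearMap P B).compDer (base.d 1))
  have hE : ∀ i, E (base.x i) = 0 := by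
    intro i
    fin_cases i <;> simp [E, base.d_x]
  have h := dsDer_eq_zero_of_vars base.x base.approx (dsProper _ base.jac) E hE g
  simp only [E, Derivation.sub_apply, Derivation.add_apply, Derivation.smul_apply,
    Derivation.compAlgebraMap_apply, Derivation.coe_comp, LinearMap.coe_comp,
    Function.comp_apply, LinearMap.coe_restrictScalars, Derivation.coeFn_coe,
    Algebra.linearMap_apply, smul_eq_mul] at h
  exact sub_eq_zero.mp h

/-- a derivation killing both variables is zero -/
theorem dsKill (base : DSBase k P) (δ : Derivation k B B)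
    (h0 : δ (algebraMap P B (base.x 0)) = 0) (h1 : δ (algebraMap P B (base.x 1)) = 0) : δ = 0 := by
  have : CharZero B := charZero_of_injective_algebraMap (algebraMap k B).injective
  have : Algebra.IsIntegral P B := Algebra.IsIntegral.of_finite P B
  apply dsDer_eq_zero_of_kills (R := P) δ
  intro r
  rw [dsChain base δ r, h0, h1]; simp

/-- if the two values at the variables satisfy a nontrivial linear relation for every derivation,
two derivations are proportional -/
theorem dsProp (base : DSBase k P) (i j : Fin 2) (hij : ∀ δ : Derivation k B B,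
      δ (algebraMap P B (base.x i)) = 0 → δ (algebraMap P B (base.x j)) = 0 → δ = 0)
    (c : B) (hc : c ≠ 0) (c' : B)
    (hrel : ∀ δ : Derivation k B B,
      δ (algebraMap P B (base.x i)) * c + δ (algebraMap P B (base.x j)) * c' = 0)
    (D0 D1 : Derivation k B B) (g h : B) : D0 g * D1 h - D0 h * D1 g = 0 := by
  have hkill : ∀ δ : Derivation k B B, δ (algebraMap P B (base.x j)) = 0 → δ = 0 := by
    intro δ hδ
    apply hij δ _ hδ
    have := hrel δ
    rw [hδ, zero_mul, add_zero] at this
    exact (mul_eq_zero.mp this).resolve_right hc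
  set lam := D0 (algebraMap P B (base.x j)) with hlam
  set mu := D1 (algebraMap P B (base.x j)) with hmu
  have hδ : mu • D0 - lam • D1 = 0 := by
    apply hkill
    simp only [Derivation.sub_apply, Derivation.smul_apply, smul_eq_mul, ← hlam, ← hmu]
    ring
  have hall : ∀ a, mu * D0 a = lam * D1 a := by
    intro a
    have := congrArg (fun E : Derivation k B B => E a) hδ
    simp only [Derivation.sub_apply, Derivation.smul_apply, smul_eq_mul,
      Derivation.coe_zero, Pi.zero_apply] at this
    exact sub_eq_zero.mp this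
  by_cases hl : lam = 0
  · by_cases hm : mu = 0
    · have h0 : D0 = 0 := hkill D0 hl
      rw [h0]; simp
    · apply (mul_eq_zero.mp (?_ : mu * (D0 g * D1 h - D0 h * D1 g) = 0)).resolve_left hm
      calc mu * (D0 g * D1 h - D0 h * D1 g) = (mu * D0 g) * D1 h - (mu * D0 h) * D1 g := by ring
        _ = 0 := by rw [hall, hall]; ring
  · apply (mul_eq_zero.mp (?_ : lam * (D0 g * D1 h - D0 h * D1 g) = 0)).resolve_left hl
    calc lam * (D0 g * D1 h - D0 h * D1 g) = D0 g * (lam * D1 h) - D0 h * (lam * D1 g) := by ring
      _ = 0 := by rw [← hall, ← hall]; ring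

/-- On a domain `B`, finite over the base with nonzero kernel, any two derivations are
proportional. -/
theorem dsQuot_minor (base : DSBase k P) (hker : RingHom.ker (algebraMap P B) ≠ ⊥)
    (D0 D1 : Derivation k B B) (g h : B) : D0 g * D1 h - D0 h * D1 g = 0 := by
  have hne : RingHom.ker (algebraMap P B) ≠ ⊤ := RingHom.ker_ne_top _
  have hex : ∃ i, ∃ f ∈ RingHom.ker (algebraMap P B), base.d i f ∉ RingHom.ker (algebraMap P B) := by
    by_contra hcon
    push Not at hcon
    exact hne (base.simple _ hker hcon)
  obtain ⟨i, f, hf, hfi⟩ := hex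
  rw [RingHom.mem_ker] at hf hfi
  have hrel : ∀ δ : Derivation k B B,
      δ (algebraMap P B (base.x 0)) * algebraMap P B (base.d 0 f)
      + δ (algebraMap P B (base.x 1)) * algebraMap P B (base.d 1 f) = 0 := by
    intro δ
    rw [← dsChain base δ f, hf, map_zero]
  fin_cases i
  · exact dsProp base 0 1 (fun δ h0 h1 => dsKill base δ h0 h1) _ hfi _ hrel D0 D1 g h
  · exact dsProp base 1 0 (fun δ h1 h0 => dsKill base δ h0 h1) _ hfi _
      (fun δ => by rw [add_comm]; exact hrel δ) D0 D1 g h

end quotient

variable {k P A : Type*} [Field k] [CharZero k] [CommRing P] [Algebra k P] [IsNoetherianRing P]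
  [CommRing A] [IsDomain A] [Algebra k A] [Algebra P A] [IsScalarTower k P A] [Module.Finite P A]

/-- A nonzero prime ideal stable under `D 0, D 1` contains all minors. -/
theorem dsPrime_minor (base : DSBase k P) (D : Fin 2 → Derivation k A A) (q : Ideal A)
    [hqp : q.IsPrime] (hq0 : q ≠ ⊥) (hq : ∀ i, ∀ a ∈ q, D i a ∈ q) (g h : A) :
    D 0 g * D 1 h - D 0 h * D 1 g ∈ q := by
  have : IsNoetherianRing A := IsNoetherianRing.of_finite P A
  have hsurj : Function.Surjective (Ideal.Quotient.mkₐ k q) := Ideal.Quotient.mkₐ_surjective k q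
  have hd : ∀ i, ∀ x, Ideal.Quotient.mkₐ k q x = 0 → Ideal.Quotient.mkₐ k q (D i x) = 0 := by
    intro i x hx
    rw [Ideal.Quotient.mkₐ_eq_mk, Ideal.Quotient.eq_zero_iff_mem] at hx ⊢
    exact hq i x hx
  let Dq : Fin 2 → Derivation k (A ⧸ q) (A ⧸ q) := fun i =>
    Derivation.liftOfSurjective hsurj (hd i)
  have hDq : ∀ i a, Dq i (Ideal.Quotient.mkₐ k q a) = Ideal.Quotient.mkₐ k q (D i a) := fun i a =>
    Derivation.liftOfSurjective_apply hsurj (hd i) a
  have hker : RingHom.ker (algebraMap P (A ⧸ q)) ≠ ⊥ := by
    obtain ⟨a, haq, ha0⟩ := Submodule.exists_mem_ne_zero_of_ne_bot hq0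
    have : Nontrivial P := (algebraMap P A).domain_nontrivial
    have h1 := Ideal.comap_ne_bot_of_integral_mem (R := P) ha0 haq
      (Algebra.IsIntegral.isIntegral (R := P) a)
    intro hbot
    apply h1
    rw [eq_bot_iff] at hbot ⊢
    intro r hr
    apply hbot
    rw [RingHom.mem_ker, IsScalarTower.algebraMap_apply P A (A ⧸ q), Ideal.Quotient.algebraMap_eq,
      Ideal.Quotient.eq_zero_iff_mem]
    exact hr
  have hmain := dsQuot_minor base hker (Dq 0) (Dq 1) (Ideal.Quotient.mkₐ k q g)
    (Ideal.Quotient.mkₐ k q h)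
  rw [hDq, hDq, hDq, hDq, ← map_mul, ← map_mul, ← map_sub, Ideal.Quotient.mkₐ_eq_mk,
    Ideal.Quotient.eq_zero_iff_mem] at hmain
  exact hmain

/-- **Theorem DS.** Every nonzero ideal stable under `D 0, D 1` contains all the minors up to
radical. -/
theorem dsStable_minor_mem_radical (base : DSBase k P) (D : Fin 2 → Derivation k A A)
    (I : Ideal A) (hI0 : I ≠ ⊥) (hI : ∀ i, ∀ a ∈ I, D i a ∈ I) (g h : A) :
    D 0 g * D 1 h - D 0 h * D 1 g ∈ I.radical := by
  have : IsNoetherianRing A := IsNoetherianRing.of_finite P A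
  let _ : Algebra ℚ A := ((algebraMap k A).comp (algebraMap ℚ k)).toAlgebra
  rw [← Ideal.sInf_minimalPrimes, Ideal.mem_sInf]
  intro p hp
  have : p.IsPrime := hp.1.1
  apply dsPrime_minor base D p
  · intro hbot
    apply hI0
    rw [eq_bot_iff, ← hbot]
    exact hp.1.2
  · intro i
    exact dsMinimalPrimes_stable (D i) I (hI i) p hp

/-- Ideal version: the ideal of minors is contained in the radical. -/
theorem dsStable_minors_le_radical (base : DSBase k P) (D : Fin 2 → Derivation k A A)
    (I : Ideal A) (hI0 : I ≠ ⊥) (hI : ∀ i, ∀ a ∈ I, D i a ∈ I) :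
    Ideal.span {m : A | ∃ g h, m = D 0 g * D 1 h - D 0 h * D 1 g} ≤ I.radical := by
  rw [Ideal.span_le]
  rintro _ ⟨g, h, rfl⟩
  exact dsStable_minor_mem_radical base D I hI0 hI g h

end Claimed.Agent.R246
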