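import Claimed.Agent.R246.DS4

/-!
# Row 246: `MvPowerSeries (Fin 2) k` satisfies the interface `DSBase`
-/

set_option autoImplicit false

namespace Claimed.Agent.R246

open MvPowerSeries

variable {k : Type*} [Field k]

theorem dsAeval_X_eq_coe (p : MvPolynomial (Fin 2) k) :
    MvPolynomial.aeval (fun i => (X i : MvPowerSeries (Fin 2) k)) p = (p : MvPowerSeries (Fin 2) k) := by
  induction p using MvPolynomial.induction_on with
  | C a => simp [MvPowerSeries.algebraMap_apply]
  | add p q hp hq => rw [map_add, hp, hq, MvPolynomial.coe_add]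
  | mul_X p i hp => rw [map_mul, hp, MvPolynomial.aeval_X, MvPolynomial.coe_mul, MvPolynomial.coe_X]

theorem dsDegree_fin2 (d : Fin 2 →₀ ℕ) : d.degree = d 0 + d 1 := by
  rw [Finsupp.degree_eq_sum, Fin.sum_univ_two]

/-- a power series without terms of degree `< n` lies in `(X 0, X 1) ^ n` -/
theorem dsMem_pow (n : ℕ) : ∀ g : MvPowerSeries (Fin 2) k, (∀ d, d.degree < n → coeff d g = 0) →
    g ∈ (Ideal.span (Set.range (X : Fin 2 → MvPowerSeries (Fin 2) k))) ^ n := by
  induction n with
  | zero => intro g _; simp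
  | succ n ih =>
    intro g hg
    set M := Ideal.span (Set.range (X : Fin 2 → MvPowerSeries (Fin 2) k)) with hM
    have hX : ∀ i, (X i : MvPowerSeries (Fin 2) k) ∈ M := fun i =>
      Ideal.subset_span (Set.mem_range_self i)
    let g2 : MvPowerSeries (Fin 2) k := fun d => if d 0 = 0 then coeff d g else 0
    have hg2 : ∀ d, coeff d g2 = if d 0 = 0 then coeff d g else 0 := fun d => rfl
    have h2 : g2 ∈ M ^ (n + 1) := by
      have hdvd : (X 1 : MvPowerSeries (Fin 2) k) ^ (n + 1) ∣ g2 := by
        rw [X_pow_dvd_iff]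
        intro m hm
        rw [hg2]
        split_ifs with h0
        · apply hg
          rw [dsDegree_fin2, h0]; omega
        · rfl
      obtain ⟨c, hc⟩ := hdvd
      rw [hc]
      exact Ideal.mul_mem_right _ _ (Ideal.pow_mem_pow (hX 1) _)
    have h1 : g - g2 ∈ M ^ (n + 1) := by
      have hdvd : (X 0 : MvPowerSeries (Fin 2) k) ∣ g - g2 := by
        rw [X_dvd_iff]
        intro m hm
        rw [map_sub, hg2, if_pos hm, sub_self]
      obtain ⟨c, hc⟩ := hdvd
      have hcM : c ∈ M ^ n := by
        apply ih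
        intro d hd
        have e1 : coeff (Finsupp.single 0 1 + d) (g - g2) = coeff d c := by
          rw [hc, X, coeff_add_monomial_mul, one_mul]
        rw [← e1, map_sub, hg2, if_neg (by simp), sub_zero]
        apply hg
        rw [dsDegree_fin2] at hd ⊢
        simp only [Finsupp.add_apply, Finsupp.single_eq_same]
        have : (Finsupp.single (0 : Fin 2) 1 : Fin 2 →₀ ℕ) 1 = 0 := by
          simp
        omega
      rw [hc, pow_succ, mul_comm (M ^ n)]
      exact Ideal.mul_mem_mul (hX 0) hcM
    have : g = (g - g2) + g2 := by ring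
    rw [this]
    exact Ideal.add_mem _ h1 h2

theorem dsApprox (g : MvPowerSeries (Fin 2) k) (n : ℕ) :
    ∃ p : MvPolynomial (Fin 2) k, g - MvPolynomial.aeval (fun i => (X i : MvPowerSeries (Fin 2) k)) p
      ∈ (Ideal.span (Set.range (X : Fin 2 → MvPowerSeries (Fin 2) k))) ^ n := by
  refine ⟨truncTotal n g, ?_⟩
  rw [dsAeval_X_eq_coe]
  apply dsMem_pow
  intro d hd
  rw [map_sub, MvPolynomial.coeff_coe, coeff_truncTotal _ hd, sub_self]

theorem dsSimple [CharZero k] (b : Ideal (MvPowerSeries (Fin 2) k))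
    (hb : ∀ i, ∀ f ∈ b, pderiv k i f ∈ b) (n : ℕ) :
    ∀ d : Fin 2 →₀ ℕ, d.degree = n → ∀ f ∈ b, coeff d f ≠ 0 → b = ⊤ := by
  induction n with
  | zero =>
    intro d hd f hf hc
    have hd0 : d = 0 := by
      rwa [Finsupp.degree_eq_zero_iff] at hd
    rw [hd0, coeff_zero_eq_constantCoeff_apply] at hc
    have hu : IsUnit f := by
      rw [isUnit_iff_constantCoeff]
      exact isUnit_iff_ne_zero.mpr hc
    exact Ideal.eq_top_of_isUnit_mem _ hf hu
  | succ n ih =>
    intro d hd f hf hc
    have hex : ∃ i, d i ≠ 0 := by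
      by_contra hcon
      push Not at hcon
      have : d = 0 := by ext i; simpa using hcon i
      rw [this] at hd
      simp at hd
    obtain ⟨i, hi⟩ := hex
    have hd' : d - Finsupp.single i 1 + Finsupp.single i 1 = d := Finsupp.sub_add_single_one_cancel hi
    apply ih (d - Finsupp.single i 1) _ (pderiv k i f) (hb i f hf)
    · rw [coeff_pderiv, hd']
      apply mul_ne_zero hc
      have : ∀ m : ℕ, ((m : k) + 1) ≠ 0 := fun m => by exact_mod_cast Nat.succ_ne_zero m
      exact this _
    · have := congrArg Finsupp.degree hd'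
      rw [map_add, Finsupp.degree_single, hd] at this
      omega

/-- `k[[X 0, X 1]]` as a `DSBase`. -/
noncomputable def dsBaseMv (k : Type*) [Field k] [CharZero k] : DSBase k (MvPowerSeries (Fin 2) k) where
  x := fun i => X i
  d := fun i => pderiv k i
  d_x := by
    intro i j
    rw [pderiv_X]
    by_cases h : i = j
    · subst h; simp
    · simp [h, Ne.symm h]
  approx := dsApprox
  simple := by
    intro b hb0 hb
    obtain ⟨f, hf, hf0⟩ := Submodule.exists_mem_ne_zero_of_ne_bot hb0
    have : ∃ d, coeff d f ≠ 0 := by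
      by_contra hcon
      push Not at hcon
      exact hf0 (MvPowerSeries.ext hcon)
    obtain ⟨d, hd⟩ := this
    exact dsSimple b hb _ d rfl f hf hd
  jac := by
    rw [IsLocalRing.jacobson_eq_maximalIdeal ⊥ bot_ne_top, Ideal.span_le]
    rintro _ ⟨i, rfl⟩
    rw [SetLike.mem_coe, IsLocalRing.mem_maximalIdeal, mem_nonunits_iff, isUnit_iff_constantCoeff]
    simp

/-- **Theorem DS** for `P = k[[X 0, X 1]]`. -/
theorem dsMv_minors_le_radical {k A : Type*} [Field k] [CharZero k] [CommRing A] [IsDomain A]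
    [Algebra k A] [Algebra (MvPowerSeries (Fin 2) k) A] [IsScalarTower k (MvPowerSeries (Fin 2) k) A]
    [Module.Finite (MvPowerSeries (Fin 2) k) A] (D : Fin 2 → Derivation k A A)
    (I : Ideal A) (hI0 : I ≠ ⊥) (hI : ∀ i, ∀ a ∈ I, D i a ∈ I) :
    Ideal.span {m : A | ∃ g h, m = D 0 g * D 1 h - D 0 h * D 1 g} ≤ I.radical :=
  dsStable_minors_le_radical (dsBaseMv k) D I hI0 hI

end Claimed.Agent.R246
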