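import Claimed.Agent.R246.DS5

/-!
# Row 246: theorem DS over `PowerSeries (PowerSeries k)`

`DSBase` is transported along a `k`-algebra isomorphism; `k[[X 0, X 1]] ≃ k[[t]][[s]]`.
-/

set_option autoImplicit false

namespace Claimed.Agent.R246

/-- transport of the interface along an isomorphism -/
noncomputable def DSBase.transport {k P P' : Type*} [CommRing k] [CommRing P] [Algebra k P]
    [CommRing P'] [Algebra k P'] (b : DSBase k P) (e : P ≃ₐ[k] P') : DSBase k P' where
  x := fun i => e (b.x i)
  d := fun i => Derivation.liftOfSurjective (f := e) e.surjective (d := b.d i) (by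
    intro x hx
    have : x = 0 := by simpa using hx
    rw [this]; simp)
  d_x := by
    intro i j
    rw [Derivation.liftOfSurjective_apply, b.d_x]
    split_ifs <;> simp
  approx := by
    intro g n
    obtain ⟨p, hp⟩ := b.approx (e.symm g) n
    refine ⟨p, ?_⟩
    have h1 : g - MvPolynomial.aeval (fun i => e (b.x i)) p
        = e (e.symm g - MvPolynomial.aeval b.x p) := by
      rw [map_sub, AlgEquiv.apply_symm_apply]
      congr 1
      have := MvPolynomial.comp_aeval_apply (R := k) b.x (e : P →ₐ[k] P') p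
      simpa [Function.comp_def] using this.symm
    have h2 : Ideal.span (Set.range fun i => e (b.x i))
        = (Ideal.span (Set.range b.x)).map (e : P →+* P') := by
      rw [Ideal.map_span, ← Set.range_comp]
      rfl
    rw [h1, h2, ← Ideal.map_pow]
    exact Ideal.mem_map_of_mem (e : P →+* P') hp
  simple := by
    intro I hI0 hI
    have h1 : I.comap (e : P →+* P') = ⊤ := by
      apply b.simple
      · intro hbot
        apply hI0
        rw [eq_bot_iff]
        intro y hy
        have : e.symm y ∈ I.comap (e : P →+* P') := by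
          rw [Ideal.mem_comap]; simpa using hy
        rw [hbot, Ideal.mem_bot] at this
        have h3 : y = 0 := by simpa using this
        rw [h3]; exact Ideal.zero_mem _
      · intro i f hf
        rw [Ideal.mem_comap] at hf ⊢
        have := hI i _ hf
        simp only [RingHom.coe_coe] at this
        rw [Derivation.liftOfSurjective_apply] at this
        exact this
    rw [Ideal.eq_top_iff_one] at h1 ⊢
    rw [Ideal.mem_comap] at h1
    simpa using h1
  jac := by
    rw [Ideal.span_le]
    rintro _ ⟨i, rfl⟩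
    have h1 : b.x i ∈ (⊥ : Ideal P).jacobson := b.jac (Ideal.subset_span (Set.mem_range_self i))
    rw [Ideal.mem_jacobson_bot] at h1
    rw [SetLike.mem_coe, Ideal.mem_jacobson_bot]
    intro y
    have := (h1 (e.symm y)).map (e : P →+* P')
    simpa using this

/-- coefficientwise isomorphism of power series rings -/
noncomputable def dsMapEquiv {k A B : Type*} [CommRing k] [CommRing A] [CommRing B] [Algebra k A]
    [Algebra k B] (e : A ≃ₐ[k] B) : PowerSeries A ≃ₐ[k] PowerSeries B :=
  AlgEquiv.ofAlgHom (PowerSeries.mapAlgHom (e : A →ₐ[k] B)) (PowerSeries.mapAlgHom (e.symm : B →ₐ[k] A))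
    (by ext f n; simp [PowerSeries.mapAlgHom_apply]) (by ext f n; simp [PowerSeries.mapAlgHom_apply])

/-- `k[[X 0, X 1]] ≃ k[[t]][[s]]` -/
noncomputable def dsIterEquiv (k : Type*) [Field k] :
    MvPowerSeries (Fin 2) k ≃ₐ[k] PowerSeries (PowerSeries k) :=
  (MvPowerSeries.finSuccEquiv k 1).trans
    (dsMapEquiv (MvPowerSeries.renameEquiv k (Equiv.equivPUnit (Fin 1))))

/-- `k[[t]][[s]]` as a `DSBase` -/
noncomputable def dsBaseIter (k : Type*) [Field k] [CharZero k] :
    DSBase k (PowerSeries (PowerSeries k)) :=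
  (dsBaseMv k).transport (dsIterEquiv k)

/-- **Theorem DS** for `P = k[[t]][[s]]`. -/
theorem dsIter_minors_le_radical {k A : Type*} [Field k] [CharZero k] [CommRing A] [IsDomain A]
    [Algebra k A] [Algebra (PowerSeries (PowerSeries k)) A]
    [IsScalarTower k (PowerSeries (PowerSeries k)) A]
    [Module.Finite (PowerSeries (PowerSeries k)) A] (D : Fin 2 → Derivation k A A)
    (I : Ideal A) (hI0 : I ≠ ⊥) (hI : ∀ i, ∀ a ∈ I, D i a ∈ I) :
    Ideal.span {m : A | ∃ g h, m = D 0 g * D 1 h - D 0 h * D 1 g} ≤ I.radical :=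
  dsStable_minors_le_radical (dsBaseIter k) D I hI0 hI

/-- J4-form: powers in the ideal of minors give powers in every nonzero stable ideal. -/
theorem dsIter_exists_pow_mem {k A : Type*} [Field k] [CharZero k] [CommRing A] [IsDomain A]
    [Algebra k A] [Algebra (PowerSeries (PowerSeries k)) A]
    [IsScalarTower k (PowerSeries (PowerSeries k)) A]
    [Module.Finite (PowerSeries (PowerSeries k)) A] (D : Fin 2 → Derivation k A A)
    (I : Ideal A) (hI0 : I ≠ ⊥) (hI : ∀ i, ∀ a ∈ I, D i a ∈ I) (x : A) (N : ℕ)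
    (hx : x ^ N ∈ Ideal.span {m : A | ∃ g h, m = D 0 g * D 1 h - D 0 h * D 1 g}) :
    ∃ c : ℕ, x ^ c ∈ I := by
  obtain ⟨m, hm⟩ := dsIter_minors_le_radical D I hI0 hI hx
  exact ⟨N * m, by rw [pow_mul]; exact hm⟩

/-- J4-form over `k[[X 0, X 1]]`. -/
theorem dsMv_exists_pow_mem {k A : Type*} [Field k] [CharZero k] [CommRing A] [IsDomain A]
    [Algebra k A] [Algebra (MvPowerSeries (Fin 2) k) A] [IsScalarTower k (MvPowerSeries (Fin 2) k) A]
    [Module.Finite (MvPowerSeries (Fin 2) k) A] (D : Fin 2 → Derivation k A A)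
    (I : Ideal A) (hI0 : I ≠ ⊥) (hI : ∀ i, ∀ a ∈ I, D i a ∈ I) (x : A) (N : ℕ)
    (hx : x ^ N ∈ Ideal.span {m : A | ∃ g h, m = D 0 g * D 1 h - D 0 h * D 1 g}) :
    ∃ c : ℕ, x ^ c ∈ I := by
  obtain ⟨m, hm⟩ := dsMv_minors_le_radical D I hI0 hI hx
  exact ⟨N * m, by rw [pow_mul]; exact hm⟩

end Claimed.Agent.R246
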