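import Mathlib

/-!
# Row 246 (S0485): certificate for a Lipman-Zariski counterexample

`LZCert L` packages the finitely many facts that an explicit model has to supply:
a field `L` over `P2 = ℂ[X₀, X₁]`, two `ℂ`-derivations `D 0, D 1` of `L`, a `P2`-subalgebra `A'` of `L`,
finite as a `P2`-module, with fraction field `L`, stable under the `D i`, a point `ev` of `A'` over the origin
at which all `D i a` vanish, and the certificate that `X₀ ^ N, X₁ ^ N` lie in the ideal of `A'`
generated by the `2 × 2` minors `D 0 g * D 1 h - D 0 h * D 1 g`.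

The witness of S0485 is then `A = integralClosure P2 L`.  No normality check, no valuation is needed.
-/

set_option autoImplicit false

namespace Claimed.Agent.R246

/-- the polynomial ring in two variables over `ℂ` -/
abbrev P2 : Type := MvPolynomial (Fin 2) ℂ

/-- the `2 × 2` minor of two derivations -/
def lzMinor {L : Type} [Field L] [Algebra ℂ L] (D : Fin 2 → Derivation ℂ L L) (g h : L) : L :=
  D 0 g * D 1 h - D 0 h * D 1 g

/-- The certificate. -/
structure LZCert (L : Type) [Field L] [Algebra ℂ L] [Algebra P2 L] [IsScalarTower ℂ P2 L] where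
  /-- `P2 → L` is injective -/
  inj : Function.Injective (algebraMap P2 L)
  /-- the (possibly non-normal) model -/
  A' : Subalgebra P2 L
  /-- `A'` is a finite `P2`-module -/
  fin : (Subalgebra.toSubmodule A').FG
  /-- `L` is the fraction field of `A'` -/
  frac : ∀ x : L, ∃ a ∈ A', ∃ b ∈ A', b ≠ 0 ∧ x * b = a
  /-- the two derivations -/
  D : Fin 2 → Derivation ℂ L L
  /-- `A'` is stable -/
  stable : ∀ i, ∀ a ∈ A', D i a ∈ A'
  /-- the singular point -/
  ev : A' →+* ℂ
  /-- it lies over the origin -/
  ev_X : ∀ j : Fin 2, ev (algebraMap P2 A' (MvPolynomial.X j)) = 0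
  /-- the derivations vanish there -/
  ev_D : ∀ i, ∀ a (ha : a ∈ A'), ev ⟨D i a, stable i a ha⟩ = 0
  /-- exponent of the minor certificate -/
  N : ℕ
  /-- `X j ^ N` is an `A'`-combination of minors of elements of `A'` -/
  minors : ∀ j : Fin 2, algebraMap P2 L (MvPolynomial.X j) ^ N ∈
    Submodule.span A' {x : L | ∃ g ∈ A', ∃ h ∈ A', x = lzMinor D g h}

/-- the witness ring: the integral closure of `P2` in `L` -/
noncomputable abbrev lzA (L : Type) [Field L] [Algebra P2 L] : Subalgebra P2 L := integralClosure P2 L

end Claimed.Agent.R246
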