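import Mathlib

/-! Row 246: Seidenberg's theorem (a derivation extends to the integral closure), abstract form. -/

set_option autoImplicit false

namespace Claimed.Agent.R246

theorem lz_ad_iter_zero {E : Type} [Ring E] (m : E) (Δ : E → E) (hΔ : ∀ T, Δ T = T * m - m * T) (k : ℕ) :
    Δ^[k] 0 = 0 := by
  induction k with
  | zero => rfl
  | succ k ih => rw [Function.iterate_succ_apply', ih, hΔ]; simp

theorem lz_ad_iter_mul {E : Type} [Ring E] (m d u : E) (hu : d * m - m * d = u) (hum : u * m = m * u)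
    (Δ : E → E) (hΔ : ∀ T, Δ T = T * m - m * T) (T : E) (k : ℕ) :
    Δ^[k + 1] (T * d) = Δ^[k + 1] T * d + ((k + 1 : ℕ) : E) * (Δ^[k] T * u) := by
  induction k with
  | zero =>
    simp only [zero_add, Function.iterate_one, Function.iterate_zero, id_eq, Nat.cast_one, one_mul]
    rw [hΔ, hΔ, ← hu]
    noncomm_ring
  | succ k ih =>
    rw [Function.iterate_succ_apply', ih, Function.iterate_succ_apply' Δ (k + 1) T,
      Function.iterate_succ_apply' Δ k T]
    generalize Δ^[k] T = S
    rw [hΔ (Δ S * d + _), hΔ (Δ S)]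
    obtain ⟨S1, hS1⟩ : ∃ S1, S1 = Δ S := ⟨_, rfl⟩
    rw [← hS1]
    have hS1' : S1 = S * m - m * S := by rw [hS1, hΔ]
    have hc : ∀ (c : ℕ) (x : E), (c : E) * x * m = (c : E) * (x * m) := fun c x => mul_assoc _ _ _
    have hc2 : ∀ (c : ℕ) (x : E), m * ((c : E) * x) = (c : E) * (m * x) := fun c x => by
      rw [← mul_assoc, ← (Nat.cast_commute c m).eq, mul_assoc]
    have h1 : S * u * m = S * m * u := by rw [mul_assoc, hum, ← mul_assoc]
    have h2 : S1 * d * m = S1 * u + S1 * m * d := by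
      rw [← hu]; noncomm_ring
    have h3 : S * m * u - m * (S * u) = S1 * u := by rw [hS1']; noncomm_ring
    rw [add_mul, mul_add, hc, hc2, h1, h2, Nat.cast_succ (k + 1), ← h3]
    noncomm_ring

theorem lz_ad_pow_aux {E : Type} [Ring E] (m d u : E) (hu : d * m - m * d = u) (hum : u * m = m * u)
    (Δ : E → E) (hΔ : ∀ T, Δ T = T * m - m * T) (n : ℕ) :
    (∀ j, n < j → Δ^[j] (d ^ n) = 0) ∧ Δ^[n] (d ^ n) = (n.factorial : E) * u ^ n := by
  induction n with
  | zero =>
    refine ⟨fun j hj => ?_, by simp⟩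
    obtain ⟨k, rfl⟩ : ∃ k, j = k + 1 := ⟨j - 1, by omega⟩
    rw [Function.iterate_succ_apply, hΔ]
    simp [lz_ad_iter_zero m Δ hΔ]
  | succ n ih =>
    obtain ⟨ih1, ih2⟩ := ih
    refine ⟨fun j hj => ?_, ?_⟩
    · obtain ⟨k, rfl⟩ : ∃ k, j = k + 1 := ⟨j - 1, by omega⟩
      rw [pow_succ, lz_ad_iter_mul m d u hu hum Δ hΔ, ih1 (k + 1) (by omega), ih1 k (by omega)]
      simp
    · rw [pow_succ, lz_ad_iter_mul m d u hu hum Δ hΔ, ih1 (n + 1) (by omega), ih2, Nat.factorial_succ, pow_succ]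
      push_cast
      noncomm_ring

/-- In any ring: if `u = d m - m d` commutes with `m`, then `ad_m^n (d^n) = n! u^n`.
Proof: `Δ T := T m - m T` satisfies Leibniz, `Δ d = u`, `Δ u = 0`; show by induction on `k`
`Δ^[k] (T * d) = Δ^[k] T * d + k • Δ^[k-1] T * u`, then by induction on `n`:
`Δ^[j] (d^n) = 0` for `j > n` and `Δ^[n] (d^n) = n! u^n`. -/
theorem lz_ad_pow {E : Type} [Ring E] (m d u : E) (hu : d * m - m * d = u) (hum : u * m = m * u)
    (n : ℕ) : (fun T : E => T * m - m * T)^[n] (d ^ n) = (n.factorial : E) * u ^ n :=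
  (lz_ad_pow_aux m d u hu hum _ (fun _ => rfl) n).2

/-- Key step: `c * c * (D a)^n ∈ A'`.
Let `C = {x | ∀ b ∈ Abar, x * b ∈ A'}` (an ideal of `Abar` inside `A'`, contains `c`),
`B = {z | ∀ x ∈ C, z * x ∈ A'}`, and `T = {T : Module.End ℂ L | ∀ x ∈ C, T x ∈ B}`.
`D^n ∈ T`; `T ∈ T → T ∘ (a * ·) - (a * ·) ∘ T ∈ T`; now use `lz_ad_pow` in `Module.End ℂ L` with
`m = LinearMap.mulLeft ℂ a`, `d = D`, `u = LinearMap.mulLeft ℂ (D a)`, evaluate at `c`;
`n!` is removed with the scalar `(n! : ℂ)⁻¹` (`A'` is closed under `ℂ`-scalars by the tower). -/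
theorem lz_seidenberg_pow {R L : Type} [CommRing R] [Field L] [Algebra ℂ L] [Algebra R L]
    [Algebra ℂ R] [IsScalarTower ℂ R L] (D : Derivation ℂ L L) (A' Abar : Subalgebra R L) (hD : ∀ a ∈ A', D a ∈ A')
    (c : L) (hc : ∀ a ∈ Abar, c * a ∈ A') (a : L) (ha : a ∈ Abar) (n : ℕ) :
    c * c * (D a) ^ n ∈ A' := by
  classical
  -- the predicates
  let C : L → Prop := fun x => ∀ b ∈ Abar, x * b ∈ A'
  let B : L → Prop := fun z => ∀ x, C x → z * x ∈ A'
  let TT : Module.End ℂ L → Prop := fun T => ∀ x, C x → B (T x)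
  have hCA : ∀ x, C x → x ∈ A' := fun x hx => by simpa using hx 1 Abar.one_mem
  have hCc : C c := hc
  have hCa : ∀ x, C x → C (a * x) := fun x hx b hb => by
    have := hx (a * b) (Abar.mul_mem ha hb)
    have e : a * x * b = x * (a * b) := by ring
    rw [e]; exact this
  have hDpow : ∀ k : ℕ, ∀ x ∈ A', ((D : L →ₗ[ℂ] L) ^ k) x ∈ A' := by
    intro k
    induction k with
    | zero => intro x hx; simpa using hx
    | succ k ih =>
      intro x hx
      rw [pow_succ, Module.End.mul_apply]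
      exact ih _ (hD x hx)
  have hT0 : TT ((D : L →ₗ[ℂ] L) ^ n) := fun x hx y hy =>
    A'.mul_mem (hDpow n x (hCA x hx)) (hCA y hy)
  have hTstep : ∀ T, TT T → TT (T * LinearMap.mulLeft ℂ a - LinearMap.mulLeft ℂ a * T) := by
    intro T hT x hx y hy
    have h1 : T (a * x) * y ∈ A' := hT _ (hCa x hx) y hy
    have h2 : T x * (a * y) ∈ A' := hT x hx _ (hCa y hy)
    have e : (T * LinearMap.mulLeft ℂ a - LinearMap.mulLeft ℂ a * T) x * y
        = T (a * x) * y - T x * (a * y) := by
      simp only [LinearMap.sub_apply, Module.End.mul_apply, LinearMap.mulLeft_apply]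
      ring
    rw [e]; exact A'.sub_mem h1 h2
  have hTit : ∀ k : ℕ, ∀ T, TT T →
      TT ((fun T : Module.End ℂ L => T * LinearMap.mulLeft ℂ a - LinearMap.mulLeft ℂ a * T)^[k] T) := by
    intro k
    induction k with
    | zero => intro T hT; simpa using hT
    | succ k ih =>
      intro T hT
      rw [Function.iterate_succ_apply]
      exact ih _ (hTstep T hT)
  have hu : (D : L →ₗ[ℂ] L) * LinearMap.mulLeft ℂ a - LinearMap.mulLeft ℂ a * (D : L →ₗ[ℂ] L)
      = LinearMap.mulLeft ℂ (D a) := by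
    ext x
    simp only [LinearMap.sub_apply, Module.End.mul_apply, LinearMap.mulLeft_apply,
      Derivation.coeFn_coe, Derivation.leibniz, smul_eq_mul]
    ring
  have hum : LinearMap.mulLeft ℂ (D a) * LinearMap.mulLeft ℂ a
      = LinearMap.mulLeft ℂ a * LinearMap.mulLeft ℂ (D a) := by
    ext x
    simp only [Module.End.mul_apply, LinearMap.mulLeft_apply]
    ring
  have key := lz_ad_pow (LinearMap.mulLeft ℂ a) (D : L →ₗ[ℂ] L) (LinearMap.mulLeft ℂ (D a)) hu hum n
  have hmem := hTit n _ hT0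
  rw [key] at hmem
  have h3 := hmem c hCc c hCc
  have hpow : ∀ k : ℕ, ∀ x : L, ((LinearMap.mulLeft ℂ (D a)) ^ k) x = (D a) ^ k * x := by
    intro k
    induction k with
    | zero => intro x; simp
    | succ k ih =>
      intro x
      rw [pow_succ, Module.End.mul_apply, ih, LinearMap.mulLeft_apply]
      ring
  have e3 : (((n.factorial : Module.End ℂ L)) * (LinearMap.mulLeft ℂ (D a)) ^ n) c * c
      = (n.factorial : ℂ) • (c * c * (D a) ^ n) := by
    rw [Module.End.mul_apply, hpow]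
    have : ((n.factorial : Module.End ℂ L)) = (n.factorial : ℂ) • (1 : Module.End ℂ L) := by
      rw [Nat.cast_smul_eq_nsmul ℂ, nsmul_eq_mul, mul_one]
    rw [this]
    simp only [LinearMap.smul_apply, Module.End.one_apply]
    rw [smul_mul_assoc]
    congr 1
    ring
  rw [e3] at h3
  have hsm : ∀ (r : ℂ) (x : L), x ∈ A' → r • x ∈ A' := by
    intro r x hx
    have : r • x = (algebraMap ℂ R r) • x := by
      rw [algebraMap_smul]
    rw [this]
    exact A'.smul_mem hx _
  have h4 := hsm ((n.factorial : ℂ)⁻¹) _ h3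
  rw [smul_smul, inv_mul_cancel₀ (by exact_mod_cast n.factorial_ne_zero), one_smul] at h4
  exact h4

/-- Seidenberg. From `lz_seidenberg_pow`: `R[D a] ⊆ (c*c)⁻¹ • Abar`, a Noetherian module,
so `D a` is integral (`IsIntegral.of_mem_of_fg`). -/
theorem lz_seidenberg_abs {R L : Type} [CommRing R] [IsNoetherianRing R] [Field L] [Algebra ℂ L]
    [Algebra R L] [Algebra ℂ R] [IsScalarTower ℂ R L]
    (D : Derivation ℂ L L) (A' : Subalgebra R L) (hle : A' ≤ integralClosure R L)
    (hD : ∀ a ∈ A', D a ∈ A') (c : L) (hc0 : c ≠ 0) (hc : ∀ a ∈ integralClosure R L, c * a ∈ A')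
    (hfin : (Subalgebra.toSubmodule (integralClosure R L)).FG)
    (a : L) (ha : a ∈ integralClosure R L) : D a ∈ integralClosure R L := by
  have he : c * c ≠ 0 := mul_ne_zero hc0 hc0
  have hnoeth : IsNoetherian R (Subalgebra.toSubmodule (integralClosure R L)) :=
    isNoetherian_of_fg_of_noetherian _ hfin
  have hle' : (Subalgebra.toSubmodule (Algebra.adjoin R {D a})).map (LinearMap.mulLeft R (c * c)) ≤
      Subalgebra.toSubmodule (integralClosure R L) := by
    rw [Submodule.map_le_iff_le_comap, Algebra.adjoin_eq_span, Submodule.span_le]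
    intro z hz
    obtain ⟨n, rfl⟩ := Submonoid.mem_closure_singleton.1 hz
    exact hle (lz_seidenberg_pow D A' (integralClosure R L) hD c hc a ha n)
  have hfg : ((Subalgebra.toSubmodule (Algebra.adjoin R {D a})).map (LinearMap.mulLeft R (c * c))).FG :=
    (isNoetherian_submodule.1 hnoeth) _ hle'
  have hfg' : (Subalgebra.toSubmodule (Algebra.adjoin R {D a})).FG :=
    Submodule.fg_of_fg_map_injective _ (fun x y hxy => mul_left_cancel₀ he (by simpa using hxy)) hfg
  exact IsIntegral.of_mem_of_fg (Algebra.adjoin R {D a}) hfg' (D a) (Algebra.subset_adjoin rfl)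

end Claimed.Agent.R246
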