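import Claimed.Agent.R246.Fin
import Claimed.Agent.R246.SeidAbs

/-! Row 246: the two derivations of the witness. -/

set_option autoImplicit false

namespace Claimed.Agent.R246

open MvPolynomial

variable {L : Type} [Field L] [Algebra ℂ L] [Algebra P2 L] [IsScalarTower ℂ P2 L]

theorem lz_seidenberg (c : LZCert L) (i : Fin 2) (a : L) (ha : a ∈ lzA L) : c.D i a ∈ lzA L := by
  obtain ⟨d, hd0, hd⟩ := lz_conductor c
  exact lz_seidenberg_abs (c.D i) c.A' (lz_le c) (c.stable i) d hd0 hd (lz_fg c) a ha

/-- the derivations of the witness -/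
noncomputable def lzDer (c : LZCert L) (i : Fin 2) : Derivation ℂ (lzA L) (lzA L) :=
  Derivation.mk'
    { toFun := fun a => ⟨c.D i a, lz_seidenberg c i a a.2⟩
      map_add' := fun a b => by ext; simp
      map_smul' := fun r a => by ext; simp }
    (fun a b => by ext; simp)

@[simp] theorem lzDer_coe (c : LZCert L) (i : Fin 2) (a : lzA L) :
    ((lzDer c i a : lzA L) : L) = c.D i a := rfl

end Claimed.Agent.R246
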