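import Claimed.Agent.R246.Defs

/-! Row 246: the witness has Krull dimension 2. -/

set_option autoImplicit false

namespace Claimed.Agent.R246

open MvPolynomial

variable {L : Type} [Field L] [Algebra ℂ L] [Algebra P2 L] [IsScalarTower ℂ P2 L]

/-- Krull dimension is invariant under injective integral extensions
(proof: copy of `Claimed.Agent.R277.gcDim_ringKrullDim_eq_of_isIntegral`, file R277/Pk19.lean, do NOT import it). -/
theorem lz_ringKrullDim_eq_of_isIntegral {A B : Type} [CommRing A] [CommRing B] [Algebra A B]
    [Algebra.IsIntegral A B] (hinj : Function.Injective (algebraMap A B)) :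
    ringKrullDim B = ringKrullDim A := by
  apply le_antisymm
  · exact Order.krullDim_le_of_strictMono
      (fun I : PrimeSpectrum B => (⟨Ideal.comap (algebraMap A B) I.asIdeal, inferInstance⟩ :
        PrimeSpectrum A))
      (fun I J hIJ => Ideal.IsIntegral.comap_lt_comap (R := A) (I := I.asIdeal) (J := J.asIdeal) hIJ)
  · unfold ringKrullDim Order.krullDim
    refine iSup_le fun l => ?_
    obtain ⟨Q, -, hQ, hQc⟩ := Ideal.exists_ideal_over_prime_of_isIntegral (S := B)
      (RelSeries.head l).asIdeal (⊥ : Ideal B) (by
        rw [← RingHom.ker_eq_comap_bot, (RingHom.injective_iff_ker_eq_bot _).mp hinj]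
        exact bot_le)
    have : Q.IsPrime := hQ
    have : Q.LiesOver (RelSeries.head l).asIdeal := ⟨hQc.symm⟩
    obtain ⟨L, hlen, -, -⟩ := Ideal.exists_ltSeries_of_hasGoingUp l Q
    rw [← hlen]
    exact le_iSup (fun p : LTSeries (PrimeSpectrum B) => ((p.length : ℕ∞) : WithBot ℕ∞)) L

theorem lz_dim_P2 : ringKrullDim P2 = 2 := by
  have h := MvPolynomial.ringKrullDim_of_isNoetherianRing (R := ℂ) (ι := Fin 2)
  rw [ringKrullDim_eq_zero_of_field] at h
  rw [h]
  simp

theorem lz_dim (hinj : Function.Injective (algebraMap P2 L)) : ringKrullDim (lzA L) = 2 := by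
  have hinj' : Function.Injective (algebraMap P2 (lzA L)) := by
    intro a b hab
    apply hinj
    have := congrArg (algebraMap (lzA L) L) hab
    simpa [← IsScalarTower.algebraMap_apply] using this
  rw [lz_ringKrullDim_eq_of_isIntegral (A := P2) (B := lzA L) hinj', lz_dim_P2]

end Claimed.Agent.R246
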