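import Mathlib

/-!
# Row 246, module F1, item C5 (abstract)

A finitely generated module over a noetherian local ring whose maximal ideal is generated by
two elements `s, t` forming a regular sequence on the module is free.
-/

namespace Claimed.Agent.R246

open IsLocalRing TensorProduct

/-- C5 of `R246_F1.md`.  `R` noetherian local with maximal ideal `(s,t)`, `M` finite,
`s` a non-zero-divisor on `M`, `t` a non-zero-divisor on `M/sM`.  Then `M` is free. -/
theorem free_of_regular_pair {R M : Type*} [CommRing R] [IsLocalRing R] [IsNoetherianRing R]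
    [AddCommGroup M] [Module R M] [Module.Finite R M] (s t : R)
    (hm : maximalIdeal R = Ideal.span {s, t})
    (hs : ∀ x : M, s • x = 0 → x = 0)
    (ht : ∀ x y : M, t • x = s • y → ∃ z : M, x = s • z) : Module.Free R M := by
  classical
  -- a basis of the fibre, lifted to `M`
  let k := ResidueField R
  let b := Module.finBasis k (k ⊗[R] M)
  have hsurj : ∀ y : k ⊗[R] M, ∃ x : M, (1 : k) ⊗ₜ[R] x = y := by
    intro y
    have h : Function.Surjective (TensorProduct.mk R k M 1) := by
      intro y
      induction y using TensorProduct.induction_on with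
      | zero => exact ⟨0, by simp⟩
      | tmul a x =>
        obtain ⟨r, rfl⟩ := IsLocalRing.residue_surjective a
        refine ⟨r • x, ?_⟩
        simp only [TensorProduct.mk_apply, TensorProduct.tmul_smul]
        rw [TensorProduct.smul_tmul', Algebra.smul_def, mul_one]
        rfl
      | add y₁ y₂ h₁ h₂ =>
        obtain ⟨x₁, rfl⟩ := h₁
        obtain ⟨x₂, rfl⟩ := h₂
        exact ⟨x₁ + x₂, by simp [TensorProduct.tmul_add]⟩
    exact h y
  choose f hf using fun i => hsurj (b i)
  have hspan : Submodule.span R (Set.range f) = ⊤ :=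
    IsLocalRing.span_eq_top_of_tmul_eq_basis f b hf
  -- the module of relations
  let L : (Fin (Module.finrank k (k ⊗[R] M)) → R) →ₗ[R] M := Fintype.linearCombination R f
  have hLsurj : ∀ z : M, ∃ c, L c = z := by
    intro z
    have : z ∈ Submodule.span R (Set.range f) := by rw [hspan]; trivial
    rw [← Fintype.range_linearCombination R f] at this
    exact this
  have hLapp : ∀ c, L c = ∑ i, c i • f i := fun c => Fintype.linearCombination_apply R f c
  have hsm : s ∈ maximalIdeal R := by rw [hm]; exact Ideal.subset_span (by simp)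
  have htm : t ∈ maximalIdeal R := by rw [hm]; exact Ideal.subset_span (by simp)
  have hrel : LinearMap.ker L ≤ maximalIdeal R • LinearMap.ker L := by
    intro r hr
    rw [LinearMap.mem_ker] at hr
    -- all coefficients lie in the maximal ideal
    have h1 : ∀ i, r i ∈ maximalIdeal R := by
      have h0 : ∑ i, (residue R (r i)) • b i = 0 := by
        have : (1 : k) ⊗ₜ[R] (L r) = ∑ i, (residue R (r i)) • b i := by
          rw [hLapp, TensorProduct.tmul_sum]
          refine Finset.sum_congr rfl fun i _ => ?_
          rw [← hf i, TensorProduct.tmul_smul, TensorProduct.smul_tmul', TensorProduct.smul_tmul',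
            Algebra.smul_def, mul_one, smul_eq_mul, mul_one]
          rfl
        rw [← this, hr, TensorProduct.tmul_zero]
      intro i
      have := (Fintype.linearIndependent_iff.mp b.linearIndependent) _ h0 i
      exact (IsLocalRing.residue_eq_zero_iff _).mp this
    have h2 : ∀ i, ∃ a c : R, a * s + c * t = r i := by
      intro i
      have := h1 i
      rw [hm, Ideal.mem_span_pair] at this
      exact this
    choose a c hac using h2
    have hsum : s • L a + t • L c = 0 := by
      rw [← hr, hLapp, hLapp, hLapp, Finset.smul_sum, Finset.smul_sum, ← Finset.sum_add_distrib]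
      refine Finset.sum_congr rfl fun i _ => ?_
      rw [← hac i, add_smul, smul_smul, smul_smul, mul_comm s, mul_comm t]
    obtain ⟨z, hz⟩ := ht (L c) (-(L a)) (by rw [smul_neg]; exact eq_neg_of_add_eq_zero_right hsum)
    obtain ⟨e, rfl⟩ := hLsurj z
    have hk1 : c - s • e ∈ LinearMap.ker L := by
      rw [LinearMap.mem_ker, map_sub, map_smul, hz, sub_self]
    have hk2 : a + t • e ∈ LinearMap.ker L := by
      rw [LinearMap.mem_ker]
      apply hs
      rw [map_add, map_smul, smul_add, smul_smul, mul_comm, ← smul_smul, ← hz]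
      exact hsum
    have hr' : r = s • (a + t • e) + t • (c - s • e) := by
      funext i
      simp only [Pi.add_apply, Pi.smul_apply, Pi.sub_apply, smul_eq_mul]
      rw [← hac i]; ring
    rw [hr']
    exact Submodule.add_mem _ (Submodule.smul_mem_smul hsm hk2) (Submodule.smul_mem_smul htm hk1)
  have hker : LinearMap.ker L = ⊥ :=
    Submodule.eq_bot_of_le_smul_of_le_jacobson_bot (maximalIdeal R) _
      (IsNoetherian.noetherian _) hrel (IsLocalRing.maximalIdeal_le_jacobson _)
  have hinj : Function.Injective L := LinearMap.ker_eq_bot.mp hker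
  have hbij : Function.Bijective L := ⟨hinj, fun z => hLsurj z⟩
  exact Module.Free.of_equiv (LinearEquiv.ofBijective L hbij)


theorem frp_maximalIdeal_nested (k : Type*) [Field k] :
    maximalIdeal (PowerSeries (PowerSeries k)) =
      Ideal.span {(PowerSeries.X : PowerSeries (PowerSeries k)), PowerSeries.C PowerSeries.X} := by
  apply le_antisymm
  · intro a ha
    rw [IsLocalRing.mem_maximalIdeal, mem_nonunits_iff, PowerSeries.isUnit_iff_constantCoeff,
      PowerSeries.isUnit_iff_constantCoeff, isUnit_iff_ne_zero, not_not] at ha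
    obtain ⟨q', hq'⟩ := PowerSeries.X_dvd_iff.mpr ha
    have h1 : (PowerSeries.X : PowerSeries (PowerSeries k)) ∣ a - PowerSeries.C (PowerSeries.constantCoeff a) := by
      rw [PowerSeries.X_dvd_iff]; simp
    obtain ⟨q, hq⟩ := h1
    rw [Ideal.mem_span_pair]
    refine ⟨q, PowerSeries.C q', ?_⟩
    have : a = PowerSeries.X * q + PowerSeries.C (PowerSeries.constantCoeff a) := by
      rw [← hq]; ring
    rw [hq', map_mul] at this
    rw [this]
    ring
  · rw [Ideal.span_le]
    rintro x (rfl | rfl)
    · simp [IsLocalRing.mem_maximalIdeal, mem_nonunits_iff, PowerSeries.isUnit_iff_constantCoeff]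
    · simp [IsLocalRing.mem_maximalIdeal, mem_nonunits_iff, PowerSeries.isUnit_iff_constantCoeff]


theorem frp_maximalIdeal_mv2 (k : Type*) [Field k] :
    maximalIdeal (MvPowerSeries (Fin 2) k) =
      Ideal.span {(MvPowerSeries.X 0 : MvPowerSeries (Fin 2) k), MvPowerSeries.X 1} := by
  apply le_antisymm
  · intro a ha
    rw [IsLocalRing.mem_maximalIdeal, mem_nonunits_iff, MvPowerSeries.isUnit_iff_constantCoeff,
      isUnit_iff_ne_zero, not_not] at ha
    let a1 : MvPowerSeries (Fin 2) k := fun m => if m 0 = 0 then MvPowerSeries.coeff m a else 0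
    have hc : ∀ m, MvPowerSeries.coeff m a1 = if m 0 = 0 then MvPowerSeries.coeff m a else 0 :=
      fun m => rfl
    have h0 : (MvPowerSeries.X 0 : MvPowerSeries (Fin 2) k) ∣ a - a1 := by
      rw [MvPowerSeries.X_dvd_iff]
      intro m hm
      rw [map_sub, hc, if_pos hm, sub_self]
    have h1 : (MvPowerSeries.X 1 : MvPowerSeries (Fin 2) k) ∣ a1 := by
      rw [MvPowerSeries.X_dvd_iff]
      intro m hm
      rw [hc]
      split_ifs with h
      · have : m = 0 := by
          ext i
          fin_cases i
          · exact h
          · exact hm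
        rw [this]
        exact ha
      · rfl
    obtain ⟨q0, hq0⟩ := h0
    obtain ⟨q1, hq1⟩ := h1
    rw [Ideal.mem_span_pair]
    refine ⟨q0, q1, ?_⟩
    have : a = (a - a1) + a1 := by ring
    rw [this, hq0, hq1]
    ring
  · rw [Ideal.span_le]
    rintro x (rfl | rfl)
    · simp [IsLocalRing.mem_maximalIdeal, mem_nonunits_iff, MvPowerSeries.isUnit_iff_constantCoeff]
    · simp [IsLocalRing.mem_maximalIdeal, mem_nonunits_iff, MvPowerSeries.isUnit_iff_constantCoeff]

/-- C5 for `P^ = k[[t]][[s]]` (`s = X`, `t = C X`). -/
theorem free_of_regular_nested (k : Type*) [Field k] {M : Type*} [AddCommGroup M]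
    [Module (PowerSeries (PowerSeries k)) M] [Module.Finite (PowerSeries (PowerSeries k)) M]
    (hs : ∀ x : M, (PowerSeries.X : PowerSeries (PowerSeries k)) • x = 0 → x = 0)
    (ht : ∀ x y : M, (PowerSeries.C PowerSeries.X : PowerSeries (PowerSeries k)) • x =
      (PowerSeries.X : PowerSeries (PowerSeries k)) • y →
      ∃ z : M, x = (PowerSeries.X : PowerSeries (PowerSeries k)) • z) :
    Module.Free (PowerSeries (PowerSeries k)) M :=
  free_of_regular_pair _ _ (frp_maximalIdeal_nested k) hs ht

/-- C5 for `P^ = k[[X 0, X 1]]`. -/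
theorem free_of_regular_mv2 (k : Type*) [Field k] {M : Type*} [AddCommGroup M]
    [Module (MvPowerSeries (Fin 2) k) M] [Module.Finite (MvPowerSeries (Fin 2) k) M]
    (hs : ∀ x : M, (MvPowerSeries.X 0 : MvPowerSeries (Fin 2) k) • x = 0 → x = 0)
    (ht : ∀ x y : M, (MvPowerSeries.X 1 : MvPowerSeries (Fin 2) k) • x =
      (MvPowerSeries.X 0 : MvPowerSeries (Fin 2) k) • y →
      ∃ z : M, x = (MvPowerSeries.X 0 : MvPowerSeries (Fin 2) k) • z) :
    Module.Free (MvPowerSeries (Fin 2) k) M :=
  free_of_regular_pair _ _ (frp_maximalIdeal_mv2 k) hs ht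

end Claimed.Agent.R246
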