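import Mathlib

/-!
# Row 246 (S0485): the FORMAL certificate `FormalCert`

Interface between the two halves of helper350's plan
(`git show origin/helper350:docs/h350_lz/R246_T.md`, `R246_F1.md`):

* module F1 (`Claimed/Agent/R246/F1/`): gluing data `DD`  ⟹  a ring `A` with a `FormalCert A`;
* Theorem T: `FormalCert A` (with `A` a domain, finite free over `P2h`)  ⟹  frozen S0485.

`P2h = ℂ[[X₀, X₁]]` (`X 0 = s`, `X 1 = t` in the blueprint).
(FC1) is expressed by the type classes `IsDomain A`, `Module.Free P2h A`, `Module.Finite P2h A`,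
(FC2)-(FC5) are the fields below.
-/

set_option autoImplicit false

namespace Claimed.Agent.R246

/-- formal power series in two variables over `ℂ` -/
abbrev P2h : Type := MvPowerSeries (Fin 2) ℂ

/-- The formal certificate (FC2)-(FC5) of `R246_T.md`, section T0. -/
structure FormalCert (A : Type) [CommRing A] [Algebra ℂ A] [Algebra P2h A] where
  /-- (FC2) the two derivations -/
  D : Fin 2 → Derivation ℂ A A
  /-- (FC3) the singular point -/
  ev : A →ₐ[ℂ] ℂ
  /-- it lies over the origin -/
  ev_X : ∀ j : Fin 2, ev (algebraMap P2h A (MvPowerSeries.X j)) = 0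
  /-- the derivations vanish there -/
  ev_D : ∀ i a, ev (D i a) = 0
  /-- (FC4) exponent of the minor certificate -/
  N0 : ℕ
  /-- `X j ^ N0` lies in the ideal generated by the minors -/
  minors : ∀ j : Fin 2, algebraMap P2h A (MvPowerSeries.X j) ^ N0 ∈
    Ideal.span {x : A | ∃ g h : A, x = D 0 g * D 1 h - D 0 h * D 1 g}
  /-- (FC5) exponent -/
  M0 : ℕ
  /-- every element of `ker ev` is nilpotent modulo `(X 0, X 1)` -/
  nil : ∀ a : A, ev a = 0 → a ^ M0 ∈
    Ideal.span (Set.range fun j : Fin 2 => algebraMap P2h A (MvPowerSeries.X j))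

end Claimed.Agent.R246
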