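import Claimed.Agent.R246.Defs

/-! Row 246: finiteness properties of the witness `lzA L = integralClosure P2 L`. -/

set_option autoImplicit false

namespace Claimed.Agent.R246

open MvPolynomial

variable {L : Type} [Field L] [Algebra ℂ L] [Algebra P2 L] [IsScalarTower ℂ P2 L]

/-- a finite subalgebra is integral -/
theorem lz_le (c : LZCert L) : c.A' ≤ lzA L :=
  fun x hx => IsIntegral.of_mem_of_fg c.A' c.fin x hx

/-- every element of `L` is algebraic over `P2` (write `x = a / b` with `a b ∈ A'`, both integral) -/
theorem lz_isAlgebraic (c : LZCert L) (x : L) : IsAlgebraic P2 x := by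
  obtain ⟨a, ha, b, hb, hb0, hx⟩ := c.frac x
  have ha' : IsAlgebraic P2 a := (lz_le c ha : IsIntegral P2 a).isAlgebraic
  have hb' : IsAlgebraic P2 b := (lz_le c hb : IsIntegral P2 b).isAlgebraic
  have hxe : x = a * b⁻¹ := by
    rw [← hx]
    field_simp
  rw [hxe]
  exact ha'.mul hb'.inv

/-- `L` is finite over the fraction field of `P2`, for ANY compatible algebra structure.
Idea: the `K`-span of `A'` is a finite-dimensional `K`-subalgebra of the field `L`, hence a field,
and it contains all `a / b`. -/
theorem lz_finiteDimensional (c : LZCert L) [Algebra (FractionRing P2) L]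
    [IsScalarTower P2 (FractionRing P2) L] : FiniteDimensional (FractionRing P2) L := by
  obtain ⟨S, hS⟩ := c.fin
  let B : Subalgebra (FractionRing P2) L := Algebra.adjoin (FractionRing P2) (c.A' : Set L)
  have hB : Subalgebra.toSubmodule B = Submodule.span (FractionRing P2) (c.A' : Set L) := by
    have h1 : ((Submonoid.closure (c.A' : Set L) : Submonoid L) : Set L) = (c.A' : Set L) :=
      congrArg (fun M : Submonoid L => (M : Set L)) (Submonoid.closure_eq c.A'.toSubmonoid)
    rw [Algebra.adjoin_eq_span, h1]
  have hspan : Submodule.span (FractionRing P2) (c.A' : Set L) ≤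
      Submodule.span (FractionRing P2) (S : Set L) := by
    rw [Submodule.span_le]
    intro a ha
    have h1 : a ∈ Submodule.span P2 (S : Set L) := by
      rw [hS]
      exact ha
    exact Submodule.span_subset_span P2 (FractionRing P2) (S : Set L) h1
  have htop : ∀ x : L, x ∈ B := by
    intro x
    obtain ⟨a, ha, b, hb, hb0, hx⟩ := c.frac x
    have haB : a ∈ B := Algebra.subset_adjoin ha
    have hbB : b ∈ B := Algebra.subset_adjoin hb
    have hbalg : IsAlgebraic (FractionRing P2) b :=
      ((lz_le c hb : IsIntegral P2 b).tower_top).isAlgebraic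
    have hinv : b⁻¹ ∈ B := B.inv_mem_of_algebraic (x := ⟨b, hbB⟩) hbalg
    have hxe : x = a * b⁻¹ := by
      rw [← hx]
      field_simp
    rw [hxe]
    exact B.mul_mem haB hinv
  refine Module.finite_def.2 ⟨S, le_antisymm le_top ?_⟩
  intro x _
  have h2 : x ∈ Subalgebra.toSubmodule B := htop x
  rw [hB] at h2
  exact hspan h2

/-- Noether: the integral closure is a finite module (char 0, so separable):
`IsIntegralClosure.finite` / `IsIntegralClosure.isNoetherian`. -/
theorem lz_finite (c : LZCert L) : Module.Finite P2 (lzA L) := by
  have hF : FaithfulSMul P2 L := (faithfulSMul_iff_algebraMap_injective P2 L).2 c.inj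
  let _ : Algebra (FractionRing P2) L := FractionRing.liftAlgebra P2 L
  have hT : IsScalarTower P2 (FractionRing P2) L := FractionRing.isScalarTower_liftAlgebra P2 L
  have hfd : FiniteDimensional (FractionRing P2) L := lz_finiteDimensional c
  have hc0 : CharZero (FractionRing P2) := by
    have : CharZero P2 := inferInstance
    exact charZero_of_injective_algebraMap (IsFractionRing.injective P2 (FractionRing P2))
  have hsep : Algebra.IsSeparable (FractionRing P2) L := inferInstance
  exact IsIntegralClosure.finite P2 (FractionRing P2) L (lzA L)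

theorem lz_fg (c : LZCert L) : (Subalgebra.toSubmodule (lzA L)).FG := by
  have h := lz_finite c
  exact Module.Finite.iff_fg.1 h

theorem lz_finiteType (c : LZCert L) : Algebra.FiniteType ℂ (lzA L) := by
  have h1 := lz_finite c
  have h2 : Algebra.FiniteType P2 (lzA L) := inferInstance
  have h3 : Algebra.FiniteType ℂ P2 := inferInstance
  exact Algebra.FiniteType.trans h3 h2

theorem lz_isFractionRing (c : LZCert L) : IsFractionRing (lzA L) L := by
  have hF : FaithfulSMul P2 L := (faithfulSMul_iff_algebraMap_injective P2 L).2 c.inj
  let _ : Algebra (FractionRing P2) L := FractionRing.liftAlgebra P2 L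
  have hT : IsScalarTower P2 (FractionRing P2) L := FractionRing.isScalarTower_liftAlgebra P2 L
  have hfd : FiniteDimensional (FractionRing P2) L := lz_finiteDimensional c
  exact integralClosure.isFractionRing_of_finite_extension (FractionRing P2) L

theorem lz_isIntegrallyClosed (c : LZCert L) : IsIntegrallyClosed (lzA L) := by
  have hF : FaithfulSMul P2 L := (faithfulSMul_iff_algebraMap_injective P2 L).2 c.inj
  let _ : Algebra (FractionRing P2) L := FractionRing.liftAlgebra P2 L
  have hT : IsScalarTower P2 (FractionRing P2) L := FractionRing.isScalarTower_liftAlgebra P2 L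
  have hfd : FiniteDimensional (FractionRing P2) L := lz_finiteDimensional c
  exact integralClosure.isIntegrallyClosedOfFiniteExtension (FractionRing P2)

/-- a common denominator of finitely many elements of `L` -/
theorem lz_common_den (c : LZCert L) (S : Finset L) :
    ∃ d ∈ c.A', d ≠ 0 ∧ ∀ a ∈ S, d * a ∈ c.A' := by
  classical
  induction S using Finset.induction_on with
  | empty => exact ⟨1, c.A'.one_mem, one_ne_zero, fun a ha => absurd ha (Finset.notMem_empty a)⟩
  | insert x S _ ih =>
    obtain ⟨d, hd, hd0, hS⟩ := ih
    obtain ⟨a', ha', b, hb, hb0, hx⟩ := c.frac x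
    refine ⟨d * b, c.A'.mul_mem hd hb, mul_ne_zero hd0 hb0, fun a ha => ?_⟩
    rcases Finset.mem_insert.1 ha with rfl | ha
    · have e : d * b * a = d * a' := by rw [← hx]; ring
      rw [e]
      exact c.A'.mul_mem hd ha'
    · have e : d * b * a = b * (d * a) := by ring
      rw [e]
      exact c.A'.mul_mem hb (hS a ha)

/-- a common denominator: `lzA L` is a finite module inside `Frac A'` -/
theorem lz_conductor (c : LZCert L) : ∃ d : L, d ≠ 0 ∧ ∀ a ∈ lzA L, d * a ∈ c.A' := by
  obtain ⟨S, hS⟩ := lz_fg c
  obtain ⟨d, _, hd0, hd⟩ := lz_common_den c S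
  refine ⟨d, hd0, fun a ha => ?_⟩
  have ha' : a ∈ Submodule.span P2 (S : Set L) := by
    rw [hS]
    exact ha
  have hle : Submodule.span P2 (S : Set L)
      ≤ (Subalgebra.toSubmodule c.A').comap (LinearMap.mulLeft P2 d) := by
    rw [Submodule.span_le]
    intro x hx
    exact hd x hx
  exact hle ha'

end Claimed.Agent.R246
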