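import Claimed.Agent.R246.Main

/-!
# Row 246: local certificate for S0485

`result_of_local`: a finitely generated `ℂ`-domain `B` of transcendence degree `2` with two derivations which
vanish at a point `ev` and whose `2 × 2` minors generate, after inverting some `u` with `ev u ≠ 0`, an ideal
containing a power of every function vanishing at the point, gives the frozen statement S0485.
-/

set_option autoImplicit false

namespace Claimed.Agent.R246

open MvPolynomial

/-- the frozen statement S0485 -/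
def LZGoal : Prop :=
  ∃ (A : Type) (_ : CommRing A) (_ : IsDomain A) (_ : Algebra ℂ A),
      Algebra.FiniteType ℂ A ∧ IsIntegrallyClosed A ∧ ringKrullDim A = 2 ∧
      Nonempty (Derivation ℂ A A ≃ₗ[A] (Fin 2 → A)) ∧
      ∃ (m : Ideal A) (_ : m.IsMaximal), ¬ IsRegularLocalRing (Localization.AtPrime m)

/-- `LZGoal` unfolds to the frozen statement -/
theorem LZGoal.frozen (h : LZGoal) :
    ∃ (A : Type) (_ : CommRing A) (_ : IsDomain A) (_ : Algebra ℂ A),
      Algebra.FiniteType ℂ A ∧ IsIntegrallyClosed A ∧ ringKrullDim A = 2 ∧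
      Nonempty (Derivation ℂ A A ≃ₗ[A] (Fin 2 → A)) ∧
      ∃ (m : Ideal A) (_ : m.IsMaximal), ¬ IsRegularLocalRing (Localization.AtPrime m) := h

/-- the ideal of `2 × 2` minors of two derivations of a ring -/
def lzMinorIdeal {B : Type} [CommRing B] [Algebra ℂ B] (D : Fin 2 → Derivation ℂ B B) : Ideal B :=
  Ideal.span {m | ∃ g h, m = D 0 g * D 1 h - D 0 h * D 1 g}

/-- a derivation extends to any localisation -/
theorem lz_exists_locDer_gen {A Am : Type} [CommRing A] [Algebra ℂ A] [CommRing Am] [Algebra A Am]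
    [Algebra ℂ Am] [IsScalarTower ℂ A Am] (M : Submonoid A) [IsLocalization M Am]
    (D : Derivation ℂ A A) :
    ∃ D' : Derivation ℂ Am Am, ∀ a, D' (algebraMap A Am a) = algebraMap A Am (D a) := by
  have : Algebra.FormallyEtale A Am := Algebra.FormallyEtale.of_isLocalization (Rₘ := Am) M
  have hb := KaehlerDifferential.isBaseChange_of_formallyEtale ℂ A Am
  let g : Ω[A⁄ℂ] →ₗ[A] Am := (Algebra.linearMap A Am) ∘ₗ D.liftKaehlerDifferential
  refine ⟨(hb.lift g).compDer (KaehlerDifferential.D ℂ Am), fun a => ?_⟩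
  have h1 : KaehlerDifferential.D ℂ Am (algebraMap A Am a)
      = KaehlerDifferential.map ℂ ℂ A Am (KaehlerDifferential.D ℂ A a) := by
    rw [KaehlerDifferential.map_D]
  have h2 : ((hb.lift g).compDer (KaehlerDifferential.D ℂ Am)) (algebraMap A Am a)
      = hb.lift g (KaehlerDifferential.D ℂ Am (algebraMap A Am a)) := rfl
  rw [h2, h1, hb.lift_eq]
  simp [g]

/-- abstract form of `result_of_cert`: the model is a ring, finite over `P2`. -/
theorem result_of_finite {B : Type} [CommRing B] [IsDomain B] [Algebra ℂ B] [Algebra P2 B]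
    [IsScalarTower ℂ P2 B] [Module.Finite P2 B] (hinj : Function.Injective (algebraMap P2 B))
    (D : Fin 2 → Derivation ℂ B B) (ev : B →ₐ[ℂ] ℂ) (hX : ∀ j, ev (algebraMap P2 B (X j)) = 0)
    (hD : ∀ i b, ev (D i b) = 0) (N : ℕ)
    (hmin : ∀ j, algebraMap P2 B (X j) ^ N ∈ lzMinorIdeal D) : LZGoal := by
  let L := FractionRing B
  have hBL : Function.Injective (algebraMap B L) := IsFractionRing.injective B L
  choose D' hD' using fun i => lz_exists_locDer_gen (Am := L) (nonZeroDivisors B) (D i)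
  let φ : B →ₐ[P2] L := IsScalarTower.toAlgHom P2 B L
  have hφ : ∀ b, φ b = algebraMap B L b := fun b => rfl
  let e : B ≃ₐ[P2] φ.range := AlgEquiv.ofInjective φ hBL
  have he : ∀ b, ((e b : φ.range) : L) = algebraMap B L b := fun b => rfl
  have hstable : ∀ i, ∀ a ∈ φ.range, D' i a ∈ φ.range := by
    rintro i _ ⟨b, rfl⟩
    exact ⟨D i b, (hD' i b).symm⟩
  refine result_of_cert (L := L)
    { inj := by
        rw [IsScalarTower.algebraMap_eq P2 B L]
        exact hBL.comp hinj
      A' := φ.range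
      fin := by
        have h1 : Subalgebra.toSubmodule φ.range = LinearMap.range φ.toLinearMap := rfl
        rw [h1]
        exact (Submodule.fg_top _).mp (Module.Finite.range φ.toLinearMap).1
      frac := by
        intro x
        obtain ⟨⟨a, b⟩, hab⟩ := IsLocalization.surj (nonZeroDivisors B) x
        refine ⟨algebraMap B L a, ⟨a, rfl⟩, algebraMap B L b, ⟨b, rfl⟩, ?_, hab⟩
        exact IsLocalization.to_map_ne_zero_of_mem_nonZeroDivisors L le_rfl b.2
      D := D'
      stable := hstable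
      ev := (ev : B →+* ℂ).comp (e.symm : φ.range →+* B)
      ev_X := ?_
      ev_D := ?_
      N := N
      minors := ?_ }
  · intro j
    have : (e.symm (algebraMap P2 φ.range (X j))) = algebraMap P2 B (X j) := by
      simp
    simp only [RingHom.comp_apply]
    erw [this]
    exact hX j
  · rintro i _ ⟨b, rfl⟩
    have : e.symm ⟨D' i (φ b), hstable i _ ⟨b, rfl⟩⟩ = D i b := by
      rw [AlgEquiv.symm_apply_eq]
      ext
      rw [he]
      exact hD' i b
    simp only [RingHom.comp_apply]
    erw [this]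
    exact hD i b
  · intro j
    have key : ∀ b ∈ lzMinorIdeal D, algebraMap B L b ∈
        Submodule.span φ.range {x : L | ∃ g ∈ φ.range, ∃ h ∈ φ.range, x = lzMinor D' g h} := by
      intro b hb
      refine Submodule.span_induction (p := fun b _ => algebraMap B L b ∈
        Submodule.span φ.range {x : L | ∃ g ∈ φ.range, ∃ h ∈ φ.range, x = lzMinor D' g h})
        ?_ ?_ ?_ ?_ hb
      · rintro _ ⟨g, h, rfl⟩
        refine Submodule.subset_span ⟨algebraMap B L g, ⟨g, rfl⟩, algebraMap B L h, ⟨h, rfl⟩, ?_⟩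
        simp [lzMinor, hD']
      · simp
      · intro x y _ _ hx hy
        rw [map_add]
        exact Submodule.add_mem _ hx hy
      · intro a x _ hx
        have : algebraMap B L (a • x) = (e a : φ.range) • algebraMap B L x := by
          rw [smul_eq_mul, map_mul]
          rfl
        rw [this]
        exact Submodule.smul_mem _ _ hx
    have := key _ (hmin j)
    rwa [map_pow, ← IsScalarTower.algebraMap_apply P2 B L] at this

/-- Noether normalisation of a two-dimensional affine domain, centred at a given point. -/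
theorem lz_noether_centred {B : Type} [CommRing B] [IsDomain B] [Algebra ℂ B] [Algebra.FiniteType ℂ B]
    (x : Fin 2 → B) (hx : IsTranscendenceBasis ℂ x) (ev : B →ₐ[ℂ] ℂ) :
    ∃ g : P2 →ₐ[ℂ] B, Function.Injective g ∧ g.Finite ∧ ∀ j, ev (g (X j)) = 0 := by
  obtain ⟨s, g, hinj, hfin⟩ := exists_finite_inj_algHom_of_fg ℂ B
  have hs : s = 2 := by
    let _ : Algebra (MvPolynomial (Fin s) ℂ) B := g.toRingHom.toAlgebra
    have h0 : ∀ p, algebraMap (MvPolynomial (Fin s) ℂ) B p = g p := fun p => rfl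
    have : IsScalarTower ℂ (MvPolynomial (Fin s) ℂ) B :=
      IsScalarTower.of_algebraMap_eq fun r => by rw [h0]; exact (g.commutes r).symm
    have : Module.Finite (MvPolynomial (Fin s) ℂ) B := hfin
    have : Algebra.IsAlgebraic (MvPolynomial (Fin s) ℂ) B := inferInstance
    have : FaithfulSMul (MvPolynomial (Fin s) ℂ) B :=
      (faithfulSMul_iff_algebraMap_injective _ _).mpr hinj
    have h1 := (IsTranscendenceBasis.mvPolynomial (Fin s) ℂ).algebraMap_comp (A := B)
    have h2 := h1.cardinalMk_eq hx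
    simp only [Cardinal.mk_fin] at h2
    exact_mod_cast h2
  subst hs
  let τ : P2 →ₐ[ℂ] P2 := aeval (fun j => X j - C (ev (g (X j))))
  let τ' : P2 →ₐ[ℂ] P2 := aeval (fun j => X j + C (ev (g (X j))))
  have h1 : τ'.comp τ = AlgHom.id ℂ P2 := by
    ext j
    simp [τ, τ']
  have h2 : τ.comp τ' = AlgHom.id ℂ P2 := by
    ext j
    simp [τ, τ']
  have hτinj : Function.Injective τ := by
    intro a b hab
    have := congrArg τ' hab
    rwa [← AlgHom.comp_apply, ← AlgHom.comp_apply, h1] at this
  have hτsurj : Function.Surjective τ := by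
    intro a
    exact ⟨τ' a, by rw [← AlgHom.comp_apply, h2]; rfl⟩
  refine ⟨g.comp τ, hinj.comp hτinj, ?_, ?_⟩
  · exact RingHom.Finite.comp hfin (RingHom.Finite.of_surjective _ hτsurj)
  · intro j
    simp [τ]

/-- the local certificate with `u = 1` -/
theorem result_of_local_one {B : Type} [CommRing B] [IsDomain B] [Algebra ℂ B]
    [Algebra.FiniteType ℂ B] (x : Fin 2 → B) (hx : IsTranscendenceBasis ℂ x)
    (D : Fin 2 → Derivation ℂ B B) (ev : B →ₐ[ℂ] ℂ) (hD : ∀ i b, ev (D i b) = 0) (N : ℕ)
    (hmin : ∀ b, ev b = 0 → b ^ N ∈ lzMinorIdeal D) : LZGoal := by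
  obtain ⟨g, hinj, hfin, hg⟩ := lz_noether_centred x hx ev
  let _ : Algebra P2 B := g.toRingHom.toAlgebra
  have h0 : ∀ p, algebraMap P2 B p = g p := fun p => rfl
  have : IsScalarTower ℂ P2 B :=
    IsScalarTower.of_algebraMap_eq fun r => by rw [h0]; exact (g.commutes r).symm
  have : Module.Finite P2 B := hfin
  exact result_of_finite hinj D ev hg hD N (fun j => hmin _ (hg j))

/-- **The local certificate.**  `B` is a finitely generated `ℂ`-domain of transcendence degree two, `D 0, D 1`
are derivations of `B` vanishing at the point `ev`, and on the neighbourhood `u ≠ 0` of the point the minors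
vanish only at the point. -/
theorem result_of_local' {B : Type} [CommRing B] [IsDomain B] [Algebra ℂ B]
    [Algebra.FiniteType ℂ B] (x : Fin 2 → B) (hx : IsTranscendenceBasis ℂ x)
    (D : Fin 2 → Derivation ℂ B B) (ev : B →ₐ[ℂ] ℂ) (hD : ∀ i b, ev (D i b) = 0)
    (u : B) (hu : ev u ≠ 0) (N : ℕ)
    (hmin : ∀ b, ev b = 0 → u * b ^ N ∈ lzMinorIdeal D) : LZGoal := by
  have hu0 : u ≠ 0 := by
    rintro rfl
    exact hu (map_zero ev)
  let B1 := Localization.Away u
  have hle : Submonoid.powers u ≤ nonZeroDivisors B :=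
    powers_le_nonZeroDivisors_of_noZeroDivisors hu0
  have : IsDomain B1 := IsLocalization.isDomain_localization hle
  have hinj : Function.Injective (algebraMap B B1) := IsLocalization.injective B1 hle
  have : Algebra.IsAlgebraic B B1 := IsLocalization.isAlgebraic B1 (Submonoid.powers u)
  have : FaithfulSMul B B1 := (faithfulSMul_iff_algebraMap_injective _ _).mpr hinj
  have hx1 : IsTranscendenceBasis ℂ (algebraMap B B1 ∘ x) := hx.algebraMap_comp
  choose D1 hD1 using fun i => lz_exists_locDer_gen (Am := B1) (Submonoid.powers u) (D i)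
  have hunit : ∀ y : Submonoid.powers u, IsUnit (ev y) := by
    rintro ⟨_, k, rfl⟩
    simpa using (isUnit_iff_ne_zero.mpr hu).pow k
  let ev1 : B1 →ₐ[ℂ] ℂ := IsLocalization.liftAlgHom (M := Submonoid.powers u) (f := ev) hunit
  have hev1 : ∀ b, ev1 (algebraMap B B1 b) = ev b := by
    intro b
    simp [ev1]
  have hsurj : ∀ y : B1, ∃ (a : B) (k : ℕ), y * algebraMap B B1 u ^ k = algebraMap B B1 a := by
    intro y
    obtain ⟨⟨a, ⟨_, k, rfl⟩⟩, h⟩ := IsLocalization.surj (Submonoid.powers u) y
    exact ⟨a, k, by simpa using h⟩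
  have huu : IsUnit (algebraMap B B1 u) :=
    IsLocalization.map_units B1 (⟨u, 1, by simp⟩ : Submonoid.powers u)
  refine result_of_local_one (algebraMap B B1 ∘ x) hx1 D1 ev1 ?_ N ?_
  · intro i y
    obtain ⟨a, k, h⟩ := hsurj y
    have h2 := congrArg (D1 i) h
    rw [← map_pow, Derivation.leibniz, hD1, hD1] at h2
    have h3 := congrArg ev1 h2
    simp only [smul_eq_mul, map_add, map_mul, hev1, hD, mul_zero, zero_add] at h3
    rcases mul_eq_zero.mp h3 with h4 | h4
    · exact absurd h4 (by simpa using pow_ne_zero k hu)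
    · exact h4
  · intro y hy
    obtain ⟨a, k, h⟩ := hsurj y
    have ha : ev a = 0 := by
      rw [← hev1, ← h, map_mul, hy, zero_mul]
    have h1 := hmin a ha
    have key : ∀ b ∈ lzMinorIdeal D, algebraMap B B1 b ∈ lzMinorIdeal D1 := by
      intro b hb
      have h2 : (lzMinorIdeal D).map (algebraMap B B1) ≤ lzMinorIdeal D1 := by
        rw [lzMinorIdeal, Ideal.map_span, Ideal.span_le]
        rintro _ ⟨_, ⟨g, h, rfl⟩, rfl⟩
        refine Ideal.subset_span ⟨algebraMap B B1 g, algebraMap B B1 h, ?_⟩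
        simp [hD1]
      exact h2 (Ideal.mem_map_of_mem _ hb)
    have h2 := key _ h1
    rw [map_mul, map_pow, ← h, mul_pow, ← mul_assoc, mul_comm, ← mul_assoc] at h2
    have h3 : IsUnit ((algebraMap B B1 u ^ k) ^ N * algebraMap B B1 u) :=
      ((huu.pow k).pow N).mul huu
    exact (Ideal.unit_mul_mem_iff_mem _ h3).mp h2

/-- Generator form of the local certificate: all conditions are only required on a finite generating set `S`
of the `ℂ`-algebra `B`. -/
theorem result_of_gens' {B : Type} [CommRing B] [IsDomain B] [Algebra ℂ B]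
    (S : Finset B) (hS : Algebra.adjoin ℂ (S : Set B) = ⊤)
    (x : Fin 2 → B) (hx : IsTranscendenceBasis ℂ x)
    (D : Fin 2 → Derivation ℂ B B) (ev : B →ₐ[ℂ] ℂ) (hD : ∀ i, ∀ g ∈ S, ev (D i g) = 0)
    (u : B) (hu : ev u ≠ 0) (N : ℕ)
    (hmin : ∀ g ∈ S, u * (g - algebraMap ℂ B (ev g)) ^ N ∈ lzMinorIdeal D) : LZGoal := by
  classical
  have : Algebra.FiniteType ℂ B := ⟨⟨S, hS⟩⟩
  have hmem : ∀ b : B, b ∈ Algebra.adjoin ℂ (S : Set B) := fun b => hS ▸ Algebra.mem_top
  have hD' : ∀ i b, ev (D i b) = 0 := by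
    intro i b
    refine Algebra.adjoin_induction (p := fun b _ => ev (D i b) = 0) ?_ ?_ ?_ ?_ (hmem b)
    · intro g hg
      exact hD i g hg
    · intro r
      simp
    · intro a b _ _ ha hb
      simp [ha, hb]
    · intro a b _ _ ha hb
      simp [ha, hb]
  let I : Ideal B := Ideal.span ((fun g => g - algebraMap ℂ B (ev g)) '' (S : Set B))
  have hI : ∀ b : B, b - algebraMap ℂ B (ev b) ∈ I := by
    intro b
    refine Algebra.adjoin_induction (p := fun b _ => b - algebraMap ℂ B (ev b) ∈ I) ?_ ?_ ?_ ?_ (hmem b)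
    · intro g hg
      exact Ideal.subset_span ⟨g, hg, rfl⟩
    · intro r
      simp
    · intro a b _ _ ha hb
      have : a + b - algebraMap ℂ B (ev (a + b))
          = (a - algebraMap ℂ B (ev a)) + (b - algebraMap ℂ B (ev b)) := by
        rw [map_add, map_add]; ring
      rw [this]
      exact I.add_mem ha hb
    · intro a b _ _ ha hb
      have : a * b - algebraMap ℂ B (ev (a * b))
          = b * (a - algebraMap ℂ B (ev a)) + algebraMap ℂ B (ev a) * (b - algebraMap ℂ B (ev b)) := by
        rw [map_mul, map_mul]; ring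
      rw [this]
      exact I.add_mem (I.mul_mem_left _ ha) (I.mul_mem_left _ hb)
  let J : Ideal B := Submodule.comap (LinearMap.mulLeft B u) (lzMinorIdeal D)
  have hJ : ∀ b, b ∈ J ↔ u * b ∈ lzMinorIdeal D := fun b => Iff.rfl
  have hIJ : I ≤ J.radical := by
    rw [Ideal.span_le]
    rintro _ ⟨g, hg, rfl⟩
    exact ⟨N, (hJ _).mpr (hmin g hg)⟩
  have hfg : I.FG := ⟨S.image (fun g => g - algebraMap ℂ B (ev g)), by simp [I]⟩
  obtain ⟨k, hk⟩ := Ideal.exists_pow_le_of_le_radical_of_fg hIJ hfg
  refine result_of_local' x hx D ev hD' u hu k ?_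
  intro b hb
  have h1 := hI b
  rw [hb, map_zero, sub_zero] at h1
  exact (hJ _).mp (hk (Ideal.pow_mem_pow h1 k))

/-- restriction of a derivation to a stable subalgebra -/
noncomputable def lzResDer {E : Type} [CommRing E] [Algebra ℂ E] (B : Subalgebra ℂ E)
    (D : Derivation ℂ E E) (h : ∀ b ∈ B, D b ∈ B) : Derivation ℂ B B :=
  Derivation.mk'
    { toFun := fun a => ⟨D a, h a a.2⟩
      map_add' := fun a b => by ext; simp
      map_smul' := fun r a => by ext; simp }
    (fun a b => by ext; simp)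

@[simp] theorem lzResDer_coe {E : Type} [CommRing E] [Algebra ℂ E] (B : Subalgebra ℂ E)
    (D : Derivation ℂ E E) (h : ∀ b ∈ B, D b ∈ B) (a : B) : ((lzResDer B D h a : B) : E) = D a := rfl

/-- a derivation which maps generators into the subalgebra preserves the subalgebra -/
theorem lz_adjoin_stable {E : Type} [CommRing E] [Algebra ℂ E] (S : Set E) (D : Derivation ℂ E E)
    (h : ∀ g ∈ S, D g ∈ Algebra.adjoin ℂ S) : ∀ b ∈ Algebra.adjoin ℂ S, D b ∈ Algebra.adjoin ℂ S := by
  intro b hb
  refine Algebra.adjoin_induction (p := fun b _ => D b ∈ Algebra.adjoin ℂ S) h ?_ ?_ ?_ hb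
  · intro r
    simp
  · intro a b _ _ ha hb
    rw [map_add]
    exact add_mem ha hb
  · intro a b ha' hb' ha hb
    rw [Derivation.leibniz]
    exact add_mem (mul_mem ha' hb) (mul_mem hb' ha)

/-- **Local certificate inside a big ring.**  `E` is any domain over `P2 = ℂ[X₀, X₁]` (for instance a domain which
is finite over `ℂ⟦X₀, X₁⟧`) with a point `ev` and two derivations `D 0, D 1`;
`S` is a finite set of elements, algebraic over `P2`, containing the two coordinates, such that
`D i g ∈ ℂ[S]`; the derivations vanish at the point and `u * (g - g(0)) ^ N` is a `ℂ[S]`-combination of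
minors of elements of `ℂ[S]`, `u ∈ ℂ[S]`, `u(0) ≠ 0`. -/
theorem result_of_adjoin' {E : Type} [CommRing E] [IsDomain E] [Algebra ℂ E] [Algebra P2 E]
    [IsScalarTower ℂ P2 E] (hinj : Function.Injective (algebraMap P2 E)) (S : Finset E)
    (hXS : ∀ j, algebraMap P2 E (X j) ∈ Algebra.adjoin ℂ (S : Set E))
    (halg : ∀ g ∈ S, IsAlgebraic P2 g)
    (D : Fin 2 → Derivation ℂ E E) (hDS : ∀ i, ∀ g ∈ S, D i g ∈ Algebra.adjoin ℂ (S : Set E))
    (ev : E →ₐ[ℂ] ℂ) (hD : ∀ i, ∀ g ∈ S, ev (D i g) = 0)
    (u : E) (huS : u ∈ Algebra.adjoin ℂ (S : Set E)) (hu : ev u ≠ 0) (N : ℕ)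
    (hmin : ∀ g ∈ S, u * (g - algebraMap ℂ E (ev g)) ^ N ∈
      Submodule.span (Algebra.adjoin ℂ (S : Set E))
        {m : E | ∃ g ∈ Algebra.adjoin ℂ (S : Set E), ∃ h ∈ Algebra.adjoin ℂ (S : Set E),
          m = D 0 g * D 1 h - D 0 h * D 1 g}) : LZGoal := by
  classical
  let B : Subalgebra ℂ E := Algebra.adjoin ℂ (S : Set E)
  have hst : ∀ i, ∀ b ∈ B, D i b ∈ B := fun i => lz_adjoin_stable _ (D i) (hDS i)
  let DB : Fin 2 → Derivation ℂ B B := fun i => lzResDer B (D i) (hst i)
  let x : Fin 2 → B := fun j => ⟨algebraMap P2 E (X j), hXS j⟩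
  let γ : P2 →ₐ[ℂ] B := aeval x
  have hγ : ∀ p, ((γ p : B) : E) = algebraMap P2 E p := by
    intro p
    have h1 : (B.val.comp γ) = IsScalarTower.toAlgHom ℂ P2 E := by
      ext j
      simp [γ, x]
    exact congrArg (fun f : P2 →ₐ[ℂ] E => f p) h1
  have hx : IsTranscendenceBasis ℂ x := by
    let _ : Algebra P2 B := γ.toRingHom.toAlgebra
    have h0 : ∀ p, algebraMap P2 B p = γ p := fun p => rfl
    have : IsScalarTower ℂ P2 B :=
      IsScalarTower.of_algebraMap_eq fun r => by rw [h0]; exact (γ.commutes r).symm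
    have : IsScalarTower P2 B E :=
      IsScalarTower.of_algebraMap_eq fun p => by rw [h0]; exact (hγ p).symm
    have hinjB : Function.Injective (algebraMap P2 B) := by
      intro p q hpq
      apply hinj
      rw [← hγ, ← hγ, ← h0, ← h0, hpq]
    have : FaithfulSMul P2 B := (faithfulSMul_iff_algebraMap_injective _ _).mpr hinjB
    have : Algebra.IsAlgebraic P2 B := by
      constructor
      intro b
      have h1 : IsAlgebraic P2 (b : E) := by
        refine Algebra.adjoin_induction (p := fun b _ => IsAlgebraic P2 b) halg ?_ ?_ ?_ b.2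
        · intro r
          rw [IsScalarTower.algebraMap_apply ℂ P2 E]
          exact isAlgebraic_algebraMap _
        · intro a b _ _ ha hb
          exact ha.add hb
        · intro a b _ _ ha hb
          exact ha.mul hb
      exact (isAlgebraic_algebraMap_iff (R := P2) (S := B) (A := E) Subtype.val_injective).mp h1
    have h1 := (IsTranscendenceBasis.mvPolynomial (Fin 2) ℂ).algebraMap_comp (A := B)
    have h2 : (algebraMap P2 B ∘ X) = x := by
      funext j
      simp [h0, γ]
    rwa [h2] at h1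
  let SB : Finset B := S.attach.image (fun g => ⟨g.1, Algebra.subset_adjoin g.2⟩)
  have hSB : ∀ b : B, b ∈ SB ↔ (b : E) ∈ S := by
    intro b
    simp only [SB, Finset.mem_image, Finset.mem_attach, true_and, Subtype.exists]
    constructor
    · rintro ⟨g, hg, rfl⟩
      exact hg
    · intro hb
      exact ⟨b, hb, rfl⟩
  have htop : Algebra.adjoin ℂ (SB : Set B) = ⊤ := by
    rw [eq_top_iff]
    rintro ⟨b, hb⟩ -
    refine Algebra.adjoin_induction
      (p := fun b hb => (⟨b, hb⟩ : B) ∈ Algebra.adjoin ℂ (SB : Set B)) ?_ ?_ ?_ ?_ hb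
    · intro g hg
      exact Algebra.subset_adjoin ((hSB _).mpr hg)
    · intro r
      exact Subalgebra.algebraMap_mem _ r
    · intro a b _ _ ha hb
      exact add_mem ha hb
    · intro a b _ _ ha hb
      exact mul_mem ha hb
  let evB : B →ₐ[ℂ] ℂ := ev.comp B.val
  refine result_of_gens' SB htop x hx DB evB ?_ ⟨u, huS⟩ hu N ?_
  · intro i g hg
    exact hD i g ((hSB g).mp hg)
  · intro g hg
    have key : ∀ m ∈ Submodule.span B
        {m : E | ∃ g ∈ B, ∃ h ∈ B, m = D 0 g * D 1 h - D 0 h * D 1 g},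
        ∃ hm : m ∈ B, (⟨m, hm⟩ : B) ∈ lzMinorIdeal DB := by
      intro m hm
      refine Submodule.span_induction (p := fun m _ => ∃ hm : m ∈ B, (⟨m, hm⟩ : B) ∈ lzMinorIdeal DB)
        ?_ ?_ ?_ ?_ hm
      · rintro _ ⟨g, hg, h, hh, rfl⟩
        refine ⟨sub_mem (mul_mem (hst 0 g hg) (hst 1 h hh)) (mul_mem (hst 0 h hh) (hst 1 g hg)), ?_⟩
        exact Ideal.subset_span ⟨⟨g, hg⟩, ⟨h, hh⟩, rfl⟩
      · exact ⟨zero_mem _, (lzMinorIdeal DB).zero_mem⟩
      · rintro a b _ _ ⟨ha, ha'⟩ ⟨hb, hb'⟩
        exact ⟨add_mem ha hb, (lzMinorIdeal DB).add_mem ha' hb'⟩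
      · rintro c a _ ⟨ha, ha'⟩
        exact ⟨mul_mem c.2 ha, (lzMinorIdeal DB).mul_mem_left c ha'⟩
    obtain ⟨hm, hm'⟩ := key _ (hmin g ((hSB g).mp hg))
    exact hm'

end Claimed.Agent.R246
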