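import Mathlib

/-! Row 246: abstract lemmas for the non-regularity of the stable point. -/

set_option autoImplicit false

namespace Claimed.Agent.R246

open IsLocalRing

/-- "Taylor expansion to order n": the SAME coefficients `co a` work for all derivations.
Induction on `n`: `g = r + ∑ y a * g a`, `d g = ∑ g a * d (y a) + ∑ y a * d (g a)`, apply the case `n` to the `g a`. -/
theorem lz_taylor {S : Type} [CommRing S] [IsLocalRing S] [Algebra ℂ S]
    (hres : ∀ x : S, ∃ r : ℂ, x - algebraMap ℂ S r ∈ maximalIdeal S)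
    {ι : Type} [Fintype ι] (y : ι → S) (hy : Ideal.span (Set.range y) = maximalIdeal S)
    (n : ℕ) (g : S) : ∃ co : ι → S, ∀ d : Derivation ℂ S S,
      d g - ∑ a, co a * d (y a) ∈ maximalIdeal S ^ n := by
  induction n generalizing g with
  | zero => exact ⟨0, fun d => by simp⟩
  | succ n ih =>
    obtain ⟨r, hr⟩ := hres g
    rw [← hy, Ideal.mem_span_range_iff_exists_fun] at hr
    obtain ⟨c, hc⟩ := hr
    choose co' hco' using fun a => ih (c a)
    refine ⟨fun b => c b + ∑ a, y a * co' a b, fun d => ?_⟩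
    have hg : g = algebraMap ℂ S r + ∑ a, c a * y a := by rw [hc]; ring
    have hdg : d g = ∑ a, (c a * d (y a) + y a * d (c a)) := by
      rw [hg, map_add, Derivation.map_algebraMap, zero_add, map_sum]
      refine Finset.sum_congr rfl fun a _ => ?_
      rw [Derivation.leibniz]
      simp [smul_eq_mul]
    have key : d g - ∑ b, (c b + ∑ a, y a * co' a b) * d (y b)
        = ∑ a, y a * (d (c a) - ∑ b, co' a b * d (y b)) := by
      rw [hdg]
      simp only [add_mul, Finset.sum_add_distrib, mul_sub, Finset.sum_sub_distrib, Finset.sum_mul, Finset.mul_sum]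
      rw [Finset.sum_comm]
      have e : ∀ a b, y a * co' a b * d (y b) = y a * (co' a b * d (y b)) := fun a b => mul_assoc _ _ _
      simp only [e]
      ring
    rw [key]
    refine Ideal.sum_mem _ fun a _ => ?_
    rw [pow_succ']
    exact Ideal.mul_mem_mul (hy ▸ Ideal.subset_span ⟨a, rfl⟩) (hco' a d)

/-- Krull: `⋂ (J + m^n) = J`. -/
theorem lz_krull_mem {S : Type} [CommRing S] [IsLocalRing S] [IsNoetherianRing S] (J : Ideal S) (x : S)
    (h : ∀ n : ℕ, x ∈ J ⊔ maximalIdeal S ^ n) : x ∈ J := by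
  have hk := Ideal.iInf_pow_smul_eq_bot_of_isLocalRing (M := S ⧸ J) (maximalIdeal S)
    (Ideal.IsPrime.ne_top inferInstance)
  have hx : (Ideal.Quotient.mk J x : S ⧸ J) ∈ (⨅ i : ℕ, maximalIdeal S ^ i • ⊤ : Submodule S (S ⧸ J)) := by
    rw [Submodule.mem_iInf]
    intro n
    obtain ⟨a, ha, b, hb, rfl⟩ := Submodule.mem_sup.1 (h n)
    rw [map_add, Ideal.Quotient.eq_zero_iff_mem.2 ha, zero_add]
    have e : (Ideal.Quotient.mk J b : S ⧸ J) = b • (1 : S ⧸ J) := by
      rw [Algebra.smul_def, mul_one]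
      rfl
    rw [e]
    exact Submodule.smul_mem_smul hb Submodule.mem_top
  rw [hk, Submodule.mem_bot] at hx
  exact Ideal.Quotient.eq_zero_iff_mem.1 hx

/-- all minors lie in the ideal of the minors of the generators of the maximal ideal
(`lz_taylor` gives it modulo `m^n` for all `n`; Krull intersection theorem for `S ⧸ J`,
`Ideal.iInf_pow_smul_eq_bot_of_isLocalRing` or `IsHausdorff`). -/
theorem lz_minor_mem {S : Type} [CommRing S] [IsLocalRing S] [IsNoetherianRing S] [Algebra ℂ S]
    (hres : ∀ x : S, ∃ r : ℂ, x - algebraMap ℂ S r ∈ maximalIdeal S)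
    (d : Fin 2 → Derivation ℂ S S) {ι : Type} [Fintype ι] (y : ι → S)
    (hy : Ideal.span (Set.range y) = maximalIdeal S) (g h : S) :
    d 0 g * d 1 h - d 0 h * d 1 g ∈
      Ideal.span {z : S | ∃ a b, z = d 0 (y a) * d 1 (y b) - d 0 (y b) * d 1 (y a)} := by
  apply lz_krull_mem
  intro n
  obtain ⟨cg, hcg⟩ := lz_taylor hres y hy n g
  obtain ⟨ch, hch⟩ := lz_taylor hres y hy n h
  have hmain : (∑ a, cg a * d 0 (y a)) * (∑ b, ch b * d 1 (y b)) - (∑ b, ch b * d 0 (y b)) * (∑ a, cg a * d 1 (y a))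
      ∈ Ideal.span {z : S | ∃ a b, z = d 0 (y a) * d 1 (y b) - d 0 (y b) * d 1 (y a)} := by
    have e : (∑ a, cg a * d 0 (y a)) * (∑ b, ch b * d 1 (y b)) - (∑ b, ch b * d 0 (y b)) * (∑ a, cg a * d 1 (y a))
        = ∑ a, ∑ b, cg a * ch b * (d 0 (y a) * d 1 (y b) - d 0 (y b) * d 1 (y a)) := by
      rw [Finset.sum_mul_sum, Finset.sum_mul_sum, Finset.sum_comm (f := fun b a => ch b * d 0 (y b) * (cg a * d 1 (y a))),
        ← Finset.sum_sub_distrib]
      refine Finset.sum_congr rfl fun a _ => ?_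
      rw [← Finset.sum_sub_distrib]
      refine Finset.sum_congr rfl fun b _ => ?_
      ring
    rw [e]
    exact Ideal.sum_mem _ fun a _ => Ideal.sum_mem _ fun b _ =>
      Ideal.mul_mem_left _ _ (Ideal.subset_span ⟨a, b, rfl⟩)
  have e : d 0 g * d 1 h - d 0 h * d 1 g
      = ((∑ a, cg a * d 0 (y a)) * (∑ b, ch b * d 1 (y b)) - (∑ b, ch b * d 0 (y b)) * (∑ a, cg a * d 1 (y a)))
        + ((d 0 g - ∑ a, cg a * d 0 (y a)) * d 1 h + (∑ a, cg a * d 0 (y a)) * (d 1 h - ∑ b, ch b * d 1 (y b))
          - (d 0 h - ∑ b, ch b * d 0 (y b)) * d 1 g - (∑ b, ch b * d 0 (y b)) * (d 1 g - ∑ a, cg a * d 1 (y a))) := by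
    ring
  rw [e]
  refine Submodule.add_mem_sup hmain ?_
  exact Ideal.sub_mem _ (Ideal.sub_mem _ (Ideal.add_mem _ (Ideal.mul_mem_right _ _ (hcg (d 0)))
    (Ideal.mul_mem_left _ _ (hch (d 1)))) (Ideal.mul_mem_right _ _ (hch (d 0)))) (Ideal.mul_mem_left _ _ (hcg (d 1)))

/-- The abstract non-regularity statement.  `S` a Noetherian local domain, residue field `ℂ`,
two derivations with values in the maximal ideal; `J` = ideal of all minors.  If the maximal ideal is the only prime
containing `J` and `J ≠ 0`, then `S` is not regular.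
Proof: `r = spanFinrank m = dim S`, generators `y : Fin r → S` (`Submodule.FG.exists_fun_spanFinrank_span_range_eq` or similar).
`J ≤ J_y` := ideal of the minors of the `y a` by `lz_minor_mem`.
`r ≤ 1`: `J_y = 0`, contradiction.  `r = 2`: `J_y = (δ)`, `δ ∈ m`, `m` is a minimal prime over `(δ)`, so height `m ≤ 1`
(`Ideal.height_le_one_of_isPrincipal_of_mem_minimalPrimes`), i.e. `dim S ≤ 1 < 2`.
`r ≥ 3` is excluded by `hdim`. -/
theorem lz_not_regular_abs {S : Type} [CommRing S] [IsDomain S] [IsLocalRing S] [IsNoetherianRing S]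
    [Algebra ℂ S] (hres : ∀ x : S, ∃ r : ℂ, x - algebraMap ℂ S r ∈ maximalIdeal S)
    (d : Fin 2 → Derivation ℂ S S) (hd : ∀ i x, d i x ∈ maximalIdeal S)
    (hdim : ringKrullDim S ≤ 2)
    (z : S) (hz0 : z ≠ 0)
    (hz : z ∈ Ideal.span {w : S | ∃ g h, w = d 0 g * d 1 h - d 0 h * d 1 g})
    (hprime : ∀ p : Ideal S, p.IsPrime →
      Ideal.span {w : S | ∃ g h, w = d 0 g * d 1 h - d 0 h * d 1 g} ≤ p → p = maximalIdeal S) :
    ¬ IsRegularLocalRing S := by
  classical
  intro hreg
  have hr : ((maximalIdeal S).spanFinrank : WithBot ℕ∞) = ringKrullDim S := hreg.spanFinrank_maximalIdeal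
  obtain ⟨s, hs, hspan⟩ := Submodule.FG.exists_span_finset_card_eq_spanFinrank
    (IsNoetherian.noetherian (maximalIdeal S))
  have hy : Ideal.span (Set.range (fun a : s => (a : S))) = maximalIdeal S := by
    have e : Set.range (fun a : s => (a : S)) = (s : Set S) := Subtype.range_coe
    rw [e]
    exact hspan
  have hJle : Ideal.span {w : S | ∃ g h, w = d 0 g * d 1 h - d 0 h * d 1 g}
      ≤ Ideal.span {z : S | ∃ a b : s, z = d 0 (a : S) * d 1 (b : S) - d 0 (b : S) * d 1 (a : S)} := by
    rw [Ideal.span_le]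
    rintro w ⟨g, h, rfl⟩
    exact lz_minor_mem hres d (fun a : s => (a : S)) hy g h
  have hcard : s.card ≤ 2 := by
    have h0 : ((s.card : ℕ) : WithBot ℕ∞) ≤ 2 := by
      rw [hs, hr]
      exact hdim
    exact_mod_cast h0
  rcases Nat.lt_or_ge s.card 2 with h1 | h2
  · have h1' := Finset.card_le_one.1 (Nat.lt_succ_iff.1 h1)
    have hbot : Ideal.span {z : S | ∃ a b : s, z = d 0 (a : S) * d 1 (b : S) - d 0 (b : S) * d 1 (a : S)}
        ≤ ⊥ := by
      rw [Ideal.span_le]
      rintro w ⟨a, b, rfl⟩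
      have e : (a : S) = b := h1' a a.2 b b.2
      rw [e, sub_self]
      exact Ideal.zero_mem _
    exact hz0 ((Ideal.mem_bot).1 (hbot (hJle hz)))
  · have h2' : s.card = 2 := le_antisymm hcard h2
    obtain ⟨x, y', hxy, rfl⟩ := Finset.card_eq_two.1 h2'
    have hle : Ideal.span {z : S | ∃ a b : ({x, y'} : Finset S),
        z = d 0 (a : S) * d 1 (b : S) - d 0 (b : S) * d 1 (a : S)}
        ≤ Ideal.span {d 0 x * d 1 y' - d 0 y' * d 1 x} := by
      rw [Ideal.span_le]
      rintro w ⟨⟨a, ha⟩, ⟨b, hb⟩, rfl⟩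
      simp only [Finset.mem_insert, Finset.mem_singleton] at ha hb
      rcases ha with rfl | rfl <;> rcases hb with rfl | rfl
      · rw [sub_self]
        exact Ideal.zero_mem _
      · exact Ideal.subset_span rfl
      · have e : d 0 a * d 1 b - d 0 b * d 1 a = -(d 0 b * d 1 a - d 0 a * d 1 b) := by ring
        show d 0 a * d 1 b - d 0 b * d 1 a ∈ _
        rw [e]
        exact neg_mem (Ideal.subset_span rfl)
      · rw [sub_self]
        exact Ideal.zero_mem _
    have hδ : d 0 x * d 1 y' - d 0 y' * d 1 x ∈ maximalIdeal S :=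
      sub_mem (Ideal.mul_mem_right _ _ (hd 0 x)) (Ideal.mul_mem_right _ _ (hd 0 y'))
    have hmin : maximalIdeal S ∈ (Ideal.span {d 0 x * d 1 y' - d 0 y' * d 1 x}).minimalPrimes := by
      refine ⟨⟨inferInstance, (Ideal.span_singleton_le_iff_mem _).2 hδ⟩, fun p hp _ => ?_⟩
      exact (hprime p hp.1 ((hJle.trans hle).trans hp.2)).ge
    have hht := Ideal.height_le_one_of_isPrincipal_of_mem_minimalPrimes
      (Ideal.span {d 0 x * d 1 y' - d 0 y' * d 1 x}) _ hmin
    have h3 : ringKrullDim S ≤ 1 := by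
      rw [← maximalIdeal_height_eq_ringKrullDim]
      exact_mod_cast hht
    rw [← hr, ← hs, h2'] at h3
    have h4 : (2 : ℕ) ≤ 1 := by exact_mod_cast h3
    omega

/-- a derivation extends to a localisation -/
theorem lz_exists_locDer {A : Type} [CommRing A] [Algebra ℂ A] (m : Ideal A) [m.IsPrime]
    (D : Derivation ℂ A A) :
    ∃ D' : Derivation ℂ (Localization.AtPrime m) (Localization.AtPrime m),
      ∀ a, D' (algebraMap A (Localization.AtPrime m) a) = algebraMap A (Localization.AtPrime m) (D a) := by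
  have : Algebra.FormallyEtale A (Localization.AtPrime m) :=
    Algebra.FormallyEtale.of_isLocalization (Rₘ := Localization.AtPrime m) m.primeCompl
  have hb := KaehlerDifferential.isBaseChange_of_formallyEtale ℂ A (Localization.AtPrime m)
  let g : Ω[A⁄ℂ] →ₗ[A] Localization.AtPrime m :=
    (Algebra.linearMap A (Localization.AtPrime m)) ∘ₗ D.liftKaehlerDifferential
  refine ⟨(hb.lift g).compDer (KaehlerDifferential.D ℂ (Localization.AtPrime m)), fun a => ?_⟩
  have h1 : KaehlerDifferential.D ℂ (Localization.AtPrime m) (algebraMap A (Localization.AtPrime m) a)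
      = KaehlerDifferential.map ℂ ℂ A (Localization.AtPrime m) (KaehlerDifferential.D ℂ A a) := by
    rw [KaehlerDifferential.map_D]
  have h2 : ((hb.lift g).compDer (KaehlerDifferential.D ℂ (Localization.AtPrime m)))
      (algebraMap A (Localization.AtPrime m) a)
      = hb.lift g (KaehlerDifferential.D ℂ (Localization.AtPrime m)
          (algebraMap A (Localization.AtPrime m) a)) := rfl
  rw [h2, h1, hb.lift_eq]
  simp [g]

/-- if `D A ⊆ m` then the extension has values in the maximal ideal: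
`x = a / u`, `u * D' x = D a - D u * x`. -/
theorem lz_locDer_mem {A : Type} [CommRing A] [Algebra ℂ A] (m : Ideal A) [m.IsPrime]
    (D : Derivation ℂ A A) (hD : ∀ a, D a ∈ m)
    (D' : Derivation ℂ (Localization.AtPrime m) (Localization.AtPrime m))
    (h : ∀ a, D' (algebraMap A (Localization.AtPrime m) a) = algebraMap A (Localization.AtPrime m) (D a))
    (x : Localization.AtPrime m) : D' x ∈ maximalIdeal (Localization.AtPrime m) := by
  obtain ⟨⟨a, u⟩, hx⟩ := IsLocalization.surj m.primeCompl x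
  simp only at hx
  have hmem : ∀ a : A, a ∈ m →
      algebraMap A (Localization.AtPrime m) a ∈ maximalIdeal (Localization.AtPrime m) := by
    intro a ha
    exact (IsLocalization.AtPrime.to_map_mem_maximal_iff (Localization.AtPrime m) m a).mpr ha
  have hu : IsUnit (algebraMap A (Localization.AtPrime m) (u : A)) := IsLocalization.map_units _ u
  have h2 := congrArg D' hx
  rw [Derivation.leibniz, h, h] at h2
  simp only [smul_eq_mul] at h2
  have h3 : algebraMap A (Localization.AtPrime m) (u : A) * D' x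
      ∈ maximalIdeal (Localization.AtPrime m) := by
    have : algebraMap A (Localization.AtPrime m) (u : A) * D' x
        = algebraMap A (Localization.AtPrime m) (D a)
          - x * algebraMap A (Localization.AtPrime m) (D (u : A)) := by
      rw [← h2]; ring
    rw [this]
    exact Ideal.sub_mem _ (hmem _ (hD a)) (Ideal.mul_mem_left _ _ (hmem _ (hD _)))
  exact (Ideal.unit_mul_mem_iff_mem _ hu).mp h3

end Claimed.Agent.R246
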