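import Claimed.Agent.R246.Max
import Claimed.Agent.R246.Dim
import Claimed.Agent.R246.NRAbs

/-! Row 246: the stable point of the witness is not regular. -/

set_option autoImplicit false

namespace Claimed.Agent.R246

open MvPolynomial

variable {L : Type} [Field L] [Algebra ℂ L] [Algebra P2 L] [IsScalarTower ℂ P2 L]

/-- a prime of `lzA L` containing `X 0, X 1` is maximal (integral over `P2`, lies over the maximal ideal `(X 0, X 1)`) -/
theorem lz_isMaximal_of_X_mem (p : Ideal (lzA L)) [p.IsPrime]
    (hX : ∀ j : Fin 2, algebraMap P2 (lzA L) (X j) ∈ p) : p.IsMaximal := by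
  have hker : (RingHom.ker (constantCoeff : P2 →+* ℂ)).IsMaximal :=
    RingHom.ker_isMaximal_of_surjective _ (fun r => ⟨C r, by simp⟩)
  have hle : RingHom.ker (constantCoeff : P2 →+* ℂ) ≤ p.comap (algebraMap P2 (lzA L)) := by
    intro f hf
    have h1 : f ∈ Ideal.span (X '' (Set.univ : Set (Fin 2)) : Set P2) := by
      rw [mem_ideal_span_X_image]
      intro m hm
      by_contra hcon
      push Not at hcon
      have hm0 : m = 0 := by
        ext i
        simpa using hcon i (Set.mem_univ i)
      rw [hm0, mem_support_iff] at hm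
      exact hm hf
    have h2 : Ideal.span (X '' (Set.univ : Set (Fin 2)) : Set P2) ≤ p.comap (algebraMap P2 (lzA L)) := by
      rw [Ideal.span_le]
      rintro _ ⟨j, -, rfl⟩
      exact hX j
    exact h2 h1
  have hq : (p.comap (algebraMap P2 (lzA L))).IsPrime := Ideal.comap_isPrime _ _
  have heq : RingHom.ker (constantCoeff : P2 →+* ℂ) = p.comap (algebraMap P2 (lzA L)) :=
    hker.eq_of_le hq.ne_top hle
  have hmax : (p.comap (algebraMap P2 (lzA L))).IsMaximal := heq ▸ hker
  exact Ideal.isMaximal_of_isIntegral_of_isMaximal_comap p hmax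

/-- `X j ^ N` is in the ideal of `lzA L` generated by the minors of `lzDer c 0, lzDer c 1` (from `c.minors`, `lz_le`) -/
theorem lz_X_pow_mem (c : LZCert L) (j : Fin 2) :
    algebraMap P2 (lzA L) (X j) ^ c.N ∈ Ideal.span {w : lzA L | ∃ g h,
      w = lzDer c 0 g * lzDer c 1 h - lzDer c 0 h * lzDer c 1 g} := by
  have key : ∀ x ∈ Submodule.span c.A' {x : L | ∃ g ∈ c.A', ∃ h ∈ c.A', x = lzMinor c.D g h},
      ∃ w ∈ Ideal.span {w : lzA L | ∃ g h,
        w = lzDer c 0 g * lzDer c 1 h - lzDer c 0 h * lzDer c 1 g}, (w : L) = x := by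
    intro x hx
    induction hx using Submodule.span_induction with
    | mem x hx =>
      obtain ⟨g, hg, h, hh, rfl⟩ := hx
      refine ⟨_, Ideal.subset_span ⟨⟨g, lz_le c hg⟩, ⟨h, lz_le c hh⟩, rfl⟩, ?_⟩
      simp [lzMinor]
    | zero => exact ⟨0, Ideal.zero_mem _, rfl⟩
    | add x y _ _ hx hy =>
      obtain ⟨w, hw, rfl⟩ := hx
      obtain ⟨v, hv, rfl⟩ := hy
      exact ⟨w + v, Ideal.add_mem _ hw hv, rfl⟩
    | smul a x _ hx =>
      obtain ⟨w, hw, rfl⟩ := hx
      exact ⟨⟨a, lz_le c a.2⟩ * w, Ideal.mul_mem_left _ _ hw, rfl⟩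
  obtain ⟨w, hw, hwx⟩ := key _ (c.minors j)
  have : algebraMap P2 (lzA L) (X j) ^ c.N = w := by
    apply Subtype.ext
    rw [hwx]
    rfl
  rw [this]
  exact hw

/-- residue field of the localisation -/
theorem lz_loc_res (c : LZCert L) (m : Ideal (lzA L)) [m.IsMaximal] (x : Localization.AtPrime m) :
    ∃ r : ℂ, x - algebraMap ℂ (Localization.AtPrime m) r ∈
      IsLocalRing.maximalIdeal (Localization.AtPrime m) := by
  have hft : Algebra.FiniteType ℂ (lzA L) := lz_finiteType c
  obtain ⟨⟨a, u⟩, hau⟩ := IsLocalization.surj m.primeCompl x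
  obtain ⟨ra, hra⟩ := lz_residue m a
  obtain ⟨ru, hru⟩ := lz_residue m (u : lzA L)
  have hru0 : ru ≠ 0 := by
    rintro rfl
    rw [map_zero, sub_zero] at hru
    exact u.2 hru
  refine ⟨ra / ru, ?_⟩
  have hunit : IsUnit (algebraMap (lzA L) (Localization.AtPrime m) (u : lzA L)) :=
    IsLocalization.map_units _ u
  rw [← Ideal.mul_unit_mem_iff_mem _ hunit]
  have h1 : (x - algebraMap ℂ (Localization.AtPrime m) (ra / ru)) *
      algebraMap (lzA L) (Localization.AtPrime m) (u : lzA L)
      = algebraMap (lzA L) (Localization.AtPrime m)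
        (a - algebraMap ℂ (lzA L) (ra / ru) * (u : lzA L)) := by
    have hsc : algebraMap ℂ (Localization.AtPrime m) (ra / ru)
        = algebraMap (lzA L) (Localization.AtPrime m) (algebraMap ℂ (lzA L) (ra / ru)) :=
      IsScalarTower.algebraMap_apply ℂ (lzA L) (Localization.AtPrime m) _
    have hau' : x * algebraMap (lzA L) (Localization.AtPrime m) (u : lzA L)
        = algebraMap (lzA L) (Localization.AtPrime m) a := hau
    rw [map_sub, map_mul, ← hsc, ← hau']
    ring
  rw [h1, IsLocalization.AtPrime.to_map_mem_maximal_iff _ m]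
  have h2 : a - algebraMap ℂ (lzA L) (ra / ru) * (u : lzA L)
      = (a - algebraMap ℂ (lzA L) ra)
        - algebraMap ℂ (lzA L) (ra / ru) * ((u : lzA L) - algebraMap ℂ (lzA L) ru) := by
    have h3 : algebraMap ℂ (lzA L) (ra / ru) * algebraMap ℂ (lzA L) ru = algebraMap ℂ (lzA L) ra := by
      rw [← map_mul, div_mul_cancel₀ _ hru0]
    rw [mul_sub, h3]
    ring
  rw [h2]
  exact Ideal.sub_mem _ hra (Ideal.mul_mem_left _ _ hru)

/-- a prime of the localisation containing the images of `X 0, X 1` is the maximal ideal -/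
theorem lz_loc_prime (m : Ideal (lzA L)) [m.IsMaximal] (p : Ideal (Localization.AtPrime m))
    (hp : p.IsPrime) (hXp : ∀ j : Fin 2,
      algebraMap (lzA L) (Localization.AtPrime m) (algebraMap P2 (lzA L) (X j)) ∈ p) :
    p = IsLocalRing.maximalIdeal (Localization.AtPrime m) := by
  have hPprime : (p.comap (algebraMap (lzA L) (Localization.AtPrime m))).IsPrime :=
    Ideal.comap_isPrime _ _
  have hPmax : (p.comap (algebraMap (lzA L) (Localization.AtPrime m))).IsMaximal :=
    lz_isMaximal_of_X_mem _ (fun j => Ideal.mem_comap.2 (hXp j))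
  have hPle : p.comap (algebraMap (lzA L) (Localization.AtPrime m)) ≤ m := by
    intro a ha
    have h1 : algebraMap (lzA L) (Localization.AtPrime m) a ∈
        IsLocalRing.maximalIdeal (Localization.AtPrime m) :=
      IsLocalRing.le_maximalIdeal hp.ne_top (Ideal.mem_comap.1 ha)
    rwa [IsLocalization.AtPrime.to_map_mem_maximal_iff _ m] at h1
  have hPeq : p.comap (algebraMap (lzA L) (Localization.AtPrime m)) = m :=
    hPmax.eq_of_le Ideal.IsPrime.ne_top' hPle
  have h3 : (p.comap (algebraMap (lzA L) (Localization.AtPrime m))).map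
      (algebraMap (lzA L) (Localization.AtPrime m)) = p :=
    IsLocalization.map_comap m.primeCompl (Localization.AtPrime m) p
  rw [← h3, hPeq]
  exact IsLocalization.AtPrime.map_eq_maximalIdeal m (Localization.AtPrime m)

/-- Apply `lz_not_regular_abs` to `S = Localization.AtPrime m` with the derivations of `lz_exists_locDer`:
`hres` from `lz_residue` (+ units), `hd` from `lz_locDer_mem`, `hdim` from `lz_dim`
(`IsLocalization.AtPrime.ringKrullDim_eq_height`, `Ideal.height_le_ringKrullDim`), `z` = image of `X 0 ^ N`,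
`hprime`: `p` contains the images of `X j ^ N`, so its contraction is a prime `≤ m` containing `X 0, X 1`,
hence maximal, hence `= m`. -/
theorem lz_not_regular (c : LZCert L) (m : Ideal (lzA L)) [m.IsMaximal]
    (hX : ∀ j : Fin 2, algebraMap P2 (lzA L) (X j) ∈ m) (hD : ∀ i a, lzDer c i a ∈ m) :
    ¬ IsRegularLocalRing (Localization.AtPrime m) := by
  have hft : Algebra.FiniteType ℂ (lzA L) := lz_finiteType c
  have hnoeA : IsNoetherianRing (lzA L) := Algebra.FiniteType.isNoetherianRing ℂ (lzA L)
  have hnoe : IsNoetherianRing (Localization.AtPrime m) :=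
    IsLocalization.isNoetherianRing m.primeCompl (Localization.AtPrime m) hnoeA
  have hfinj : Function.Injective (algebraMap (lzA L) (Localization.AtPrime m)) :=
    IsLocalization.injective (Localization.AtPrime m) m.primeCompl_le_nonZeroDivisors
  -- the derivations
  choose d hdspec using fun i : Fin 2 => lz_exists_locDer m (lzDer c i)
  have hd : ∀ i x, d i x ∈ IsLocalRing.maximalIdeal (Localization.AtPrime m) := fun i x =>
    lz_locDer_mem m (lzDer c i) (hD i) (d i) (hdspec i) x
  -- dimension
  have hdim : ringKrullDim (Localization.AtPrime m) ≤ 2 := by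
    rw [IsLocalization.AtPrime.ringKrullDim_eq_height m (Localization.AtPrime m), ← lz_dim c.inj]
    exact Ideal.height_le_ringKrullDim_of_ne_top Ideal.IsPrime.ne_top'
  -- images of the minor certificate
  have hmem : ∀ j : Fin 2, algebraMap (lzA L) (Localization.AtPrime m)
      (algebraMap P2 (lzA L) (X j) ^ c.N) ∈ Ideal.span {w : Localization.AtPrime m | ∃ g h,
        w = d 0 g * d 1 h - d 0 h * d 1 g} := by
    intro j
    have h1 := Ideal.mem_map_of_mem (algebraMap (lzA L) (Localization.AtPrime m)) (lz_X_pow_mem c j)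
    rw [Ideal.map_span] at h1
    refine Ideal.span_mono ?_ h1
    rintro _ ⟨w, ⟨g, h, rfl⟩, rfl⟩
    refine ⟨algebraMap _ _ g, algebraMap _ _ h, ?_⟩
    rw [hdspec, hdspec, hdspec, hdspec, map_sub, map_mul, map_mul]
  have hz0 : algebraMap (lzA L) (Localization.AtPrime m) (algebraMap P2 (lzA L) (X 0) ^ c.N) ≠ 0 := by
    rw [Ne, map_eq_zero_iff _ hfinj]
    apply pow_ne_zero
    intro h0
    have h1 : algebraMap P2 L (X 0) = 0 := congrArg Subtype.val h0
    rw [map_eq_zero_iff _ c.inj] at h1
    exact X_ne_zero 0 h1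
  refine lz_not_regular_abs (lz_loc_res c m) d hd hdim _ hz0 (hmem 0) ?_
  intro p hp hJ
  refine lz_loc_prime m p hp (fun j => ?_)
  have h1 := hJ (hmem j)
  rw [map_pow] at h1
  exact hp.mem_of_pow_mem _ h1

end Claimed.Agent.R246
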