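import Claimed.Agent.R246.Span
import Claimed.Agent.R246.NonReg

/-! Row 246: certificate ⇒ frozen statement S0485. -/

set_option autoImplicit false

namespace Claimed.Agent.R246

open MvPolynomial

variable {L : Type} [Field L] [Algebra ℂ L] [Algebra P2 L] [IsScalarTower ℂ P2 L]

theorem result_of_cert (c : LZCert L) :
    ∃ (A : Type) (_ : CommRing A) (_ : IsDomain A) (_ : Algebra ℂ A),
      Algebra.FiniteType ℂ A ∧ IsIntegrallyClosed A ∧ ringKrullDim A = 2 ∧
      Nonempty (Derivation ℂ A A ≃ₗ[A] (Fin 2 → A)) ∧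
      ∃ (m : Ideal A) (_ : m.IsMaximal), ¬ IsRegularLocalRing (Localization.AtPrime m) := by
  obtain ⟨m, hm, hX, hD⟩ := lz_exists_max c
  exact ⟨lzA L, inferInstance, inferInstance, inferInstance, lz_finiteType c,
    lz_isIntegrallyClosed c, lz_dim c.inj, lz_der_equiv c, m, hm, lz_not_regular c m hX hD⟩

end Claimed.Agent.R246
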