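import Claimed.Agent.R246.Der

/-! Row 246: a maximal ideal of the witness that is stable under both derivations. -/

set_option autoImplicit false

namespace Claimed.Agent.R246

open MvPolynomial

variable {L : Type} [Field L] [Algebra ℂ L] [Algebra P2 L] [IsScalarTower ℂ P2 L]

/-- Nullstellensatz: residue fields of a finite type `ℂ`-algebra are `ℂ`
(`finite_of_finite_type_of_isJacobsonRing`, `IsAlgClosed.algebraMap_surjective_of_isIntegral`). -/
theorem lz_residue {A : Type} [CommRing A] [Algebra ℂ A] [Algebra.FiniteType ℂ A]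
    (m : Ideal A) [m.IsMaximal] (a : A) : ∃ r : ℂ, a - algebraMap ℂ A r ∈ m := by
  letI : Field (A ⧸ m) := Ideal.Quotient.field m
  have h1 : Algebra.FiniteType ℂ (A ⧸ m) :=
    Algebra.FiniteType.of_surjective (Ideal.Quotient.mkₐ ℂ m) (Ideal.Quotient.mkₐ_surjective ℂ m)
  have h2 : Module.Finite ℂ (A ⧸ m) := finite_of_finite_type_of_isJacobsonRing ℂ (A ⧸ m)
  have h3 : Algebra.IsIntegral ℂ (A ⧸ m) := inferInstance
  obtain ⟨r, hr⟩ := (IsAlgClosed.algebraMap_bijective_of_isIntegral (k := ℂ) (K := A ⧸ m)).2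
    (Ideal.Quotient.mk m a)
  refine ⟨r, ?_⟩
  rw [← Ideal.Quotient.eq]
  rw [← hr]
  rfl

/-- Abstract core. `A' → A` integral, `m'` maximal in `A'`, `m` a maximal ideal of `A` over `m'`,
`D` a derivation of `A` (a `ℚ`-algebra) mapping the image of `A'` into `m' A`.  Then `D m ⊆ m`.
Proof. `I = m' A` is `D`-stable. `q = {y | ∃ u ∉ m, u * y ∈ I}` is a `D`-stable ideal inside `m`
(`u^2 * D y ∈ I`). Every `a ∈ m` has a power in `q`: otherwise there is a prime `p ⊇ I` disjoint from the
multiplicative set `{u * a^n | u ∉ m}` (`Ideal.exists_le_prime_disjoint`), so `p ≤ m`, `a ∉ p`; but `p` lies over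
`m'`, so it is maximal (`Ideal.isMaximal_of_isIntegral_of_isMaximal_comap`), `p = m`, contradiction.
Take `n` minimal with `a^n ∈ q` (`n ≥ 1`): `n a^(n-1) D a ∈ q`; if `D a ∉ m` then `a^(n-1) ∈ q`. -/
theorem lz_stable_of_liesOver {A' A : Type} [CommRing A'] [CommRing A] [Algebra A' A] [Algebra ℂ A]
    [Algebra.IsIntegral A' A] (m' : Ideal A') [m'.IsMaximal] (m : Ideal A) [m.IsMaximal]
    (hm : m.comap (algebraMap A' A) = m') (D : Derivation ℂ A A)
    (hD : ∀ x : A', D (algebraMap A' A x) ∈ m'.map (algebraMap A' A)) (a : A) (ha : a ∈ m) :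
    D a ∈ m := by
  classical
  have hmp : m.IsPrime := Ideal.IsMaximal.isPrime inferInstance
  set I : Ideal A := m'.map (algebraMap A' A) with hI
  have hIm : I ≤ m := by
    rw [hI, Ideal.map_le_iff_le_comap, hm]
  -- `I` is `D`-stable
  have hDI : ∀ y ∈ I, D y ∈ I := by
    intro y hy
    rw [hI, Ideal.map] at hy
    refine Submodule.span_induction (p := fun y _ => D y ∈ I) ?_ ?_ ?_ ?_ hy
    · rintro _ ⟨x, -, rfl⟩
      exact hD x
    · simp
    · intro x y _ _ hx hy
      rw [map_add]
      exact I.add_mem hx hy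
    · intro r x hx hx'
      rw [smul_eq_mul, Derivation.leibniz]
      refine I.add_mem (I.mul_mem_left _ hx') ?_
      rw [smul_eq_mul]
      refine I.mul_mem_right _ ?_
      rw [hI, Ideal.map]
      exact hx
  -- the set `q`
  let q : A → Prop := fun y => ∃ u, u ∉ m ∧ u * y ∈ I
  have hqm : ∀ y, q y → y ∈ m := by
    rintro y ⟨u, hu, huy⟩
    exact (hmp.mem_or_mem (hIm huy)).resolve_left hu
  have hqD : ∀ y, q y → q (D y) := by
    rintro y ⟨u, hu, huy⟩
    refine ⟨u * u, fun h => hu ((hmp.mem_or_mem h).elim id id), ?_⟩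
    have h1 := hDI _ huy
    rw [Derivation.leibniz, smul_eq_mul, smul_eq_mul] at h1
    have h2 : u * u * D y = u * (u * D y + y * D u) - (u * y) * D u := by ring
    rw [h2]
    exact I.sub_mem (I.mul_mem_left _ h1) (I.mul_mem_right _ huy)
  -- some power of `a` is in `q`
  have hpow : ∃ n : ℕ, q (a ^ n) := by
    by_contra hcon
    push_neg at hcon
    let T : Submonoid A :=
      { carrier := {t | ∃ u, u ∉ m ∧ ∃ n : ℕ, t = u * a ^ n}
        one_mem' := ⟨1, fun h => hmp.ne_top ((Ideal.eq_top_iff_one _).2 h), 0, by simp⟩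
        mul_mem' := by
          rintro _ _ ⟨u, hu, n, rfl⟩ ⟨v, hv, k, rfl⟩
          exact ⟨u * v, fun h => (hmp.mem_or_mem h).elim hu hv, n + k, by ring⟩ }
    have hdisj : Disjoint (I : Set A) T := by
      rw [Set.disjoint_left]
      rintro _ ht ⟨u, hu, n, rfl⟩
      exact hcon n ⟨u, hu, ht⟩
    obtain ⟨p, hp, hIp, hpT⟩ := Ideal.exists_le_prime_disjoint I T hdisj
    rw [Set.disjoint_left] at hpT
    have hpm : p ≤ m := by
      intro u hu
      by_contra hum
      exact hpT hu ⟨u, hum, 0, by simp⟩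
    have hap : a ∉ p := fun h =>
      hpT h ⟨1, fun h => hmp.ne_top ((Ideal.eq_top_iff_one _).2 h), 1, by simp⟩
    have hcomap : p.comap (algebraMap A' A) = m' := by
      have h1 : m' ≤ p.comap (algebraMap A' A) := by
        rw [← Ideal.map_le_iff_le_comap]
        exact hIp
      have h2 : p.comap (algebraMap A' A) ≠ ⊤ := (Ideal.comap_isPrime (algebraMap A' A) p).ne_top
      exact ((Ideal.IsMaximal.eq_of_le inferInstance h2 h1)).symm
    have hpmax : p.IsMaximal :=
      Ideal.isMaximal_of_isIntegral_of_isMaximal_comap (R := A') p (by rw [hcomap]; infer_instance)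
    have : p = m := hpmax.eq_of_le hmp.ne_top hpm
    exact hap (this ▸ ha)
  by_contra hDa
  have hn := Nat.find_spec hpow
  have hmin := fun k => Nat.find_min hpow (m := k)
  set n := Nat.find hpow with hndef
  have hn0 : n ≠ 0 := by
    intro h0
    rw [h0, pow_zero] at hn
    exact hmp.ne_top ((Ideal.eq_top_iff_one _).2 (hqm _ hn))
  obtain ⟨k, hk⟩ := Nat.exists_eq_succ_of_ne_zero hn0
  have h1 := hqD _ hn
  rw [Derivation.leibniz_pow, hk] at h1
  obtain ⟨u, hu, hu'⟩ := h1
  refine hmin k (by omega) ⟨u * (algebraMap ℂ A ((k + 1 : ℕ) : ℂ)) * D a, ?_, ?_⟩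
  · intro h
    rcases hmp.mem_or_mem h with h | h
    · rcases hmp.mem_or_mem h with h | h
      · exact hu h
      · have hunit : IsUnit (algebraMap ℂ A ((k + 1 : ℕ) : ℂ)) := by
          refine IsUnit.map _ ?_
          rw [isUnit_iff_ne_zero]
          exact_mod_cast Nat.succ_ne_zero k
        exact hmp.ne_top (Ideal.eq_top_of_isUnit_mem _ h hunit)
    · exact hDa h
  · have : u * (algebraMap ℂ A ((k + 1 : ℕ) : ℂ)) * D a * a ^ k
        = u * ((k + 1 : ℕ) • a ^ (k + 1 - 1) • D a) := by
      simp only [Nat.add_sub_cancel, smul_eq_mul, nsmul_eq_mul, map_natCast]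
      ring
    rw [this]
    exact hu'

/-- a ring homomorphism `P2 → ℂ` which kills the variables only sees the constant coefficient -/
theorem lz_hom_eq_const (ψ : P2 →+* ℂ) (h : ∀ j, ψ (X j) = 0) (p : P2) :
    ψ p = ψ (C (constantCoeff p)) := by
  induction p using MvPolynomial.induction_on with
  | C a => simp
  | add p q hp hq => rw [map_add, hp, hq, map_add, map_add, map_add]
  | mul_X p n _ => simp [h n]

/-- `ker c.ev` is a maximal ideal of `A'` -/
theorem lz_ker_ev_isMaximal (c : LZCert L) : (RingHom.ker c.ev).IsMaximal := by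
  have : Algebra.IsIntegral P2 c.A' :=
    ⟨fun x => (isIntegral_algHom_iff c.A'.val Subtype.val_injective).1 (lz_le c x.2)⟩
  have : (RingHom.ker c.ev).IsPrime := RingHom.ker_isPrime c.ev
  apply Ideal.isMaximal_of_isIntegral_of_isMaximal_comap (R := P2)
  have hk : (RingHom.ker c.ev).comap (algebraMap P2 c.A') = RingHom.ker (constantCoeff : P2 →+* ℂ) := by
    ext p
    rw [Ideal.mem_comap, RingHom.mem_ker, RingHom.mem_ker]
    have h1 := lz_hom_eq_const (c.ev.comp (algebraMap P2 c.A')) c.ev_X p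
    simp only [RingHom.comp_apply] at h1
    rw [h1]
    have hinj : Function.Injective ((c.ev.comp (algebraMap P2 c.A')).comp (C : ℂ →+* P2)) :=
      RingHom.injective _
    constructor
    · intro h2
      exact hinj (by simpa using h2)
    · intro h2
      rw [h2]
      simp
  rw [hk]
  exact RingHom.ker_isMaximal_of_surjective _ (fun r => ⟨C r, by simp⟩)

/-- `m' = ker c.ev` is prime and contains `X 0, X 1`, so it is maximal (it lies over the maximal ideal
`(X 0, X 1)` of `P2`, and `A'` is integral over `P2`).  Take `m` over `m'` (lying over for `A' ⊆ lzA L`,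
`Subalgebra.inclusion (lz_le c)`), apply `lz_stable_of_liesOver` and `lz_residue`
(`a = r + a₀`, `D a = D a₀`). -/
theorem lz_exists_max (c : LZCert L) : ∃ m : Ideal (lzA L), m.IsMaximal ∧
    (∀ j : Fin 2, algebraMap P2 (lzA L) (X j) ∈ m) ∧ ∀ i a, lzDer c i a ∈ m := by
  let _ : Algebra c.A' (lzA L) := (Subalgebra.inclusion (lz_le c)).toRingHom.toAlgebra
  have : IsScalarTower P2 c.A' (lzA L) := IsScalarTower.of_algebraMap_eq (fun p => by ext; rfl)
  have : Algebra.IsIntegral c.A' (lzA L) := ⟨fun a => by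
    have h1 : IsIntegral P2 a := (isIntegral_algHom_iff (lzA L).val Subtype.val_injective).1 a.2
    exact h1.tower_top⟩
  have := lz_ker_ev_isMaximal c
  have := lz_finiteType c
  obtain ⟨m, hm, hcomap⟩ := Ideal.exists_ideal_over_maximal_of_isIntegral (S := lzA L)
    (RingHom.ker c.ev) (by
      have h0 : RingHom.ker (algebraMap c.A' (lzA L)) = ⊥ :=
        (RingHom.injective_iff_ker_eq_bot _).1 (Subalgebra.inclusion_injective (lz_le c))
      rw [h0]
      exact bot_le)
  refine ⟨m, hm, fun j => ?_, fun i a => ?_⟩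
  · have h1 : algebraMap P2 c.A' (X j) ∈ RingHom.ker c.ev := c.ev_X j
    rw [← hcomap, Ideal.mem_comap] at h1
    rwa [← IsScalarTower.algebraMap_apply] at h1
  · obtain ⟨r, hr⟩ := lz_residue m a
    have hD : ∀ x : c.A', lzDer c i (algebraMap c.A' (lzA L) x) ∈
        (RingHom.ker c.ev).map (algebraMap c.A' (lzA L)) := by
      intro x
      have h2 : lzDer c i (algebraMap c.A' (lzA L) x)
          = algebraMap c.A' (lzA L) ⟨c.D i x, c.stable i x x.2⟩ := by
        ext
        rfl
      rw [h2]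
      exact Ideal.mem_map_of_mem _ (c.ev_D i x x.2)
    have h1 := lz_stable_of_liesOver (RingHom.ker c.ev) m hcomap (lzDer c i) hD _ hr
    rwa [map_sub, Derivation.map_algebraMap, sub_zero] at h1

end Claimed.Agent.R246
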