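import Claimed.Agent.R246.Defs

/-! Row 246: the depth-2 property of the integral closure of `ℂ[X₀,X₁]`. -/

set_option autoImplicit false

namespace Claimed.Agent.R246

open MvPolynomial

variable {L : Type} [Field L] [Algebra ℂ L] [Algebra P2 L] [IsScalarTower ℂ P2 L]

/-- `X 0 ^ n` and `X 1 ^ n` are relatively prime in `P2`. -/
theorem lz_isRelPrime_X_pow (n : ℕ) : IsRelPrime ((X 0 : P2) ^ n) ((X 1 : P2) ^ n) := by
  apply IsRelPrime.pow
  have h0 : Prime (X 0 : P2) := MvPolynomial.X_prime
  refine h0.irreducible.isRelPrime_iff_not_dvd.2 ?_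
  rw [MvPolynomial.X_dvd_X]
  decide

/-- In `P2`: if `b ∣ a * X 0 ^ n` and `b ∣ a * X 1 ^ n` then `b ∣ a`. -/
theorem lz_dvd_of_dvd_mul_X_pow (a b : P2) (n : ℕ) (h : ∀ j : Fin 2, b ∣ a * (X j : P2) ^ n) :
    b ∣ a := by
  classical
  let _ : GCDMonoid P2 := UniqueFactorizationMonoid.toGCDMonoid P2
  have h1 : b ∣ gcd (a * (X 0 : P2) ^ n) (a * (X 1 : P2) ^ n) := dvd_gcd (h 0) (h 1)
  have h2 : Associated (gcd (a * (X 0 : P2) ^ n) (a * (X 1 : P2) ^ n))
      (a * gcd ((X 0 : P2) ^ n) ((X 1 : P2) ^ n)) := gcd_mul_left' _ _ _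
  have h3 : IsUnit (gcd ((X 0 : P2) ^ n) ((X 1 : P2) ^ n)) :=
    gcd_isUnit_iff_isRelPrime.2 (lz_isRelPrime_X_pow n)
  have h4 : b ∣ a * gcd ((X 0 : P2) ^ n) ((X 1 : P2) ^ n) := h1.trans h2.dvd
  exact (h3.dvd_mul_right).1 h4

/-- `X 0 ^ n` and `X 1 ^ n` are coprime in the UFD `P2`. -/
theorem lz_coprime (e : FractionRing P2) (n : ℕ)
    (h : ∀ j : Fin 2, ∃ p : P2, algebraMap P2 (FractionRing P2) p
      = e * algebraMap P2 (FractionRing P2) (X j) ^ n) :
    ∃ p : P2, algebraMap P2 (FractionRing P2) p = e := by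
  obtain ⟨a, b, hb, rfl⟩ := IsFractionRing.div_surjective (A := P2) e
  have hb0 : algebraMap P2 (FractionRing P2) b ≠ 0 :=
    IsFractionRing.to_map_ne_zero_of_mem_nonZeroDivisors hb
  have hdvd : b ∣ a := by
    apply lz_dvd_of_dvd_mul_X_pow a b n
    intro j
    obtain ⟨p, hp⟩ := h j
    refine ⟨p, ?_⟩
    apply IsFractionRing.injective P2 (FractionRing P2)
    rw [map_mul, map_mul, map_pow, hp]
    field_simp
  obtain ⟨c, rfl⟩ := hdvd
  refine ⟨c, ?_⟩
  rw [map_mul]
  field_simp

/-- the minimal polynomial of `x * c` (`c ≠ 0` in the base field) is `scaleRoots`. -/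
theorem lz_minpoly_mul {K M : Type} [Field K] [Field M] [Algebra K M] (x : M) (hx : IsIntegral K x)
    (c : K) (hc : c ≠ 0) :
    minpoly K (x * algebraMap K M c) = (minpoly K x).scaleRoots c := by
  symm
  refine minpoly.unique K _ ?_ ?_ ?_
  · exact (Polynomial.monic_scaleRoots_iff c).2 (minpoly.monic hx)
  · have := Polynomial.scaleRoots_aeval_eq_zero (r := c) (minpoly.aeval K x)
    rwa [mul_comm] at this
  · intro q hq hq0
    rw [Polynomial.degree_scaleRoots]
    have h1 := Polynomial.scaleRoots_aeval_eq_zero (r := c⁻¹) hq0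
    have h2 : algebraMap K M c⁻¹ * (x * algebraMap K M c) = x := by
      have hc' : algebraMap K M c ≠ 0 := by
        simpa using (map_ne_zero (algebraMap K M)).2 hc
      rw [map_inv₀]
      field_simp
    rw [h2] at h1
    have h3 := minpoly.min K x ((Polynomial.monic_scaleRoots_iff c⁻¹).2 hq) h1
    rwa [Polynomial.degree_scaleRoots] at h3

/-- If `x * X j ^ N` is integral over `P2` for `j = 0, 1`, then so is `x`.
Proof: `K = FractionRing P2`, `Algebra K L` by `FractionRing.liftAlgebra`. `x` is algebraic over `K`;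
`p = minpoly K x = ∑ e_i T^(n-i)`. `minpoly K (x * s^N)` has coefficients `e_i s^(N i)` (scaleRoots) and they are
in `P2` (`minpoly.isIntegrallyClosed_eq_field_fractions`). By `lz_coprime` all `e_i ∈ P2`, so `x` is a
root of a monic polynomial over `P2`. -/
theorem lz_S2 (hinj : Function.Injective (algebraMap P2 L)) (x : L) (N : ℕ)
    (h : ∀ j : Fin 2, x * algebraMap P2 L (X j) ^ N ∈ lzA L) : x ∈ lzA L := by
  classical
  haveI : FaithfulSMul P2 L := (faithfulSMul_iff_algebraMap_injective P2 L).2 hinj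
  letI : Algebra (FractionRing P2) L := FractionRing.liftAlgebra P2 L
  haveI : IsScalarTower P2 (FractionRing P2) L := FractionRing.isScalarTower_liftAlgebra P2 L
  -- the scalars
  set c : Fin 2 → FractionRing P2 := fun j => algebraMap P2 (FractionRing P2) (X j) ^ N with hcdef
  have hc : ∀ j, c j ≠ 0 := by
    intro j
    refine pow_ne_zero _ ?_
    have : (X j : P2) ≠ 0 := MvPolynomial.X_ne_zero j
    simpa using (map_ne_zero_iff _ (IsFractionRing.injective P2 (FractionRing P2))).2 this
  have hcL : ∀ j, algebraMap (FractionRing P2) L (c j) = algebraMap P2 L (X j) ^ N := by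
    intro j
    rw [hcdef]
    simp only [map_pow]
    rw [← IsScalarTower.algebraMap_apply]
  have hy : ∀ j, IsIntegral P2 (x * algebraMap (FractionRing P2) L (c j)) := by
    intro j
    rw [hcL]
    exact h j
  -- `x` is integral over `K`
  have hx : IsIntegral (FractionRing P2) x := by
    have h1 : IsIntegral (FractionRing P2) (x * algebraMap (FractionRing P2) L (c 0)) := (hy 0).tower_top
    have h2 : x = (x * algebraMap (FractionRing P2) L (c 0)) * algebraMap (FractionRing P2) L (c 0)⁻¹ := by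
      have hc' : algebraMap (FractionRing P2) L (c 0) ≠ 0 := by
        simpa using (map_ne_zero (algebraMap (FractionRing P2) L)).2 (hc 0)
      rw [map_inv₀]
      field_simp
    rw [h2]
    exact h1.mul isIntegral_algebraMap
  -- the coefficients
  have hcoef : ∀ i, (minpoly (FractionRing P2) x).coeff i ∈ Set.range (algebraMap P2 (FractionRing P2)) := by
    intro i
    obtain ⟨p, hp⟩ := lz_coprime ((minpoly (FractionRing P2) x).coeff i)
      (N * ((minpoly (FractionRing P2) x).natDegree - i)) (by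
        intro j
        have h1 := lz_minpoly_mul x hx (c j) (hc j)
        rw [minpoly.isIntegrallyClosed_eq_field_fractions' (FractionRing P2) (hy j)] at h1
        have h2 := congrArg (fun q => Polynomial.coeff q i) h1
        simp only [Polynomial.coeff_map, Polynomial.coeff_scaleRoots] at h2
        refine ⟨_, h2.trans ?_⟩
        rw [hcdef, ← pow_mul])
    exact ⟨p, hp⟩
  have hl : minpoly (FractionRing P2) x ∈ Polynomial.lifts (algebraMap P2 (FractionRing P2)) :=
    (Polynomial.lifts_iff_coeff_lifts _).2 hcoef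
  obtain ⟨q, hq, -, hqm⟩ := Polynomial.lifts_and_natDegree_eq_and_monic hl (minpoly.monic hx)
  refine ⟨q, hqm, ?_⟩
  have h3 := minpoly.aeval (FractionRing P2) x
  rw [← hq, Polynomial.aeval_map_algebraMap] at h3
  simpa [Polynomial.aeval_def] using h3

end Claimed.Agent.R246
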