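import Claimed.Agent.R246.Defs

/-! Row 246: a derivation that kills `X 0, X 1` kills everything algebraic over `P2`. -/

set_option autoImplicit false

namespace Claimed.Agent.R246

open MvPolynomial

variable {L : Type} [Field L] [Algebra ℂ L] [Algebra P2 L] [IsScalarTower ℂ P2 L]

/-- a `ℂ`-derivation killing the two variables kills `P2` (`MvPolynomial.induction_on`) -/
theorem lz_der_P2 {B : Type} [CommRing B] [Algebra ℂ B] [Algebra P2 B] [IsScalarTower ℂ P2 B]
    [Algebra B L] [IsScalarTower ℂ B L]
    (E : Derivation ℂ B L) (h : ∀ j : Fin 2, E (algebraMap P2 B (X j)) = 0) (p : P2) :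
    E (algebraMap P2 B p) = 0 := by
  induction p using MvPolynomial.induction_on with
  | C a =>
    have e : algebraMap P2 B (C a) = algebraMap ℂ B a := by
      rw [IsScalarTower.algebraMap_apply ℂ P2 B a]
      rfl
    rw [e, Derivation.map_algebraMap]
  | add p q hp hq => rw [map_add, map_add, hp, hq, add_zero]
  | mul_X p j hp => rw [map_mul, Derivation.leibniz, hp, h j, smul_zero, smul_zero, add_zero]

/-- a `ℂ`-derivation killing `P2` is a `P2`-derivation -/
noncomputable def lzDerP2 {B : Type} [CommRing B] [Algebra ℂ B] [Algebra P2 B]
    [IsScalarTower ℂ P2 B] [Algebra B L] [IsScalarTower ℂ B L] [IsScalarTower P2 B L]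
    (E : Derivation ℂ B L) (h : ∀ p : P2, E (algebraMap P2 B p) = 0) : Derivation P2 B L where
  toFun := E
  map_add' := fun x y => map_add E x y
  map_smul' := fun p x => by
    show E (p • x) = p • E x
    rw [Algebra.smul_def, Derivation.leibniz, h p, smul_zero, add_zero, algebraMap_smul]
  map_one_eq_zero' := E.map_one_eq_zero
  leibniz' := fun x y => E.leibniz x y

/-- Take `q : Polynomial P2`, `q ≠ 0`, of minimal degree with `aeval b q = 0`; then
`aeval b (derivative q) ≠ 0` (char 0) and `0 = E (aeval b q) = aeval b (derivative q) • E b`
because `E` kills the coefficients (`Polynomial.induction_on` / `Derivation.leibniz_pow`). -/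
theorem lz_der_zero_of_isAlgebraic {B : Type} [CommRing B] [Algebra ℂ B] [Algebra P2 B]
    [IsScalarTower ℂ P2 B] [Algebra B L] [IsScalarTower ℂ B L] [IsScalarTower P2 B L]
    (hB : Function.Injective (algebraMap B L)) (hinj : Function.Injective (algebraMap P2 L))
    (E : Derivation ℂ B L) (h : ∀ j : Fin 2, E (algebraMap P2 B (X j)) = 0)
    (b : B) (hb : IsAlgebraic P2 b) : E b = 0 := by
  have key : ∀ n : ℕ, ∀ q : Polynomial P2, q.natDegree = n → q ≠ 0 → Polynomial.aeval b q = 0 → E b = 0 := by
    intro n
    induction n using Nat.strong_induction_on with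
    | _ n ih =>
      intro q hqn hq0 hq
      have h1 : lzDerP2 E (lz_der_P2 E h) (Polynomial.aeval b q)
          = Polynomial.aeval b (Polynomial.derivative q) • lzDerP2 E (lz_der_P2 E h) b :=
        Derivation.map_aeval _ q b
      rw [hq, map_zero] at h1
      have h2 : algebraMap B L (Polynomial.aeval b (Polynomial.derivative q)) * E b = 0 := by
        rw [← Algebra.smul_def]
        exact h1.symm
      rcases mul_eq_zero.1 h2 with h3 | h3
      · have h4 : Polynomial.aeval b (Polynomial.derivative q) = 0 := by
          apply hB
          rw [h3, map_zero]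
        by_cases hd : Polynomial.derivative q = 0
        · exfalso
          have h5 := Polynomial.eq_C_of_derivative_eq_zero hd
          rw [h5, Polynomial.aeval_C] at hq
          have h6 : algebraMap P2 L (q.coeff 0) = 0 := by
            rw [IsScalarTower.algebraMap_apply P2 B L, hq, map_zero]
          have h7 : q.coeff 0 = 0 := by
            apply hinj
            rw [h6, map_zero]
          apply hq0
          rw [h5, h7, Polynomial.C_0]
        · have hn0 : q.natDegree ≠ 0 := by
            intro h0
            apply hd
            rw [Polynomial.eq_C_of_natDegree_eq_zero h0, Polynomial.derivative_C]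
          exact ih _ (hqn ▸ Polynomial.natDegree_derivative_lt hn0) _ rfl hd h4
      · exact h3
  obtain ⟨q, hq0, hq⟩ := hb
  exact key _ q rfl hq0 hq

end Claimed.Agent.R246
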