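import Claimed.Agent.R246.Der
import Claimed.Agent.R246.Zero
import Claimed.Agent.R246.S2

/-! Row 246: `Der_ℂ(A) = A D₀ ⊕ A D₁`. -/

set_option autoImplicit false

namespace Claimed.Agent.R246

open MvPolynomial

variable {L : Type} [Field L] [Algebra ℂ L] [Algebra P2 L] [IsScalarTower ℂ P2 L]

/-- a vanishing `2 × 2` determinant gives a nontrivial relation between the rows -/
theorem lz_exists_comb (c : LZCert L)
    (h0 : lzMinor c.D (algebraMap P2 L (X 0)) (algebraMap P2 L (X 1)) = 0) :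
    ∃ l : Fin 2 → L, (l 0 ≠ 0 ∨ l 1 ≠ 0) ∧
      ∀ j : Fin 2, l 0 * c.D 0 (algebraMap P2 L (X j)) + l 1 * c.D 1 (algebraMap P2 L (X j)) = 0 := by
  unfold lzMinor at h0
  by_cases h1 : c.D 1 (algebraMap P2 L (X 1)) = 0 ∧ c.D 0 (algebraMap P2 L (X 1)) = 0
  · obtain ⟨h11, h01⟩ := h1
    by_cases h2 : c.D 1 (algebraMap P2 L (X 0)) = 0 ∧ c.D 0 (algebraMap P2 L (X 0)) = 0
    · obtain ⟨h10, h00⟩ := h2
      refine ⟨![1, 0], Or.inl (by simp), fun j => ?_⟩
      fin_cases j
      · simp [h00]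
      · simp [h01]
    · refine ⟨![c.D 1 (algebraMap P2 L (X 0)), -c.D 0 (algebraMap P2 L (X 0))], ?_, fun j => ?_⟩
      · by_contra hc
        push Not at hc
        apply h2
        refine ⟨by simpa using hc.1, by simpa using hc.2⟩
      · fin_cases j
        · simp; ring
        · simp [h01, h11]
  · refine ⟨![c.D 1 (algebraMap P2 L (X 1)), -c.D 0 (algebraMap P2 L (X 1))], ?_, fun j => ?_⟩
    · by_contra hc
      push Not at hc
      apply h1
      refine ⟨by simpa using hc.1, by simpa using hc.2⟩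
    · fin_cases j
      · simp; linear_combination h0
      · simp; ring

/-- an `L`-combination of the `D i` killing `X 0, X 1` kills `L` -/
theorem lz_comb_zero (c : LZCert L) (l : Fin 2 → L)
    (hk : ∀ j : Fin 2, l 0 * c.D 0 (algebraMap P2 L (X j)) + l 1 * c.D 1 (algebraMap P2 L (X j)) = 0)
    (b : L) : l 0 * c.D 0 b + l 1 * c.D 1 b = 0 := by
  have h := lz_der_zero_of_isAlgebraic (L := L) (B := L) Function.injective_id c.inj
    (l 0 • c.D 0 + l 1 • c.D 1) (fun j => by simpa using hk j) b (lz_isAlgebraic c b)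
  simpa using h

/-- some minor is nonzero, hence (by `lz_der_zero_of_isAlgebraic` with `B = L`) the minor of `X 0, X 1` is:
if it vanished, a nontrivial `L`-combination `l₀ D 0 + l₁ D 1` would kill `X 0, X 1`, hence `L`, hence all minors
would vanish, contradicting `c.minors` (`X 0 ^ N ≠ 0`). -/
theorem lz_minor_ne_zero (c : LZCert L) :
    lzMinor c.D (algebraMap P2 L (X 0)) (algebraMap P2 L (X 1)) ≠ 0 := by
  intro h0
  obtain ⟨l, hl, hk⟩ := lz_exists_comb c h0
  have hall : ∀ b : L, l 0 * c.D 0 b + l 1 * c.D 1 b = 0 := lz_comb_zero c l hk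
  have hmin : ∀ g h : L, lzMinor c.D g h = 0 := by
    intro g h
    have hg := hall g
    have hh := hall h
    unfold lzMinor
    rcases hl with hl | hl
    · apply mul_left_cancel₀ hl
      linear_combination (c.D 1 h) * hg - (c.D 1 g) * hh
    · apply mul_left_cancel₀ hl
      linear_combination (c.D 0 g) * hh - (c.D 0 h) * hg
  have hspan : Submodule.span c.A' {x : L | ∃ g ∈ c.A', ∃ h ∈ c.A', x = lzMinor c.D g h} = ⊥ := by
    rw [Submodule.span_eq_bot]
    rintro x ⟨g, _, h, _, rfl⟩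
    exact hmin g h
  have h1 := c.minors 0
  rw [hspan, Submodule.mem_bot] at h1
  have h2 : algebraMap P2 L (X 0) = 0 := eq_zero_of_pow_eq_zero h1
  exact MvPolynomial.X_ne_zero (R := ℂ) (0 : Fin 2) (c.inj (h2.trans (map_zero _).symm))

/-- the difference of a derivation of `lzA L` and an `L`-combination of the `D i`, as a derivation into `L` -/
noncomputable def lzDiffDer (c : LZCert L) (E : Derivation ℂ (lzA L) (lzA L)) (l : Fin 2 → L) :
    Derivation ℂ (lzA L) L :=
  Derivation.mk'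
    { toFun := fun a => ((E a : lzA L) : L) - (l 0 * c.D 0 a + l 1 * c.D 1 a)
      map_add' := fun a b => by simp; ring
      map_smul' := fun r a => by simp [Algebra.smul_def]; ring }
    (fun a b => by simp [Algebra.smul_def]; ring)

/-- Cramer + `lz_der_zero_of_isAlgebraic` with `B = lzA L`. -/
theorem lz_der_span_L (c : LZCert L) (E : Derivation ℂ (lzA L) (lzA L)) :
    ∃ l : Fin 2 → L, ∀ a : lzA L, ((E a : lzA L) : L) = l 0 * c.D 0 a + l 1 * c.D 1 a := by
  have hΔ := lz_minor_ne_zero c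
  unfold lzMinor at hΔ
  set x0 : L := algebraMap P2 L (X 0) with hx0
  set x1 : L := algebraMap P2 L (X 1) with hx1
  set e0 : L := ((E (algebraMap P2 (lzA L) (X 0)) : lzA L) : L) with he0
  set e1 : L := ((E (algebraMap P2 (lzA L) (X 1)) : lzA L) : L) with he1
  set Δ : L := c.D 0 x0 * c.D 1 x1 - c.D 0 x1 * c.D 1 x0 with hΔd
  refine ⟨![(e0 * c.D 1 x1 - e1 * c.D 1 x0) / Δ, (c.D 0 x0 * e1 - c.D 0 x1 * e0) / Δ], fun a => ?_⟩
  have h := lz_der_zero_of_isAlgebraic (L := L) (B := lzA L) Subtype.val_injective c.inj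
    (lzDiffDer c E ![(e0 * c.D 1 x1 - e1 * c.D 1 x0) / Δ, (c.D 0 x0 * e1 - c.D 0 x1 * e0) / Δ])
    (fun j => ?_) a (Algebra.IsIntegral.isIntegral a).isAlgebraic
  · have h' : ((E a : lzA L) : L) - (((e0 * c.D 1 x1 - e1 * c.D 1 x0) / Δ) * c.D 0 a
        + ((c.D 0 x0 * e1 - c.D 0 x1 * e0) / Δ) * c.D 1 a) = 0 := h
    simpa [sub_eq_zero] using h'
  · fin_cases j
    · show e0 - (((e0 * c.D 1 x1 - e1 * c.D 1 x0) / Δ) * c.D 0 x0
        + ((c.D 0 x0 * e1 - c.D 0 x1 * e0) / Δ) * c.D 1 x0) = 0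
      field_simp
      rw [hΔd]; ring
    · show e1 - (((e0 * c.D 1 x1 - e1 * c.D 1 x0) / Δ) * c.D 0 x1
        + ((c.D 0 x0 * e1 - c.D 0 x1 * e0) / Δ) * c.D 1 x1) = 0
      field_simp
      rw [hΔd]; ring

/-- if `l 0 * D 0 + l 1 * D 1` maps `lzA L` into itself, then `l i * minor ∈ lzA L` for all minors of elements of
`lzA L`, so `l i * X j ^ N ∈ lzA L` by `c.minors`, so `l i ∈ lzA L` by `lz_S2`. -/
theorem lz_coeff_mem (c : LZCert L) (l : Fin 2 → L)
    (h : ∀ a ∈ lzA L, l 0 * c.D 0 a + l 1 * c.D 1 a ∈ lzA L) (i : Fin 2) : l i ∈ lzA L := by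
  -- `l i * minor ∈ lzA L`
  have hmin : ∀ g ∈ lzA L, ∀ k ∈ lzA L, l i * lzMinor c.D g k ∈ lzA L := by
    intro g hg k hk
    have hEg := h g hg
    have hEk := h k hk
    have h0g := lz_seidenberg c 0 g hg
    have h0k := lz_seidenberg c 0 k hk
    have h1g := lz_seidenberg c 1 g hg
    have h1k := lz_seidenberg c 1 k hk
    fin_cases i
    · have e : l 0 * lzMinor c.D g k
          = (l 0 * c.D 0 g + l 1 * c.D 1 g) * c.D 1 k - (l 0 * c.D 0 k + l 1 * c.D 1 k) * c.D 1 g := by
        unfold lzMinor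
        ring
      show l 0 * lzMinor c.D g k ∈ lzA L
      rw [e]
      exact Subalgebra.sub_mem _ (Subalgebra.mul_mem _ hEg h1k) (Subalgebra.mul_mem _ hEk h1g)
    · have e : l 1 * lzMinor c.D g k
          = c.D 0 g * (l 0 * c.D 0 k + l 1 * c.D 1 k) - c.D 0 k * (l 0 * c.D 0 g + l 1 * c.D 1 g) := by
        unfold lzMinor
        ring
      show l 1 * lzMinor c.D g k ∈ lzA L
      rw [e]
      exact Subalgebra.sub_mem _ (Subalgebra.mul_mem _ h0g hEk) (Subalgebra.mul_mem _ h0k hEg)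
  -- the span
  have hspan : ∀ x ∈ Submodule.span c.A' {x : L | ∃ g ∈ c.A', ∃ k ∈ c.A', x = lzMinor c.D g k},
      l i * x ∈ lzA L := by
    intro x hx
    induction hx using Submodule.span_induction with
    | mem x hx =>
      obtain ⟨g, hg, k, hk, rfl⟩ := hx
      exact hmin g (lz_le c hg) k (lz_le c hk)
    | zero => simp
    | add x y _ _ hx hy =>
      rw [mul_add]
      exact Subalgebra.add_mem _ hx hy
    | smul a x _ hx =>
      have e : l i * (a • x) = (a : L) * (l i * x) := by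
        rw [Subalgebra.smul_def, smul_eq_mul]
        ring
      rw [e]
      exact Subalgebra.mul_mem _ (lz_le c a.2) hx
  exact lz_S2 c.inj (l i) c.N (fun j => hspan _ (c.minors j))

theorem lz_der_span (c : LZCert L) (E : Derivation ℂ (lzA L) (lzA L)) :
    ∃ a : Fin 2 → lzA L, E = a 0 • lzDer c 0 + a 1 • lzDer c 1 := by
  obtain ⟨l, hl⟩ := lz_der_span_L c E
  have hmem : ∀ i, l i ∈ lzA L := lz_coeff_mem c l (fun a ha => by
    have := hl ⟨a, ha⟩
    rw [← this]
    exact (E ⟨a, ha⟩).2)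
  refine ⟨fun i => ⟨l i, hmem i⟩, ?_⟩
  ext a
  rw [hl a]
  simp

theorem lz_der_indep (c : LZCert L) (a : Fin 2 → lzA L)
    (h : a 0 • lzDer c 0 + a 1 • lzDer c 1 = 0) : a = 0 := by
  have hm := lz_minor_ne_zero c
  have hX : ∀ j : Fin 2, (a 0 : L) * c.D 0 (algebraMap P2 L (X j)) + (a 1 : L) * c.D 1 (algebraMap P2 L (X j)) = 0 := by
    intro j
    have h1 := congrArg (fun E : Derivation ℂ (lzA L) (lzA L) => ((E (algebraMap P2 (lzA L) (X j)) : lzA L) : L)) h
    simpa using h1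
  have h0 := hX 0
  have h1 := hX 1
  have e0 : (a 0 : L) * lzMinor c.D (algebraMap P2 L (X 0)) (algebraMap P2 L (X 1)) = 0 := by
    unfold lzMinor
    linear_combination (c.D 1 (algebraMap P2 L (X 1))) * h0 - (c.D 1 (algebraMap P2 L (X 0))) * h1
  have e1 : (a 1 : L) * lzMinor c.D (algebraMap P2 L (X 0)) (algebraMap P2 L (X 1)) = 0 := by
    unfold lzMinor
    linear_combination (c.D 0 (algebraMap P2 L (X 0))) * h1 - (c.D 0 (algebraMap P2 L (X 1))) * h0
  have z0 : (a 0 : L) = 0 := (mul_eq_zero.1 e0).resolve_right hm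
  have z1 : (a 1 : L) = 0 := (mul_eq_zero.1 e1).resolve_right hm
  funext i
  fin_cases i
  · exact Subtype.ext z0
  · exact Subtype.ext z1

theorem lz_der_equiv (c : LZCert L) :
    Nonempty (Derivation ℂ (lzA L) (lzA L) ≃ₗ[lzA L] (Fin 2 → lzA L)) := by
  let φ : (Fin 2 → lzA L) →ₗ[lzA L] Derivation ℂ (lzA L) (lzA L) :=
    { toFun := fun a => a 0 • lzDer c 0 + a 1 • lzDer c 1
      map_add' := fun a b => by
        simp only [Pi.add_apply, add_smul]
        abel
      map_smul' := fun r a => by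
        simp only [Pi.smul_apply, smul_eq_mul, RingHom.id_apply, smul_add, mul_smul] }
  have hinj : Function.Injective φ := by
    refine (injective_iff_map_eq_zero φ).2 ?_
    intro a ha
    exact lz_der_indep c a ha
  have hsurj : Function.Surjective φ := by
    intro E
    obtain ⟨a, ha⟩ := lz_der_span c E
    exact ⟨a, ha.symm⟩
  exact ⟨(LinearEquiv.ofBijective φ ⟨hinj, hsurj⟩).symm⟩

end Claimed.Agent.R246
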