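import Mathlib

/-!
# Row 246, toolbox of Theorem T (blueprint of helper350, `R246_T.md`, section T1)

* `lzt_lift` : LIFT (Cramer).  An approximate solution `M v0 = g ^ N • r` of a linear system of "rank `≤ ρ`"
  whose `ρ`-minors generate an ideal containing `g ^ c * u` can be corrected to an exact solution
  `u • v0 - g ^ (N - c) • w`.
* `lzt_cramerProp_of_factor`, `lzt_cramerProp_of_minors` : two ways of proving the rank hypothesis.
* `lzt_det_trick`, `lzt_det_trick_two` : DT (determinant trick).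
-/

set_option autoImplicit false
set_option linter.unusedSectionVars false

namespace Claimed.Agent.R246

open Matrix

section Lift

variable {B : Type*} [CommRing B] {m q ι : Type*} [Fintype m] [Fintype q] [Fintype ι]
  [DecidableEq q] [DecidableEq ι]

/-- the vector `adj(M_IJ) x_I`, placed in the columns `J` -/
def lztLiftVec (M : Matrix m q B) (I : ι → m) (J : ι → q) (x : m → B) : q → B :=
  fun l => ∑ a, if J a = l then ((M.submatrix I J).adjugate *ᵥ (x ∘ I)) a else 0

theorem lzt_mulVec_liftVec (M : Matrix m q B) (I : ι → m) (J : ι → q) (x : m → B) (i : m) :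
    (M *ᵥ lztLiftVec M I J x) i = ∑ a, M i (J a) * ((M.submatrix I J).adjugate *ᵥ (x ∘ I)) a := by
  classical
  unfold lztLiftVec
  generalize (M.submatrix I J).adjugate *ᵥ (x ∘ I) = z
  simp only [Matrix.mulVec, dotProduct, Finset.mul_sum]
  rw [Finset.sum_comm]
  refine Finset.sum_congr rfl fun a _ => ?_
  simp

theorem lzt_liftVec_add (M : Matrix m q B) (I : ι → m) (J : ι → q) (x y : m → B) :
    lztLiftVec M I J (x + y) = lztLiftVec M I J x + lztLiftVec M I J y := by
  funext l
  have : ((x + y) ∘ I) = x ∘ I + y ∘ I := rfl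
  simp only [lztLiftVec, this, Matrix.mulVec_add, Pi.add_apply, ← Finset.sum_add_distrib]
  refine Finset.sum_congr rfl fun a _ => ?_
  split_ifs <;> simp

theorem lzt_liftVec_smul (M : Matrix m q B) (I : ι → m) (J : ι → q) (c : B) (x : m → B) :
    lztLiftVec M I J (c • x) = c • lztLiftVec M I J x := by
  funext l
  have : ((c • x) ∘ I) = c • (x ∘ I) := rfl
  simp only [lztLiftVec, this, Matrix.mulVec_smul, Pi.smul_apply, smul_eq_mul, Finset.mul_sum]
  refine Finset.sum_congr rfl fun a _ => ?_
  split_ifs <;> simp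

/-- "`M` has rank `≤ |ι|`", in the form in which it is used: Cramer's rule holds for every column of `M`
and every `ι × ι` minor. -/
def LztCramerProp (ι : Type*) [Fintype ι] [DecidableEq ι] (M : Matrix m q B) : Prop :=
  ∀ (I : ι → m) (J : ι → q) (l : q),
    (M.submatrix I J).det • (fun i => M i l) = M *ᵥ lztLiftVec M I J (fun i => M i l)

/-- the ideal generated by the `ι × ι` minors -/
def lztMinorIdeal (ι : Type*) [Fintype ι] [DecidableEq ι] (M : Matrix m q B) : Ideal B :=
  Ideal.span {d | ∃ (I : ι → m) (J : ι → q), d = (M.submatrix I J).det}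

theorem lzt_cramer_mulVec {M : Matrix m q B} (h : LztCramerProp ι M) (I : ι → m) (J : ι → q)
    (v : q → B) :
    (M.submatrix I J).det • (M *ᵥ v) = M *ᵥ lztLiftVec M I J (M *ᵥ v) := by
  classical
  have hv : M *ᵥ v = ∑ l, v l • (fun i => M i l) := by
    funext i
    simp [Matrix.mulVec, dotProduct, Finset.sum_apply, mul_comm]
  have hlin : ∀ (s : Finset q) (f : q → m → B),
      lztLiftVec M I J (∑ l ∈ s, f l) = ∑ l ∈ s, lztLiftVec M I J (f l) := by
    intro s f
    induction s using Finset.induction_on with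
    | empty =>
      simp only [Finset.sum_empty]
      have := lzt_liftVec_smul M I J 0 0
      simpa using this
    | insert a s ha ih => rw [Finset.sum_insert ha, Finset.sum_insert ha, lzt_liftVec_add, ih]
  rw [hv, hlin, Finset.smul_sum, Matrix.mulVec_sum]
  refine Finset.sum_congr rfl fun l _ => ?_
  rw [lzt_liftVec_smul, Matrix.mulVec_smul, smul_comm, h I J l]

/-- **LIFT (Cramer).** -/
theorem lzt_lift {M : Matrix m q B} (hR : LztCramerProp ι M) {g u : B}
    (hg : g ∈ nonZeroDivisors B) {c N : ℕ} (hC : g ^ c * u ∈ lztMinorIdeal ι M) (hcN : c ≤ N)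
    {v0 : q → B} {r : m → B} (hA : M *ᵥ v0 = g ^ N • r) :
    ∃ w : q → B, M *ᵥ (u • v0 - g ^ (N - c) • w) = 0 := by
  classical
  -- every minor `δ` satisfies `δ • r ∈ range M`
  have key : ∀ e ∈ lztMinorIdeal ι M, ∃ w : q → B, M *ᵥ w = e • r := by
    intro e he
    refine Submodule.span_induction (p := fun e _ => ∃ w : q → B, M *ᵥ w = e • r)
      ?_ ?_ ?_ ?_ he
    · rintro _ ⟨I, J, rfl⟩
      refine ⟨lztLiftVec M I J r, ?_⟩
      have h1 := lzt_cramer_mulVec hR I J v0
      rw [hA, lzt_liftVec_smul, Matrix.mulVec_smul, smul_comm] at h1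
      funext i
      have h2 := congrFun h1 i
      simp only [Pi.smul_apply, smul_eq_mul] at h2 ⊢
      have hgN : g ^ N ∈ nonZeroDivisors B := pow_mem hg N
      exact ((mul_cancel_left_mem_nonZeroDivisors hgN).1 h2).symm
    · exact ⟨0, by simp⟩
    · rintro x y _ _ ⟨w1, h1⟩ ⟨w2, h2⟩
      exact ⟨w1 + w2, by rw [Matrix.mulVec_add, h1, h2, add_smul]⟩
    · rintro a x _ ⟨w, h⟩
      exact ⟨a • w, by rw [Matrix.mulVec_smul, h, smul_smul, smul_eq_mul]⟩
  obtain ⟨w, hw⟩ := key _ hC
  refine ⟨w, ?_⟩
  rw [Matrix.mulVec_sub, Matrix.mulVec_smul, Matrix.mulVec_smul, hA, hw, smul_smul, smul_smul,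
    sub_eq_zero]
  congr 1
  rw [← mul_assoc, ← pow_add, Nat.sub_add_cancel hcN, mul_comm]

/-- The rank hypothesis holds if, over an overring `T`, the matrix factors through `T ^ ι`
(e.g. all columns of `M` are `T`-combinations of `|ι|` of them). -/
theorem lzt_cramerProp_of_factor {T : Type*} [CommRing T] (φ : B →+* T)
    (hφ : Function.Injective φ) (M : Matrix m q B) (M' : Matrix m ι T) (C : Matrix ι q T)
    (hM : M.map φ = M' * C) : LztCramerProp ι M := by
  classical
  intro I J l
  funext i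
  rw [lzt_mulVec_liftVec]
  apply hφ
  have hentry : ∀ i l, φ (M i l) = ∑ b, M' i b * C b l := by
    intro i l
    have := congrFun (congrFun hM i) l
    simpa [Matrix.mul_apply] using this
  set P : Matrix ι ι T := M'.submatrix I id with hP
  set Q : Matrix ι ι T := C.submatrix id J with hQ
  have hA : (M.submatrix I J).map φ = P * Q := by
    ext a b
    simp [hP, hQ, Matrix.mul_apply, hentry]
  have hdet : φ (M.submatrix I J).det = P.det * Q.det := by
    rw [RingHom.map_det, RingHom.mapMatrix_apply, hA, Matrix.det_mul]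
  have hadj : ∀ a b, φ ((M.submatrix I J).adjugate a b) = (Q.adjugate * P.adjugate) a b := by
    intro a b
    have := RingHom.map_adjugate φ (M.submatrix I J)
    rw [RingHom.mapMatrix_apply, RingHom.mapMatrix_apply, hA, Matrix.adjugate_mul_distrib] at this
    rw [← this]; rfl
  set cl : ι → T := fun b => C b l with hcl
  have h1 : ∀ a, φ (((M.submatrix I J).adjugate *ᵥ ((fun i => M i l) ∘ I)) a)
      = ((Q.adjugate * P.adjugate) *ᵥ (P *ᵥ cl)) a := by
    intro a
    simp only [Matrix.mulVec, dotProduct, map_sum, map_mul, hadj, Function.comp, hentry]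
    rfl
  have h2 : ∀ a, φ (M i (J a)) = (M' i ᵥ* Q) a := by
    intro a
    simp [hentry, Matrix.vecMul, dotProduct, hQ]
  simp only [Pi.smul_apply, smul_eq_mul, map_mul, map_sum, h1, h2, hdet]
  have h3 : ∑ a, (M' i ᵥ* Q) a * ((Q.adjugate * P.adjugate) *ᵥ (P *ᵥ cl)) a
      = (M' i ᵥ* Q) ⬝ᵥ ((Q.adjugate * P.adjugate) *ᵥ (P *ᵥ cl)) := rfl
  rw [h3, Matrix.mulVec_mulVec, ← Matrix.dotProduct_mulVec, Matrix.mulVec_mulVec,
    Matrix.mul_assoc, Matrix.adjugate_mul, ← Matrix.mul_assoc, Matrix.mul_smul, Matrix.mul_one,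
    Matrix.mul_adjugate, smul_smul, Matrix.smul_mulVec, Matrix.one_mulVec,
    dotProduct_smul, hentry]
  rfl


/-- the bordered matrix `[[A, b], [c, d]]` -/
def lztBord (A : Matrix ι ι B) (b c : ι → B) (d : B) : Matrix (ι ⊕ Unit) (ι ⊕ Unit) B :=
  fromBlocks A (replicateCol Unit b) (replicateRow Unit c) (of fun _ _ => d)

theorem lzt_det_bordered_aux (A : Matrix ι ι B) (b c : ι → B) (d : B) :
    (lztBord A b c d).det * A.det = A.det * (d * A.det - c ⬝ᵥ (A.adjugate *ᵥ b)) := by
  have h1 : lztBord A b c d *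
      fromBlocks 1 (replicateCol Unit (-(A.adjugate *ᵥ b))) 0 (A.det • (1 : Matrix Unit Unit B))
      = fromBlocks A 0 (replicateRow Unit c)
          (of fun _ _ => d * A.det - c ⬝ᵥ (A.adjugate *ᵥ b)) := by
    rw [lztBord, Matrix.fromBlocks_multiply]
    congr 1
    · simp
    · ext i j
      have : (A *ᵥ (A.adjugate *ᵥ b)) i = A.det * b i := by
        rw [Matrix.mulVec_mulVec, Matrix.mul_adjugate, Matrix.smul_mulVec, Matrix.one_mulVec]; rfl
      simp [Matrix.mul_apply, Matrix.mulVec, dotProduct] at this ⊢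
      rw [this]; ring
    · simp
    · ext i j
      simp [Matrix.mul_apply, dotProduct]
      ring
  have h2 := congrArg Matrix.det h1
  rw [Matrix.det_mul, Matrix.det_fromBlocks_zero₂₁, Matrix.det_fromBlocks_zero₁₂] at h2
  simpa using h2

open Polynomial in
/-- determinant of a bordered matrix, over any commutative ring -/
theorem lzt_det_bordered (A : Matrix ι ι B) (b c : ι → B) (d : B) :
    (lztBord A b c d).det = d * A.det - c ⬝ᵥ (A.adjugate *ᵥ b) := by
  let g : Matrix ι ι B[X] := A.map Polynomial.C + (Polynomial.X : B[X]) • (1 : Matrix ι ι B[X])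
  have hreg : IsRegular g.det := by
    refine Polynomial.Monic.isRegular ?_
    simp only [g, Polynomial.Monic.def, ← Polynomial.leadingCoeff_det_X_one_add_C A, add_comm]
  have h := lzt_det_bordered_aux g (fun i => C (b i)) (fun i => C (c i)) (C d)
  rw [mul_comm] at h
  have h' := hreg.left h
  have hg : (Polynomial.evalRingHom 0).mapMatrix g = A := by
    ext i j
    simp [g]
  have h0 := congrArg (Polynomial.evalRingHom (0 : B)) h'
  have hb : (Polynomial.evalRingHom (0 : B)).mapMatrix
      (lztBord g (fun i => C (b i)) (fun i => C (c i)) (C d)) = lztBord A b c d := by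
    ext i j
    rcases i with i | i <;> rcases j with j | j <;> simp [lztBord, g]
  rw [RingHom.map_det, hb] at h0
  rw [h0, map_sub, map_mul, RingHom.map_det, hg]
  congr 1
  · simp
  · have hadj := RingHom.map_adjugate (Polynomial.evalRingHom (0 : B)) g
    rw [hg] at hadj
    simp only [dotProduct, Matrix.mulVec, map_sum, map_mul]
    refine Finset.sum_congr rfl fun i _ => ?_
    congr 1
    · simp
    · refine Finset.sum_congr rfl fun j _ => ?_
      rw [← hadj]
      simp

/-- The rank hypothesis (R) of the blueprint: all minors of size `|ι| + 1` vanish. -/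
theorem lzt_cramerProp_of_minors (M : Matrix m q B)
    (hR : ∀ (r : ι ⊕ Unit → m) (c : ι ⊕ Unit → q), (M.submatrix r c).det = 0) :
    LztCramerProp ι M := by
  classical
  intro I J l
  funext i
  rw [lzt_mulVec_liftVec]
  have h1 : M.submatrix (Sum.elim I fun _ => i) (Sum.elim J fun _ => l)
      = lztBord (M.submatrix I J) (fun a => M (I a) l) (fun a => M i (J a)) (M i l) := by
    ext a b
    rcases a with a | a <;> rcases b with b | b <;> simp [lztBord]
  have h2 := hR (Sum.elim I fun _ => i) (Sum.elim J fun _ => l)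
  rw [h1, lzt_det_bordered, sub_eq_zero] at h2
  simp only [Pi.smul_apply, smul_eq_mul]
  rw [mul_comm, h2]
  rfl

end Lift

section DT

variable {B k : Type*} [CommRing B] [CommRing k]

/-- **DT (determinant trick)**, general size. -/
theorem lzt_det_trick {n : Type*} [Fintype n] [DecidableEq n] (ev : B →+* k) (I : Ideal B)
    (x : n → B) (u0 : B) (Y : Matrix n n B) (hY : ∀ a b, ev (Y a b) = 0)
    (h : ∀ a, u0 * x a - ∑ b, Y a b * x b ∈ I) :
    ∃ u : B, ev u = ev u0 ^ Fintype.card n ∧ ∀ a, u * x a ∈ I := by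
  classical
  set Z : Matrix n n B := u0 • (1 : Matrix n n B) - Y with hZ
  refine ⟨Z.det, ?_, ?_⟩
  · rw [RingHom.map_det]
    have : ev.mapMatrix Z = ev u0 • (1 : Matrix n n k) := by
      ext a b
      by_cases hab : a = b
      · subst hab; simp [hZ, hY]
      · simp [hZ, hY, Matrix.one_apply_ne hab]
    rw [this, Matrix.det_smul, Matrix.det_one, mul_one]
  · intro a
    have hZx : ∀ a, (Z *ᵥ x) a ∈ I := by
      intro a
      have : (Z *ᵥ x) a = u0 * x a - ∑ b, Y a b * x b := by
        rw [hZ, Matrix.sub_mulVec, Matrix.smul_mulVec, Matrix.one_mulVec]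
        rfl
      rw [this]; exact h a
    have h1 : Z.det * x a = (Z.adjugate *ᵥ (Z *ᵥ x)) a := by
      rw [Matrix.mulVec_mulVec, Matrix.adjugate_mul, Matrix.smul_mulVec, Matrix.one_mulVec]
      rfl
    rw [h1]
    simp only [Matrix.mulVec, dotProduct]
    exact I.sum_mem fun b _ => I.mul_mem_left _ (hZx b)

/-- **DT (determinant trick)**, the `2 × 2` case as in the blueprint. -/
theorem lzt_det_trick_two (ev : B →+* k) (I : Ideal B) (x1 x2 u0 y11 y12 y21 y22 : B)
    (h11 : ev y11 = 0) (h12 : ev y12 = 0) (h21 : ev y21 = 0) (h22 : ev y22 = 0)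
    (h1 : u0 * x1 - (y11 * x1 + y12 * x2) ∈ I) (h2 : u0 * x2 - (y21 * x1 + y22 * x2) ∈ I) :
    ∃ u : B, ev u = ev u0 ^ 2 ∧ u * x1 ∈ I ∧ u * x2 ∈ I := by
  refine ⟨(u0 - y11) * (u0 - y22) - y12 * y21, ?_, ?_, ?_⟩
  · simp [h11, h12, h21, h22, sq]
  · have : ((u0 - y11) * (u0 - y22) - y12 * y21) * x1
        = (u0 - y22) * (u0 * x1 - (y11 * x1 + y12 * x2))
          + y12 * (u0 * x2 - (y21 * x1 + y22 * x2)) := by ring
    rw [this]
    exact I.add_mem (I.mul_mem_left _ h1) (I.mul_mem_left _ h2)
  · have : ((u0 - y11) * (u0 - y22) - y12 * y21) * x2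
        = y21 * (u0 * x1 - (y11 * x1 + y12 * x2))
          + (u0 - y11) * (u0 * x2 - (y21 * x1 + y22 * x2)) := by ring
    rw [this]
    exact I.add_mem (I.mul_mem_left _ h1) (I.mul_mem_left _ h2)

end DT

end Claimed.Agent.R246
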