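import Mathlib

/-!
# Row 246, toolbox of Theorem T: DP (differential primes)

* `lzt_radical_stable` : in a `ℚ`-algebra the radical of a `D`-stable ideal is `D`-stable.
* `lzt_minimalPrimes_stable` : every minimal prime over a `D`-stable ideal is `D`-stable.
* `lzt_stable_mv` : an ideal of `k[[x_1, .., x_n]]` (char. 0) stable under all partial derivatives is `⊥` or `⊤`.
-/

set_option autoImplicit false
set_option linter.unusedSectionVars false
set_option linter.style.haveILetI false

namespace Claimed.Agent.R246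

section DP1

variable {R A : Type*} [CommRing R] [CommRing A] [Algebra R A] [Algebra ℚ A]

theorem lzt_mem_of_nsmul_mem (I : Ideal A) {n : ℕ} (hn : n ≠ 0) {x : A} (h : n • x ∈ I) : x ∈ I := by
  have h1 : x = algebraMap ℚ A (1 / (n : ℚ)) * (n • x) := by
    rw [nsmul_eq_mul, ← mul_assoc]
    have : (n : A) = algebraMap ℚ A (n : ℚ) := by simp
    rw [this, ← map_mul, one_div, inv_mul_cancel₀ (by exact_mod_cast hn), map_one, one_mul]
  rw [h1]
  exact I.mul_mem_left _ h

theorem lzt_mul_der_pow (D : Derivation R A A) (y : A) (n : ℕ) :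
    y * D (y ^ n) = n • (y ^ n * D y) := by
  cases n with
  | zero => simp
  | succ n =>
    rw [Derivation.leibniz_pow]
    simp only [Nat.add_sub_cancel, smul_eq_mul, nsmul_eq_mul]
    ring

theorem lzt_radical_aux (D : Derivation R A A) (I : Ideal A) (hI : ∀ x ∈ I, D x ∈ I) (x : A) :
    ∀ (j i : ℕ), x ^ (i + j) ∈ I → x ^ i * D x ^ (2 * j) ∈ I := by
  intro j
  induction j with
  | zero => intro i h; simpa using h
  | succ j ih =>
    intro i h
    have h1 : x ^ (i + 1) * D x ^ (2 * j) ∈ I := ih (i + 1) (by rwa [add_assoc, add_comm 1 j])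
    have h2 := hI _ h1
    have h3 : (i + 1) • (x ^ i * D x ^ (2 * (j + 1)))
        = D x * D (x ^ (i + 1) * D x ^ (2 * j))
          - (2 * j) • ((x ^ (i + 1) * D x ^ (2 * j)) * D (D x)) := by
      have e1 := lzt_mul_der_pow D (D x) (2 * j)
      have e2 : D (x ^ (i + 1)) = (i + 1 : ℕ) • (x ^ i * D x) := by
        rw [Derivation.leibniz_pow]
        simp only [Nat.add_sub_cancel, smul_eq_mul]
      rw [Derivation.leibniz, smul_eq_mul, smul_eq_mul, e2]
      simp only [nsmul_eq_mul] at e1 ⊢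
      linear_combination (-(x ^ (i + 1))) * e1
    apply lzt_mem_of_nsmul_mem I (Nat.succ_ne_zero i)
    rw [Nat.succ_eq_add_one, h3]
    refine I.sub_mem (I.mul_mem_left _ h2) ?_
    rw [nsmul_eq_mul]
    exact I.mul_mem_left _ (I.mul_mem_right _ h1)

/-- **DP1, first half.** -/
theorem lzt_radical_stable (D : Derivation R A A) (I : Ideal A) (hI : ∀ x ∈ I, D x ∈ I) :
    ∀ x ∈ I.radical, D x ∈ I.radical := by
  rintro x ⟨n, hn⟩
  refine ⟨2 * n, ?_⟩
  have := lzt_radical_aux D I hI x n 0 (by simpa using hn)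
  simpa using this

/-- the saturation `(I : s^∞)` -/
def lztSat (I : Ideal A) (s : A) : Ideal A where
  carrier := {x | ∃ k : ℕ, s ^ k * x ∈ I}
  add_mem' := by
    rintro x y ⟨k, hk⟩ ⟨l, hl⟩
    refine ⟨k + l, ?_⟩
    have : s ^ (k + l) * (x + y) = s ^ l * (s ^ k * x) + s ^ k * (s ^ l * y) := by ring
    rw [this]
    exact I.add_mem (I.mul_mem_left _ hk) (I.mul_mem_left _ hl)
  zero_mem' := ⟨0, by simp⟩
  smul_mem' := by
    rintro c x ⟨k, hk⟩
    refine ⟨k, ?_⟩
    have : s ^ k * (c • x) = c * (s ^ k * x) := by rw [smul_eq_mul]; ring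
    rw [this]
    exact I.mul_mem_left _ hk

theorem lzt_sat_stable (D : Derivation R A A) (I : Ideal A) (hI : ∀ x ∈ I, D x ∈ I) (s : A) :
    ∀ x ∈ lztSat I s, D x ∈ lztSat I s := by
  rintro x ⟨k, hk⟩
  refine ⟨k + 1, ?_⟩
  have h1 := hI _ (I.mul_mem_left s hk)
  have h2 : s ^ (k + 1) * D x = D (s * (s ^ k * x)) - ((k + 1) • D s) * (s ^ k * x) := by
    rw [← mul_assoc, ← pow_succ', Derivation.leibniz, Derivation.leibniz_pow]
    simp only [Nat.add_sub_cancel, smul_eq_mul, nsmul_eq_mul]
    ring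
  rw [h2]
  exact I.sub_mem h1 (I.mul_mem_left _ hk)

theorem lzt_exists_mul_pow_mem {I p : Ideal A} (hp : p ∈ I.minimalPrimes) {a : A} (ha : a ∈ p) :
    ∃ s, s ∉ p ∧ ∃ n : ℕ, s * a ^ n ∈ I := by
  classical
  haveI : p.IsPrime := hp.1.1
  by_contra hcon
  push Not at hcon
  set S : Submonoid A := p.primeCompl ⊔ Submonoid.powers a with hS
  have hdisj : Disjoint (I : Set A) S := by
    rw [Set.disjoint_left]
    intro x hx hxS
    obtain ⟨y, hy, z, ⟨n, rfl⟩, rfl⟩ := Submonoid.mem_sup.1 hxS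
    exact hcon y hy n hx
  obtain ⟨q, hq, hIq, hqS⟩ := Ideal.exists_le_prime_disjoint I S hdisj
  have hqp : q ≤ p := by
    intro x hx
    by_contra hxp
    exact Set.disjoint_left.1 hqS hx (Submonoid.mem_sup_left (show x ∈ p.primeCompl from hxp))
  have hpq : p ≤ q := hp.2 ⟨hq, hIq⟩ hqp
  exact Set.disjoint_left.1 hqS (hpq ha) (Submonoid.mem_sup_right (Submonoid.mem_powers a))

/-- **DP1, second half.** -/
theorem lzt_minimalPrimes_stable (D : Derivation R A A) (I : Ideal A) (hI : ∀ x ∈ I, D x ∈ I)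
    {p : Ideal A} (hp : p ∈ I.minimalPrimes) : ∀ x ∈ p, D x ∈ p := by
  intro a ha
  haveI : p.IsPrime := hp.1.1
  obtain ⟨s, hs, n, hn⟩ := lzt_exists_mul_pow_mem hp ha
  have hle : lztSat I s ≤ p := by
    rintro x ⟨k, hk⟩
    rcases (Ideal.IsPrime.mem_or_mem ‹_› (hp.1.2 hk)) with h | h
    · exact absurd (Ideal.IsPrime.mem_of_pow_mem ‹_› _ h) hs
    · exact h
  have h1 : a ∈ (lztSat I s).radical := ⟨n, 1, by simpa using hn⟩
  have h2 := lzt_radical_stable D _ (lzt_sat_stable D I hI s) a h1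
  exact (Ideal.IsPrime.radical_le_iff ‹_›).2 hle h2

/-- minimal primes of the ring are stable under every derivation -/
theorem lzt_minimalPrimes_stable' (D : Derivation R A A) {p : Ideal A} (hp : p ∈ minimalPrimes A) :
    ∀ x ∈ p, D x ∈ p :=
  lzt_minimalPrimes_stable D ⊥ (by intro x hx; rw [Ideal.mem_bot] at hx; simp [hx]) hp

end DP1

section DP2

variable {k : Type*} [Field k] [CharZero k] {σ : Type*}

open MvPowerSeries in
theorem lzt_stable_mv_aux [DecidableEq σ] (q : Ideal (MvPowerSeries σ k))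
    (hq : ∀ i, ∀ f ∈ q, pderiv k i f ∈ q) :
    ∀ (d : ℕ) (n : σ →₀ ℕ), n.degree = d → ∀ f ∈ q, coeff n f ≠ 0 → q = ⊤ := by
  intro d
  induction d with
  | zero =>
    intro n hn f hf hc
    have hn0 : n = 0 := (Finsupp.degree_eq_zero_iff n).1 hn
    subst hn0
    apply Ideal.eq_top_of_isUnit_mem _ hf
    rw [MvPowerSeries.isUnit_iff_constantCoeff]
    exact isUnit_iff_ne_zero.2 (by simpa using hc)
  | succ d ih =>
    intro n hn f hf hc
    have hne : n ≠ 0 := by
      rintro rfl
      simp at hn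
    obtain ⟨i, hi⟩ : ∃ i, n i ≠ 0 := by
      by_contra h
      push Not at h
      exact hne (Finsupp.ext h)
    set n' : σ →₀ ℕ := n - Finsupp.single i 1 with hn'
    have hnn : n' + Finsupp.single i 1 = n := by
      apply tsub_add_cancel_of_le
      rw [Finsupp.single_le_iff]
      exact Nat.one_le_iff_ne_zero.2 hi
    refine ih n' ?_ (pderiv k i f) (hq i f hf) ?_
    · have := congrArg Finsupp.degree hnn
      rw [map_add, Finsupp.degree_single, hn] at this
      omega
    · rw [coeff_pderiv, hnn]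
      exact mul_ne_zero hc (by exact_mod_cast Nat.succ_ne_zero (n' i))

open MvPowerSeries in
/-- **DP2**, any number of variables. -/
theorem lzt_stable_mv (q : Ideal (MvPowerSeries σ k)) (hq : ∀ i, ∀ f ∈ q, pderiv k i f ∈ q) :
    q = ⊥ ∨ q = ⊤ := by
  classical
  by_cases h : q = ⊥
  · exact Or.inl h
  · right
    obtain ⟨f, hf, hf0⟩ := Submodule.exists_mem_ne_zero_of_ne_bot h
    obtain ⟨n, hn⟩ : ∃ n, coeff n f ≠ 0 := by
      by_contra hcon
      push Not at hcon
      exact hf0 (MvPowerSeries.ext hcon)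
    exact lzt_stable_mv_aux q hq _ n rfl f hf hn

end DP2

section Nested

open PowerSeries

variable {k R : Type*} [CommRing k] [CommRing R] [Algebra k R]

/-- the coefficientwise extension of a derivation `d` of `R` to `R⟦X⟧` (for `R = k⟦t⟧`, `d = d/dt` this is
`∂/∂t` on `k⟦t⟧⟦s⟧`) -/
noncomputable def lztCoeffDer (d : Derivation k R R) : Derivation k R⟦X⟧ R⟦X⟧ :=
  Derivation.mk'
    { toFun := fun f => PowerSeries.mk fun n => d (coeff n f)
      map_add' := by
        intro f g
        ext n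
        simp
      map_smul' := by
        intro c f
        ext n
        simp }
    (by
      intro f g
      ext n
      simp only [LinearMap.coe_mk, AddHom.coe_mk, coeff_mk, smul_eq_mul, map_add, coeff_mul, map_sum,
        Derivation.leibniz, Finset.sum_add_distrib]
      congr 1
      rw [← Finset.Nat.sum_antidiagonal_swap]
      refine Finset.sum_congr rfl fun x _ => ?_
      simp)

@[simp] theorem lzt_coeff_coeffDer (d : Derivation k R R) (f : R⟦X⟧) (n : ℕ) :
    coeff n (lztCoeffDer d f) = d (coeff n f) := by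
  simp [lztCoeffDer]

@[simp] theorem lzt_coeffDer_X (d : Derivation k R R) : lztCoeffDer d (X : R⟦X⟧) = 0 := by
  ext n
  simp only [lzt_coeff_coeffDer, coeff_X, map_zero]
  split_ifs <;> simp

@[simp] theorem lzt_coeffDer_C (d : Derivation k R R) (r : R) :
    lztCoeffDer d (C r : R⟦X⟧) = C (d r) := by
  ext n
  simp only [lzt_coeff_coeffDer, coeff_C]
  split_ifs <;> simp

end Nested

section DP2Nested

open PowerSeries

variable {k : Type*} [Field k] [CharZero k]

/-- **DP2** for `k⟦t⟧⟦s⟧`. -/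
theorem lzt_stable_nested (q : Ideal (k⟦X⟧⟦X⟧))
    (hs : ∀ f ∈ q, d⁄dX (k⟦X⟧) f ∈ q) (ht : ∀ f ∈ q, lztCoeffDer (d⁄dX k) f ∈ q) :
    q = ⊥ ∨ q = ⊤ := by
  classical
  by_cases h : q = ⊥
  · exact Or.inl h
  right
  have hB : ∀ (j : ℕ) (g : k⟦X⟧⟦X⟧), g ∈ q → coeff j (coeff 0 g) ≠ 0 → q = ⊤ := by
    intro j
    induction j with
    | zero =>
      intro g hg hc
      apply Ideal.eq_top_of_isUnit_mem _ hg
      rw [PowerSeries.isUnit_iff_constantCoeff, PowerSeries.isUnit_iff_constantCoeff]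
      exact isUnit_iff_ne_zero.2 (by simpa using hc)
    | succ j ih =>
      intro g hg hc
      refine ih _ (ht g hg) ?_
      rw [lzt_coeff_coeffDer, coeff_derivative]
      exact mul_ne_zero hc (by exact_mod_cast Nat.succ_ne_zero j)
  have hA : ∀ (i : ℕ) (f : k⟦X⟧⟦X⟧), f ∈ q → coeff i f ≠ 0 → q = ⊤ := by
    intro i
    induction i with
    | zero =>
      intro f hf hc
      obtain ⟨j, hj⟩ : ∃ j, coeff j (coeff 0 f) ≠ 0 := by
        by_contra hcon
        push Not at hcon
        exact hc (PowerSeries.ext hcon)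
      exact hB j f hf hj
    | succ i ih =>
      intro f hf hc
      refine ih _ (hs f hf) ?_
      rw [coeff_derivative]
      have hi : ((i : k⟦X⟧) + 1) ≠ 0 := by
        intro h0
        have h1 := congrArg (constantCoeff (R := k)) h0
        simp only [map_add, map_natCast, map_one, map_zero] at h1
        exact Nat.succ_ne_zero i (by exact_mod_cast h1)
      exact mul_ne_zero hc hi
  obtain ⟨f, hf, hf0⟩ := Submodule.exists_mem_ne_zero_of_ne_bot h
  obtain ⟨n, hn⟩ : ∃ n, coeff n f ≠ 0 := by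
    by_contra hcon
    push Not at hcon
    exact hf0 (PowerSeries.ext hcon)
  exact hA n f hf hn

end DP2Nested

end Claimed.Agent.R246
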