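import Mathlib

/-!
# Row 246, toolbox of Theorem T: RA (algebraic power series in one variable)

`𝒪 = k⟦t⟧`, `k` a field of characteristic `0`.  "Algebraic" means `IsAlgebraic k[X] (f : k⟦X⟧)`.

* `lzt_alg_of_X_mul` (RA1), `lzt_alg_derivative` (RA2),
* `lzt_RA3`, `lzt_RA4` : finitely many algebraic series lie in a finitely generated `k`-subalgebra of `𝒪`
  consisting of algebraic series, containing `t` and stable under `d/dt`,
* `lzt_RA5` : an algebraic series `x` satisfies `h * x ^ a = t * r` with `h ∈ k[x]`, `h(0) ≠ 0` if `x(0) = 0`,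
  `r ∈ k[t, x]`.
-/

set_option autoImplicit false
set_option linter.unusedSectionVars false

namespace Claimed.Agent.R246

open Polynomial

section RA

variable {k : Type*} [Field k]

local notation "𝒪" => PowerSeries k
local notation "T" => (PowerSeries.X : PowerSeries k)
local notation "Dt" => PowerSeries.derivative k

theorem lzt_algebraMap_eq_coe (p : k[X]) : algebraMap k[X] 𝒪 p = (p : 𝒪) := rfl

theorem lzt_alg_coe (p : k[X]) : IsAlgebraic k[X] (p : 𝒪) := by
  rw [← lzt_algebraMap_eq_coe]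
  exact isAlgebraic_algebraMap p

theorem lzt_alg_X : IsAlgebraic k[X] T := by
  have := lzt_alg_coe (k := k) (X : k[X])
  rwa [Polynomial.coe_X] at this

/-- RA0: quotients -/
theorem lzt_alg_of_mul {a x : 𝒪} (ha0 : a ≠ 0) (ha : IsAlgebraic k[X] a)
    (h : IsAlgebraic k[X] (a * x)) : IsAlgebraic k[X] x :=
  IsAlgebraic.of_mul (mem_nonZeroDivisors_of_ne_zero ha0) ha h

/-- **RA1** -/
theorem lzt_alg_of_X_mul {h : 𝒪} (hf : IsAlgebraic k[X] (T * h)) : IsAlgebraic k[X] h :=
  lzt_alg_of_mul PowerSeries.X_ne_zero lzt_alg_X hf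

theorem lzt_alg_of_X_pow_mul {h : 𝒪} (n : ℕ) (hf : IsAlgebraic k[X] (T ^ n * h)) :
    IsAlgebraic k[X] h := by
  induction n with
  | zero => simpa using hf
  | succ n ih =>
    apply ih
    apply lzt_alg_of_X_mul
    rwa [← mul_assoc, ← pow_succ']

theorem lzt_alg_aeval {z : 𝒪} (hz : IsAlgebraic k[X] z) (p : k[X][X]) :
    IsAlgebraic k[X] (aeval z p) := by
  have h := (Algebra.isAlgebraic_adjoin_singleton_iff (R := k[X]) (s := z)).2 hz
  exact h _ (Polynomial.aeval_mem_adjoin_singleton _ _)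

/-- chain rule for `d/dt` and a polynomial with coefficients in `k[t]` -/
theorem lzt_der_aeval (z : 𝒪) (p : k[X][X]) :
    ∃ r : k[X][X], Dt (aeval z p) = aeval z r + aeval z (derivative p) * Dt z := by
  induction p using Polynomial.induction_on' with
  | add p q hp hq =>
    obtain ⟨r1, h1⟩ := hp
    obtain ⟨r2, h2⟩ := hq
    refine ⟨r1 + r2, ?_⟩
    simp only [map_add, h1, h2]
    ring
  | monomial n a =>
    refine ⟨monomial n (derivative a), ?_⟩
    rw [Polynomial.aeval_monomial, Polynomial.aeval_monomial, Polynomial.derivative_monomial,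
      Polynomial.aeval_monomial, Derivation.leibniz, Derivation.leibniz_pow, map_mul, map_natCast,
      lzt_algebraMap_eq_coe, lzt_algebraMap_eq_coe, PowerSeries.derivative_coe]
    simp only [smul_eq_mul, nsmul_eq_mul]
    ring

variable [CharZero k]

/-- an algebraic series is a simple root of some polynomial -/
theorem lzt_exists_sep {y : 𝒪} (hy : IsAlgebraic k[X] y) :
    ∃ μ : k[X][X], aeval y μ = 0 ∧ aeval y (derivative μ) ≠ 0 := by
  have key : ∀ (n : ℕ) (μ : k[X][X]), μ ≠ 0 → μ.natDegree ≤ n → aeval y μ = 0 →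
      ∃ μ : k[X][X], aeval y μ = 0 ∧ aeval y (derivative μ) ≠ 0 := by
    intro n
    induction n with
    | zero =>
      intro μ h0 hd hμ
      exfalso
      rw [Polynomial.eq_C_of_natDegree_le_zero hd, Polynomial.aeval_C, lzt_algebraMap_eq_coe] at hμ
      have : μ.coeff 0 = 0 := Polynomial.coe_injective k (by simpa using hμ)
      apply h0
      rw [Polynomial.eq_C_of_natDegree_le_zero hd, this, map_zero]
    | succ n ih =>
      intro μ h0 hd hμ
      by_cases hder : aeval y (derivative μ) = 0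
      · by_cases hdeg : μ.natDegree = 0
        · exact ih μ h0 (by omega) hμ
        · refine ih (derivative μ) ?_ ?_ hder
          · intro h
            exact hdeg (Polynomial.derivative_eq_zero.1 h)
          · have := Polynomial.natDegree_derivative_lt hdeg
            omega
      · exact ⟨μ, hμ, hder⟩
  obtain ⟨μ, h0, hμ⟩ := hy
  exact key _ μ h0 le_rfl hμ

/-- **RA2** -/
theorem lzt_alg_derivative {y : 𝒪} (hy : IsAlgebraic k[X] y) : IsAlgebraic k[X] (Dt y) := by
  obtain ⟨μ, hμ, hder⟩ := lzt_exists_sep hy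
  obtain ⟨r, hr⟩ := lzt_der_aeval y μ
  rw [hμ, map_zero] at hr
  apply lzt_alg_of_mul hder (lzt_alg_aeval hy _)
  have : aeval y (derivative μ) * Dt y = - aeval y r := by linear_combination -hr
  rw [this]
  exact (lzt_alg_aeval hy r).neg

/-- Taylor expansion to second order, in any algebra -/
theorem lzt_binom {R0 A' : Type*} [CommRing R0] [CommRing A'] [Algebra R0 A'] (ν : R0[X])
    (a h : A') :
    ∃ κ : A', aeval (a + h) ν = aeval a ν + aeval a (derivative ν) * h + κ * h ^ 2 := by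
  obtain ⟨κ, hκ⟩ := Polynomial.binomExpansion (ν.map (algebraMap R0 A')) a h
  refine ⟨κ, ?_⟩
  simpa [Polynomial.eval_map_algebraMap, Polynomial.derivative_map] using hκ

omit [CharZero k] in
theorem lzt_exists_ord {u : 𝒪} (hu : u ≠ 0) :
    ∃ (e : ℕ) (v : 𝒪), u = T ^ e * v ∧ PowerSeries.constantCoeff v ≠ 0 := by
  classical
  have hex : ∃ n, PowerSeries.coeff n u ≠ 0 := by
    by_contra hcon
    push Not at hcon
    exact hu (PowerSeries.ext hcon)
  have hdvd : T ^ (Nat.find hex) ∣ u := by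
    rw [PowerSeries.X_pow_dvd_iff]
    intro m hm
    by_contra h
    exact Nat.find_min hex hm h
  have h1 := Nat.find_spec hex
  generalize Nat.find hex = e at hdvd h1
  obtain ⟨v, hv⟩ := hdvd
  refine ⟨e, v, hv, ?_⟩
  rw [hv] at h1
  have h2 := PowerSeries.coeff_X_pow_mul v e 0
  rw [zero_add] at h2
  rw [h2] at h1
  simpa using h1

omit [CharZero k] in
theorem lzt_dvd_of_coe_dvd {p : k[X]} {n : ℕ} (h : T ^ n ∣ (p : 𝒪)) : (X : k[X]) ^ n ∣ p := by
  rw [Polynomial.X_pow_dvd_iff]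
  rw [PowerSeries.X_pow_dvd_iff] at h
  intro m hm
  simpa using h m hm

omit [CharZero k] in
theorem lzt_aeval_coe (y0 : k[X]) (μ : k[X][X]) : aeval (y0 : 𝒪) μ = ((eval y0 μ : k[X]) : 𝒪) := by
  rw [← lzt_algebraMap_eq_coe, ← lzt_algebraMap_eq_coe, Polynomial.aeval_algebraMap_apply,
    Polynomial.coe_aeval_eq_eval]

omit [CharZero k] in
theorem lzt_aeval_C (y0 : k[X]) (μ : k[X][X]) :
    aeval (C y0 : k[X][X]) μ = C (eval y0 μ) := by
  have := Polynomial.aeval_algebraMap_apply (A := k[X]) (k[X][X]) y0 μ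
  rwa [Polynomial.coe_aeval_eq_eval] at this

/-- normal form of an algebraic series: `y = y0 + t ^ M z`, `z` a simple root mod `t` of `G`. -/
theorem lzt_RA3_core {y : 𝒪} (hy : IsAlgebraic k[X] y) :
    ∃ (M : ℕ) (y0 : k[X]) (z : 𝒪) (G : k[X][X]), y = (y0 : 𝒪) + T ^ M * z ∧ aeval z G = 0 ∧
      PowerSeries.constantCoeff (aeval z (derivative G)) ≠ 0 := by
  obtain ⟨μ, hμ, hder⟩ := lzt_exists_sep hy
  obtain ⟨e, v, hv, hv0⟩ := lzt_exists_ord hder
  set M : ℕ := e + 1 with hM
  set y0 : k[X] := PowerSeries.trunc M y with hy0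
  have hdvd : T ^ M ∣ y - (y0 : 𝒪) := by
    rw [PowerSeries.X_pow_dvd_iff]
    intro m hm
    rw [map_sub, Polynomial.coeff_coe, PowerSeries.coeff_trunc, if_pos hm, sub_self]
  obtain ⟨z, hz⟩ := hdvd
  have hyz : y = (y0 : 𝒪) + T ^ M * z := by rw [← hz]; ring
  -- `μ'(y0) = t ^ e β`
  obtain ⟨κ1, h1⟩ := lzt_binom (derivative μ) (y0 : 𝒪) (T ^ M * z)
  rw [← hyz, hv, lzt_aeval_coe] at h1
  have hβ : T ^ e ∣ ((eval y0 (derivative μ) : k[X]) : 𝒪) := by
    refine ⟨v - T * (aeval (y0 : 𝒪) (derivative (derivative μ)) * z + κ1 * T ^ M * z ^ 2), ?_⟩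
    rw [hM] at h1 ⊢
    linear_combination -h1
  obtain ⟨β, hβ'⟩ := lzt_dvd_of_coe_dvd hβ
  have hβ0 : β.coeff 0 ≠ 0 := by
    have h2 : T ^ e * (β : 𝒪)
        = T ^ e * (v - T * (aeval (y0 : 𝒪) (derivative (derivative μ)) * z + κ1 * T ^ M * z ^ 2)) := by
      have : ((eval y0 (derivative μ) : k[X]) : 𝒪) = T ^ e * (β : 𝒪) := by
        rw [hβ']; simp
      rw [this] at h1
      rw [hM] at h1 ⊢
      linear_combination -h1
    have h3 := mul_left_cancel₀ (pow_ne_zero e PowerSeries.X_ne_zero) h2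
    have h4 := congrArg PowerSeries.constantCoeff h3
    simp only [map_sub, map_mul, PowerSeries.constantCoeff_X, zero_mul, sub_zero] at h4
    rw [← PowerSeries.coeff_zero_eq_constantCoeff_apply, Polynomial.coeff_coe] at h4
    rw [h4]; exact hv0
  -- `μ(y0) = t ^ (e + M) α`
  obtain ⟨κ2, h5⟩ := lzt_binom μ (y0 : 𝒪) (T ^ M * z)
  rw [← hyz, hμ, lzt_aeval_coe, lzt_aeval_coe, hβ'] at h5
  have hα : T ^ (e + M) ∣ ((eval y0 μ : k[X]) : 𝒪) := by
    refine ⟨-((β : 𝒪) * z + κ2 * T * z ^ 2), ?_⟩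
    simp only [Polynomial.coe_mul, Polynomial.coe_pow, Polynomial.coe_X] at h5
    rw [hM] at h5 ⊢
    linear_combination -h5
  obtain ⟨α, hα'⟩ := lzt_dvd_of_coe_dvd hα
  -- the polynomial `G`
  obtain ⟨κ, h6⟩ := lzt_binom μ (C y0 : k[X][X]) (C (X ^ M) * X)
  rw [lzt_aeval_C, lzt_aeval_C, hβ', hα'] at h6
  set G : k[X][X] := C α + C β * X + C X * κ * X ^ 2 with hG
  have h7 : aeval (C y0 + C (X ^ M) * X : k[X][X]) μ = C (X ^ (e + M)) * G := by
    rw [h6, hG, hM]
    simp only [map_mul, map_pow]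
    ring
  have h8 : aeval z (aeval (C y0 + C (X ^ M) * X : k[X][X]) μ) = 0 := by
    rw [← Polynomial.aeval_algHom_apply]
    have : aeval z (C y0 + C (X ^ M) * X : k[X][X]) = y := by
      rw [hyz]
      simp [lzt_algebraMap_eq_coe]
    rw [this, hμ]
  rw [h7, map_mul, Polynomial.aeval_C, lzt_algebraMap_eq_coe] at h8
  have h9 : aeval z G = 0 := by
    rcases mul_eq_zero.1 h8 with h | h
    · exfalso
      have : ((X ^ (e + M) : k[X]) : 𝒪) = T ^ (e + M) := by simp
      rw [this] at h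
      exact pow_ne_zero _ PowerSeries.X_ne_zero h
    · exact h
  refine ⟨M, y0, z, G, hyz, h9, ?_⟩
  have h10 : derivative G = C β + C X * derivative (κ * X ^ 2) := by
    rw [hG]
    simp only [derivative_add, derivative_C, derivative_mul, derivative_X, zero_mul, zero_add,
      mul_one, derivative_pow]
    ring
  rw [h10, map_add, map_mul, Polynomial.aeval_C, Polynomial.aeval_C, lzt_algebraMap_eq_coe,
    lzt_algebraMap_eq_coe, Polynomial.coe_X, map_add, map_mul, PowerSeries.constantCoeff_X, zero_mul,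
    add_zero, ← PowerSeries.coeff_zero_eq_constantCoeff_apply, Polynomial.coeff_coe]
  exact hβ0

omit [CharZero k] in
theorem lzt_coe_mem (S : Subalgebra k 𝒪) (hT : T ∈ S) (p : k[X]) : (p : 𝒪) ∈ S := by
  induction p using Polynomial.induction_on' with
  | add p q hp hq => rw [Polynomial.coe_add]; exact S.add_mem hp hq
  | monomial n a =>
    rw [← Polynomial.C_mul_X_pow_eq_monomial, Polynomial.coe_mul, Polynomial.coe_pow,
      Polynomial.coe_X, Polynomial.coe_C]
    exact S.mul_mem (S.algebraMap_mem a) (S.pow_mem hT n)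

omit [CharZero k] in
theorem lzt_aeval_mem (S : Subalgebra k 𝒪) (hT : T ∈ S) {z : 𝒪} (hz : z ∈ S) (r : k[X][X]) :
    aeval z r ∈ S := by
  induction r using Polynomial.induction_on' with
  | add p q hp hq => rw [map_add]; exact S.add_mem hp hq
  | monomial n a =>
    rw [Polynomial.aeval_monomial, lzt_algebraMap_eq_coe]
    exact S.mul_mem (lzt_coe_mem S hT a) (S.pow_mem hz n)

/-- **RA3**, generator form. -/
theorem lzt_RA3 {y : 𝒪} (hy : IsAlgebraic k[X] y) :
    ∃ s : Finset 𝒪, T ∈ s ∧ y ∈ Algebra.adjoin k (s : Set 𝒪) ∧ (∀ g ∈ s, IsAlgebraic k[X] g) ∧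
      ∀ g ∈ s, Dt g ∈ Algebra.adjoin k (s : Set 𝒪) := by
  classical
  obtain ⟨M, y0, z, G, hyz, hG, hb⟩ := lzt_RA3_core hy
  set b : 𝒪 := aeval z (derivative G) with hbdef
  have hbb : b⁻¹ * b = 1 := PowerSeries.inv_mul_cancel b hb
  have hb0 : b ≠ 0 := by
    rintro h
    rw [h] at hb
    simp at hb
  set s : Finset 𝒪 := {T, z, b⁻¹} with hs
  set S : Subalgebra k 𝒪 := Algebra.adjoin k (s : Set 𝒪) with hS
  have hTS : T ∈ S := Algebra.subset_adjoin (by simp [hs])
  have hzS : z ∈ S := Algebra.subset_adjoin (by simp [hs])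
  have hbS : b⁻¹ ∈ S := Algebra.subset_adjoin (by simp [hs])
  have hzalg : IsAlgebraic k[X] z := by
    apply lzt_alg_of_X_pow_mul M
    have : T ^ M * z = y - (y0 : 𝒪) := by rw [hyz]; ring
    rw [this]
    exact hy.sub (lzt_alg_coe y0)
  have hbalg : IsAlgebraic k[X] b := lzt_alg_aeval hzalg _
  have hbinvalg : IsAlgebraic k[X] b⁻¹ := by
    apply lzt_alg_of_mul hb0 hbalg
    rw [mul_comm, hbb]
    exact isAlgebraic_one
  -- `Dt z`
  obtain ⟨r, hr⟩ := lzt_der_aeval z G
  rw [hG, map_zero, ← hbdef] at hr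
  have hDz : Dt z = b⁻¹ * (-aeval z r) := by
    have : b * Dt z = -aeval z r := by linear_combination -hr
    calc Dt z = (b⁻¹ * b) * Dt z := by rw [hbb, one_mul]
      _ = b⁻¹ * (b * Dt z) := by ring
      _ = _ := by rw [this]
  have hDzS : Dt z ∈ S := by
    rw [hDz]
    exact S.mul_mem hbS (S.neg_mem (lzt_aeval_mem S hTS hzS r))
  obtain ⟨r', hr'⟩ := lzt_der_aeval z (derivative G)
  have hDbS : Dt b ∈ S := by
    rw [hbdef, hr']
    exact S.add_mem (lzt_aeval_mem S hTS hzS r') (S.mul_mem (lzt_aeval_mem S hTS hzS _) hDzS)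
  refine ⟨s, by simp [hs], ?_, ?_, ?_⟩
  · rw [hyz]
    exact S.add_mem (lzt_coe_mem S hTS y0) (S.mul_mem (S.pow_mem hTS M) hzS)
  · intro g hg
    simp only [hs, Finset.mem_insert, Finset.mem_singleton] at hg
    rcases hg with rfl | rfl | rfl
    · exact lzt_alg_X
    · exact hzalg
    · exact hbinvalg
  · intro g hg
    simp only [hs, Finset.mem_insert, Finset.mem_singleton] at hg
    rcases hg with rfl | rfl | rfl
    · rw [PowerSeries.derivative_X]; exact S.one_mem
    · exact hDzS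
    · rw [PowerSeries.derivative_inv']
      exact S.mul_mem (S.neg_mem (S.pow_mem hbS 2)) hDbS

/-- **RA4**, generator form. -/
theorem lzt_RA4_gen (ys : Finset 𝒪) (h : ∀ y ∈ ys, IsAlgebraic k[X] y) :
    ∃ s : Finset 𝒪, T ∈ s ∧ (∀ y ∈ ys, y ∈ Algebra.adjoin k (s : Set 𝒪)) ∧
      (∀ g ∈ s, IsAlgebraic k[X] g) ∧ ∀ g ∈ s, Dt g ∈ Algebra.adjoin k (s : Set 𝒪) := by
  classical
  induction ys using Finset.induction_on with
  | empty =>
    refine ⟨{T}, by simp, by simp, ?_, ?_⟩
    · intro g hg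
      rw [Finset.mem_singleton] at hg
      rw [hg]; exact lzt_alg_X
    · intro g hg
      rw [Finset.mem_singleton] at hg
      rw [hg, PowerSeries.derivative_X]; exact Subalgebra.one_mem _
  | insert y ys hy ih =>
    obtain ⟨s1, hT1, hy1, ha1, hd1⟩ := ih fun y' hy' => h y' (Finset.mem_insert_of_mem hy')
    obtain ⟨s2, hT2, hy2, ha2, hd2⟩ := lzt_RA3 (h y (Finset.mem_insert_self _ _))
    have hle1 : Algebra.adjoin k (s1 : Set 𝒪) ≤ Algebra.adjoin k ((s1 ∪ s2 : Finset 𝒪) : Set 𝒪) :=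
      Algebra.adjoin_mono (by simp)
    have hle2 : Algebra.adjoin k (s2 : Set 𝒪) ≤ Algebra.adjoin k ((s1 ∪ s2 : Finset 𝒪) : Set 𝒪) :=
      Algebra.adjoin_mono (by simp)
    refine ⟨s1 ∪ s2, Finset.mem_union_left _ hT1, ?_, ?_, ?_⟩
    · intro y' hy'
      rcases Finset.mem_insert.1 hy' with rfl | hy'
      · exact hle2 hy2
      · exact hle1 (hy1 y' hy')
    · intro g hg
      rcases Finset.mem_union.1 hg with hg | hg
      · exact ha1 g hg
      · exact ha2 g hg
    · intro g hg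
      rcases Finset.mem_union.1 hg with hg | hg
      · exact hle1 (hd1 g hg)
      · exact hle2 (hd2 g hg)

omit [CharZero k] in
/-- a derivation maps `adjoin k s` into a subalgebra `S ⊇ adjoin k s` as soon as it does so on `s` -/
theorem lzt_der_adjoin_mem (s : Set 𝒪) (hd : ∀ g ∈ s, Dt g ∈ Algebra.adjoin k s) :
    ∀ x ∈ Algebra.adjoin k s, Dt x ∈ Algebra.adjoin k s := by
  intro x hx
  induction hx using Algebra.adjoin_induction with
  | mem x hx => exact hd x hx
  | algebraMap r => rw [Derivation.map_algebraMap]; exact Subalgebra.zero_mem _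
  | add x y hx hy h1 h2 => rw [map_add]; exact Subalgebra.add_mem _ h1 h2
  | mul x y hx hy h1 h2 =>
    rw [Derivation.leibniz]
    exact Subalgebra.add_mem _ (Subalgebra.mul_mem _ hx h2) (Subalgebra.mul_mem _ hy h1)

omit [CharZero k] in
theorem lzt_alg_adjoin (s : Set 𝒪) (ha : ∀ g ∈ s, IsAlgebraic k[X] g) :
    ∀ x ∈ Algebra.adjoin k s, IsAlgebraic k[X] x := by
  intro x hx
  induction hx using Algebra.adjoin_induction with
  | mem x hx => exact ha x hx
  | algebraMap r =>
    have := lzt_alg_coe (k := k) (C r)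
    rwa [Polynomial.coe_C] at this
  | add x y hx hy h1 h2 => exact h1.add h2
  | mul x y hx hy h1 h2 => exact h1.mul h2

/-- **RA4.**  Finitely many algebraic series lie in a finitely generated `k`-subalgebra of `k⟦t⟧` which
consists of algebraic series, contains `t` and is stable under `d/dt`. -/
theorem lzt_RA4 (ys : Finset 𝒪) (h : ∀ y ∈ ys, IsAlgebraic k[X] y) :
    ∃ S : Subalgebra k 𝒪, S.FG ∧ T ∈ S ∧ (∀ y ∈ ys, y ∈ S) ∧ (∀ x ∈ S, IsAlgebraic k[X] x) ∧
      ∀ x ∈ S, Dt x ∈ S := by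
  obtain ⟨s, hT, hy, ha, hd⟩ := lzt_RA4_gen ys h
  exact ⟨Algebra.adjoin k (s : Set 𝒪), Subalgebra.fg_adjoin_finset s, Algebra.subset_adjoin hT, hy,
    lzt_alg_adjoin _ ha, lzt_der_adjoin_mem _ hd⟩

omit [CharZero k] in
theorem lzt_exists_not_CX_dvd {x : 𝒪} (hx : IsAlgebraic k[X] x) :
    ∃ p : k[X][X], aeval x p = 0 ∧ ¬ (C (X : k[X]) ∣ p) := by
  have key : ∀ (n : ℕ) (p : k[X][X]), p ≠ 0 → p.leadingCoeff.natDegree ≤ n → aeval x p = 0 →
      ∃ p : k[X][X], aeval x p = 0 ∧ ¬ (C (X : k[X]) ∣ p) := by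
    intro n
    induction n with
    | zero =>
      intro p h0 hd hp
      refine ⟨p, hp, ?_⟩
      rintro ⟨p1, rfl⟩
      have hp1 : p1 ≠ 0 := right_ne_zero_of_mul h0
      rw [Polynomial.leadingCoeff_mul, Polynomial.leadingCoeff_C,
        Polynomial.natDegree_X_mul (Polynomial.leadingCoeff_ne_zero.2 hp1)] at hd
      omega
    | succ n ih =>
      intro p h0 hd hp
      by_cases hdvd : C (X : k[X]) ∣ p
      · obtain ⟨p1, rfl⟩ := hdvd
        have hp1 : p1 ≠ 0 := right_ne_zero_of_mul h0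
        rw [Polynomial.leadingCoeff_mul, Polynomial.leadingCoeff_C,
          Polynomial.natDegree_X_mul (Polynomial.leadingCoeff_ne_zero.2 hp1)] at hd
        refine ih p1 hp1 (by omega) ?_
        rw [map_mul, Polynomial.aeval_C, lzt_algebraMap_eq_coe, Polynomial.coe_X] at hp
        exact (mul_eq_zero.1 hp).resolve_left PowerSeries.X_ne_zero
      · exact ⟨p, hp, hdvd⟩
  obtain ⟨p, h0, hp⟩ := hx
  exact key _ p h0 le_rfl hp

omit [CharZero k] in
theorem lzt_exists_ord_poly {u : k[X]} (hu : u ≠ 0) :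
    ∃ (e : ℕ) (v : k[X]), u = X ^ e * v ∧ v.coeff 0 ≠ 0 := by
  classical
  have hex : ∃ n, u.coeff n ≠ 0 := by
    by_contra hcon
    push Not at hcon
    exact hu (Polynomial.ext hcon)
  have hdvd : (X : k[X]) ^ (Nat.find hex) ∣ u := by
    rw [Polynomial.X_pow_dvd_iff]
    intro m hm
    by_contra h
    exact Nat.find_min hex hm h
  have h1 := Nat.find_spec hex
  generalize Nat.find hex = e at hdvd h1
  obtain ⟨v, hv⟩ := hdvd
  refine ⟨e, v, hv, ?_⟩
  rw [hv] at h1
  have h2 := Polynomial.coeff_X_pow_mul v e 0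
  rw [zero_add] at h2
  rwa [h2] at h1

omit [CharZero k] in
/-- **RA5.**  An algebraic series `x` satisfies `x ^ a * q(x) = t * r(t, x)` with `q ∈ k[Z]`, `q(0) ≠ 0`. -/
theorem lzt_RA5 {x : 𝒪} (hx : IsAlgebraic k[X] x) :
    ∃ (a : ℕ) (q : k[X]) (r : k[X][X]), q.coeff 0 ≠ 0 ∧ x ^ a * aeval x q = T * aeval x r := by
  obtain ⟨p, hp, hdvd⟩ := lzt_exists_not_CX_dvd hx
  set p0 : k[X] := p.map (Polynomial.constantCoeff (R := k)) with hp0
  have hp0ne : p0 ≠ 0 := by
    intro h
    apply hdvd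
    rw [Polynomial.C_dvd_iff_dvd_coeff]
    intro i
    rw [Polynomial.X_dvd_iff]
    have := congrArg (fun f => Polynomial.coeff f i) h
    simpa [hp0, Polynomial.coeff_map] using this
  have hdiff : C (X : k[X]) ∣ p - p0.map C := by
    rw [Polynomial.C_dvd_iff_dvd_coeff]
    intro i
    rw [Polynomial.X_dvd_iff]
    simp [hp0, Polynomial.coeff_map]
  obtain ⟨p2, hp2⟩ := hdiff
  obtain ⟨a, q, hq, hq0⟩ := lzt_exists_ord_poly hp0ne
  refine ⟨a, q, -p2, hq0, ?_⟩
  have h1 : aeval x (p0.map C : k[X][X]) = aeval x p0 :=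
    Polynomial.aeval_map_algebraMap (A := k[X]) x p0
  have h2 : aeval x p = aeval x p0 + T * aeval x p2 := by
    have : p = p0.map C + C X * p2 := by rw [← hp2]; ring
    conv_lhs => rw [this]
    rw [map_add, map_mul, h1, Polynomial.aeval_C, lzt_algebraMap_eq_coe, Polynomial.coe_X]
  rw [hp, hq, map_mul, map_pow, Polynomial.aeval_X] at h2
  rw [map_neg]
  linear_combination -h2

omit [CharZero k] in
theorem lzt_constantCoeff_aeval (x : 𝒪) (q : k[X]) :
    PowerSeries.constantCoeff (aeval x q) = q.eval (PowerSeries.constantCoeff x) := by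
  rw [Polynomial.aeval_def, Polynomial.hom_eval₂]
  have : (PowerSeries.constantCoeff (R := k)).comp (algebraMap k 𝒪) = RingHom.id k := by
    ext c
    simp
  rw [this, Polynomial.eval₂_id]

omit [CharZero k] in
/-- **RA5**, membership form: the form used for the local certificate. -/
theorem lzt_RA5' {x : 𝒪} (hx : IsAlgebraic k[X] x) (hx0 : PowerSeries.constantCoeff x = 0)
    (S : Subalgebra k 𝒪) (hT : T ∈ S) (hxS : x ∈ S) :
    ∃ a : ℕ, ∃ h ∈ S, ∃ r ∈ S, PowerSeries.constantCoeff h ≠ 0 ∧ h * x ^ a = T * r := by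
  obtain ⟨a, q, r, hq0, h⟩ := lzt_RA5 hx
  refine ⟨a, aeval x q, ?_, aeval x r, lzt_aeval_mem S hT hxS r, ?_, by rw [mul_comm, h]⟩
  · have := Polynomial.aeval_mem_adjoin_singleton k x (p := q)
    exact (Algebra.adjoin_le (by simpa using hxS) : Algebra.adjoin k {x} ≤ S) this
  · rw [lzt_constantCoeff_aeval, hx0, ← Polynomial.coeff_zero_eq_eval_zero]
    exact hq0

end RA

end Claimed.Agent.R246
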