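import Claimed.Agent.R246.T.Main3
import Claimed.Agent.R246.F1.Main
import Claimed.Agent.R246.F1.FinData

/-!
# Row 246: gluing data `F1.DD` (or finite data `F1.FinData`) ⟹ the frozen statement S0485
(Theorem T ∘ module F1; helper615)
-/

set_option autoImplicit false

namespace Claimed.Agent.R246

theorem lzGoal_of_dd (d : F1.DD) : LZGoal := by
  obtain ⟨_, _, _, _, ⟨F⟩⟩ := F1.fc_of_dd d
  exact theoremT (F1.Ahat d) F

theorem lzGoal_of_finData (f : F1.FinData) : LZGoal := by
  obtain ⟨d⟩ := F1.exists_DD f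
  exact lzGoal_of_dd d

end Claimed.Agent.R246
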